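import Crest.Agent.R103.Geo1

/-!
# Algebra of frames, shifts and reflections (task Alg)
Coordinates: `ext i; fin_cases i; simp [fr, J, ...]`, with `sph_sq`, `sg_sq` and
`n 0 ^ 2 + n 1 ^ 2 = 1` in `linear_combination`.
-/

set_option autoImplicit false
set_option linter.unusedSectionVars false
set_option linter.unusedVariables false

open MeasureTheory Filter Topology Complex
open Crest.AnalysisR.Billiard
open scoped RealInnerProductSpace

noncomputable section

namespace Crest.Agent.R103

theorem sg_not (b : Bool) : sg (!b) = -sg b := by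
  cases b <;> simp [sg]

theorem J_J (v : Plane) : J (J v) = -v := by
  ext i; fin_cases i <;> simp [J]

theorem continuous_J : Continuous J := by
  unfold J
  fun_prop

theorem fr_add (e : Dir) (h k : ℂ) : fr e (h + k) = fr e h + fr e k := by
  simp only [fr, Complex.add_re, Complex.add_im, mul_add, add_smul]
  abel

theorem fr_smul (e : Dir) (s : ℝ) (h : ℂ) : fr e (s * h) = s • fr e h := by
  simp only [fr, Complex.re_ofReal_mul, Complex.im_ofReal_mul, smul_add, smul_smul]
  congr 2
  ring

theorem fr_ofReal (e : Dir) (s : ℝ) : fr e s = s • (e.1 : Plane) := by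
  simp [fr]

theorem fr_zero (e : Dir) : fr e 0 = 0 := by
  simp [fr]

theorem fr_neg (e : Dir) (h : ℂ) : fr e (-h) = -fr e h := by
  simp only [fr, Complex.neg_re, Complex.neg_im, mul_neg, neg_smul, neg_add]

/-- `fr e` as a linear isometry -/
theorem exists_frL (e : Dir) : ∃ L : ℂ ≃ₗᵢ[ℝ] Plane, ∀ h, L h = fr e h := by
  let L0 : ℂ →ₗᵢ[ℝ] Plane :=
    { toFun := fr e
      map_add' := fr_add e
      map_smul' := fun s h => by
        rw [Complex.real_smul, fr_smul]; rfl
      norm_map' := norm_fr e }
  have hd : Module.finrank ℝ ℂ = Module.finrank ℝ Plane := by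
    simp [Complex.finrank_real_complex]
  exact ⟨L0.toLinearIsometryEquiv hd, fun h => rfl⟩

theorem continuous_fr : Continuous fun p : Dir × ℂ => fr p.1 p.2 := by
  have h1 : Continuous sg := continuous_of_discreteTopology
  have h2 := continuous_J
  unfold fr
  fun_prop

theorem fr_rotD (φ : ℝ) (e : Dir) (h : ℂ) : fr (rotD φ e) h = fr e (exp (φ * I) * h) := by
  have h3 := sg_sq e.2
  change h.re • fr e (exp (φ * I)) + (sg e.2 * h.im) • J (fr e (exp (φ * I))) = _
  generalize exp (φ * I) = z
  ext i
  fin_cases i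
  · simp [fr, J]
    linear_combination (-(h.im * z.im * (e.1 : Plane) 0)) * h3
  · simp [fr, J]
    linear_combination (-(h.im * z.im * (e.1 : Plane) 1)) * h3

theorem rotD_zero (e : Dir) : rotD 0 e = e := by
  refine Prod.ext (Subtype.ext ?_) rfl
  simp [rotD, fr]

theorem rotD_add (s t : ℝ) (e : Dir) : rotD s (rotD t e) = rotD (s + t) e := by
  refine Prod.ext (Subtype.ext ?_) rfl
  change fr (rotD t e) (exp (s * I)) = fr e (exp ((s + t : ℝ) * I))
  rw [fr_rotD, ← Complex.exp_add]
  congr 2
  push_cast; ring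

theorem rotD_two_pi (e : Dir) : rotD (2 * Real.pi) e = e := by
  refine Prod.ext (Subtype.ext ?_) rfl
  change fr e (exp (((2 * Real.pi : ℝ) : ℂ) * I)) = e.1
  rw [show (((2 * Real.pi : ℝ) : ℂ) * I) = 2 * Real.pi * I by push_cast; ring, Complex.exp_two_pi_mul_I]
  simp [fr]

theorem rotD_pi (e : Dir) : ((rotD Real.pi e).1 : Plane) = -(e.1 : Plane) := by
  change fr e (exp ((Real.pi : ℂ) * I)) = -(e.1 : Plane)
  rw [Complex.exp_pi_mul_I]
  simp [fr]

theorem continuous_rotD : Continuous fun p : ℝ × Dir => rotD p.1 p.2 := by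
  refine Continuous.prodMk (Continuous.subtype_mk ?_ _) (by fun_prop)
  exact continuous_fr.comp (f := fun p : ℝ × Dir => (p.2, exp (p.1 * I))) (by fun_prop)

theorem shift_zero (y : St) : shift 0 y = y := by
  simp [shift, fr_zero]

theorem shift_add (h k : ℂ) (y : St) : shift k (shift h y) = shift (h + k) y := by
  simp only [shift, fr_add, add_assoc]

theorem shift_rot (h : ℂ) (φ : ℝ) (y : St) :
    shift h (rot φ y) = rot φ (shift (exp (φ * I) * h) y) := by
  simp only [shift, rot, fr_rotD]

theorem norm_shift_sub (h : ℂ) (y : St) : ‖(shift h y).1 - y.1‖ = ‖h‖ := by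
  simp only [shift, add_sub_cancel_left, norm_fr]

theorem continuous_shift : Continuous fun p : ℂ × St => shift p.1 p.2 := by
  have h : Continuous fun p : ℂ × St => fr p.2.2 p.1 :=
    continuous_fr.comp (f := fun p : ℂ × St => (p.2.2, p.1)) (by fun_prop)
  exact ((continuous_fst.comp continuous_snd).add h).prodMk (continuous_snd.comp continuous_snd)

theorem continuous_rot : Continuous fun p : ℝ × St => rot p.1 p.2 := by
  have h : Continuous fun p : ℝ × St => rotD p.1 p.2.2 :=
    continuous_rotD.comp (f := fun p : ℝ × St => (p.1, p.2.2)) (by fun_prop)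
  exact (continuous_fst.comp continuous_snd).prodMk h

theorem measurable_shift (h : ℂ) : Measurable (shift h) := by
  exact (continuous_shift.comp (f := fun y : St => (h, y)) (by fun_prop)).measurable

theorem measurable_rot (φ : ℝ) : Measurable (rot φ) := by
  exact (continuous_rot.comp (f := fun y : St => (φ, y)) (by fun_prop)).measurable

namespace Tri

variable (T : Tri)

theorem mir_mir (i : Fin 3) (v : Plane) : T.mir i (T.mir i v) = v := by
  have h1 : ⟪T.n i, T.n i⟫ = (1 : ℝ) := by
    rw [real_inner_self_eq_norm_sq, T.norm_n]; norm_num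
  have h2 : ⟪T.mir i v, T.n i⟫ = -⟪v, T.n i⟫ := by
    rw [mir, inner_sub_left, real_inner_smul_left, h1]; ring
  rw [mir, h2, mir]
  module

theorem inner_mir (i : Fin 3) (v : Plane) : ⟪T.mir i v, T.n i⟫ = -⟪v, T.n i⟫ := by
  have h1 : ⟪T.n i, T.n i⟫ = (1 : ℝ) := by
    rw [real_inner_self_eq_norm_sq, T.norm_n]; norm_num
  rw [mir, inner_sub_left, real_inner_smul_left, h1]; ring

theorem mir_J (i : Fin 3) (v : Plane) : T.mir i (J v) = -J (T.mir i v) := by
  have h1 : T.n i 0 ^ 2 + T.n i 1 ^ 2 = 1 := by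
    have := EuclideanSpace.real_norm_sq_eq (T.n i)
    rw [T.norm_n, Fin.sum_univ_two] at this
    linarith
  have hin : ∀ w : Plane, ⟪w, T.n i⟫ = w 0 * T.n i 0 + w 1 * T.n i 1 := by
    intro w
    rw [PiLp.inner_apply, Fin.sum_univ_two]
    simp [mul_comm]
  ext k
  fin_cases k
  · simp [mir, J, hin]
    linear_combination (2 * v 1) * h1
  · simp [mir, J, hin]
    linear_combination (-2 * v 0) * h1

theorem algb_mir_add (i : Fin 3) (v w : Plane) : T.mir i (v + w) = T.mir i v + T.mir i w := by
  simp only [mir, inner_add_left]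
  module

theorem algb_mir_smul (i : Fin 3) (c : ℝ) (v : Plane) : T.mir i (c • v) = c • T.mir i v := by
  simp only [mir, real_inner_smul_left]
  module

theorem algb_continuous_mir (i : Fin 3) : Continuous (T.mir i) := by
  unfold mir
  fun_prop

theorem exists_mirL (i : Fin 3) : ∃ L : Plane ≃ₗᵢ[ℝ] Plane, ∀ v, L v = T.mir i v := by
  let L0 : Plane →ₗ[ℝ] Plane :=
    { toFun := T.mir i
      map_add' := fun v w => T.algb_mir_add i v w
      map_smul' := fun c v => T.algb_mir_smul i c v }
  let L1 : Plane ≃ₗ[ℝ] Plane :=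
    { L0 with
      invFun := T.mir i
      left_inv := fun v => T.mir_mir i v
      right_inv := fun v => T.mir_mir i v }
  exact ⟨⟨L1, fun v => T.norm_mir i v⟩, fun v => rfl⟩

theorem fr_rD (i : Fin 3) (e : Dir) (h : ℂ) : fr (T.rD i e) h = T.mir i (fr e h) := by
  simp only [fr, rD, sg_not, algb_mir_add, algb_mir_smul, mir_J]
  module

theorem rD_rD (i : Fin 3) (e : Dir) : T.rD i (T.rD i e) = e := by
  obtain ⟨⟨v, hv⟩, b⟩ := e
  simp only [rD, mir_mir, Bool.not_not]

theorem rD_rotD (i : Fin 3) (φ : ℝ) (e : Dir) : T.rD i (rotD φ e) = rotD φ (T.rD i e) := by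
  refine Prod.ext (Subtype.ext ?_) rfl
  show T.mir i (fr e (exp (φ * I))) = fr (T.rD i e) (exp (φ * I))
  rw [fr_rD]

theorem continuous_rD (i : Fin 3) : Continuous (T.rD i) := by
  refine Continuous.prodMk (Continuous.subtype_mk ?_ _) ?_
  · exact (T.algb_continuous_mir i).comp (continuous_subtype_val.comp continuous_fst)
  · exact (continuous_of_discreteTopology (f := fun b : Bool => !b)).comp continuous_snd

theorem ell_rP (i : Fin 3) (x : Plane) : T.ell i (T.rP i x) = -T.ell i x := by
  have h1 : ⟪T.n i, T.n i⟫ = (1 : ℝ) := by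
    rw [real_inner_self_eq_norm_sq, T.norm_n]; norm_num
  rw [rP, sub_eq_add_neg, ell_add, inner_neg_left, real_inner_smul_left, h1]; ring

theorem rP_rP (i : Fin 3) (x : Plane) : T.rP i (T.rP i x) = x := by
  rw [rP, ell_rP, rP]
  module

theorem rP_add (i : Fin 3) (x v : Plane) : T.rP i (x + v) = T.rP i x + T.mir i v := by
  rw [rP, ell_add, rP, mir]
  module

theorem rP_of_ell_eq_zero {i : Fin 3} {x : Plane} (h : T.ell i x = 0) : T.rP i x = x := by
  rw [rP, h]; simp

/-- reflecting a point beyond the side brings it closer to the points inside -/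
theorem norm_rP_sub_le {i : Fin 3} {x x' : Plane} (hx : 0 ≤ T.ell i x) (hx' : T.ell i x' ≤ 0) :
    ‖T.rP i x' - x‖ ≤ ‖x' - x‖ := by
  have h1 : T.rP i x' - x = (x' - x) - (2 * T.ell i x') • T.n i := by
    rw [rP]; module
  have h2 : ⟪x' - x, T.n i⟫ = T.ell i x' - T.ell i x := by
    have := T.ell_add i x (x' - x)
    rw [add_sub_cancel] at this
    linarith
  rw [← sq_le_sq₀ (norm_nonneg _) (norm_nonneg _), h1, norm_sub_sq_real, real_inner_smul_right,
    norm_smul, T.norm_n, Real.norm_eq_abs, mul_one, sq_abs, h2]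
  nlinarith [mul_nonneg hx (neg_nonneg.2 hx')]

theorem continuous_rP (i : Fin 3) : Continuous (T.rP i) := by
  have := T.continuous_ell i
  unfold rP
  fun_prop

theorem refl_refl (i : Fin 3) (y : St) : T.refl i (T.refl i y) = y := by
  simp only [refl, rP_rP, rD_rD]

theorem shift_refl (i : Fin 3) (h : ℂ) (y : St) :
    shift h (T.refl i y) = T.refl i (shift h y) := by
  simp only [shift, refl, rP_add, fr_rD]

theorem refl_rot (i : Fin 3) (φ : ℝ) (y : St) : T.refl i (rot φ y) = rot φ (T.refl i y) := by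
  simp only [refl, rot, rD_rotD]

theorem ell_shift (i : Fin 3) (s : ℝ) (h : ℂ) (y : St) :
    T.ell i (shift (s * h) y).1 = T.ell i y.1 + s * ⟪fr y.2 h, T.n i⟫ := by
  simp only [shift]
  rw [ell_add, fr_smul, real_inner_smul_left]

theorem continuous_refl (i : Fin 3) : Continuous (T.refl i) := by
  exact ((T.continuous_rP i).comp continuous_fst).prodMk ((T.continuous_rD i).comp continuous_snd)

theorem measurable_refl (i : Fin 3) : Measurable (T.refl i) := by
  exact (T.continuous_refl i).measurable

theorem algb_measurable_fold : Measurable T.fold := by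
  have hm : ∀ i, MeasurableSet {y : St | T.ell i y.1 ≤ 0} := fun i =>
    measurableSet_le ((T.continuous_ell i).measurable.comp measurable_fst) measurable_const
  unfold fold
  exact Measurable.ite (hm 0) (T.measurable_refl 0) (Measurable.ite (hm 1) (T.measurable_refl 1)
    (Measurable.ite (hm 2) (T.measurable_refl 2) measurable_id))

theorem measurable_step (h : ℂ) : Measurable (T.step h) := by
  exact T.algb_measurable_fold.comp (measurable_shift h)

theorem fold_of_In {y : St} (h : y.1 ∈ T.In) : T.fold y = y := by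
  have h0 := h 0
  have h1 := h 1
  have h2 := h 2
  rw [fold, if_neg (not_le.2 h0), if_neg (not_le.2 h1), if_neg (not_le.2 h2)]

theorem fold_of_le {y : St} {i : Fin 3} (h : T.ell i y.1 ≤ 0) (h' : ∀ j, j ≠ i → 0 < T.ell j y.1) :
    T.fold y = T.refl i y := by
  fin_cases i
  · exact if_pos h
  · have h0 := h' 0 (by decide)
    rw [fold, if_neg (not_le.2 h0)]
    exact if_pos h
  · have h0 := h' 0 (by decide)
    have h1 := h' 1 (by decide)
    rw [fold, if_neg (not_le.2 h0), if_neg (not_le.2 h1)]
    exact if_pos h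

theorem measurableSet_Gd (h : ℂ) (n : ℕ) : MeasurableSet (T.Gd h n) := by
  have : T.Gd h n = ⋂ i ∈ Finset.range n, (fun y => ((T.step h)^[i] y).1) ⁻¹'
      (T.In ∩ {x | 2 * ‖h‖ < T.dd x}) := by
    ext y
    simp [Gd]
  rw [this]
  refine Finset.measurableSet_biInter _ fun i _ => ?_
  refine (measurable_fst.comp ((T.measurable_step h).iterate i)) ?_
  exact T.measurableSet_In.inter (measurableSet_lt measurable_const T.continuous_dd.measurable)

theorem measurable_tau (h : ℂ) : Measurable (T.tau h) := by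
  classical
  intro s hs
  have key : T.tau h ⁻¹' s =
      (⋃ n : ℕ, (T.Gd (h / (n + 1)) (n + 1) ∩ (⋂ m ∈ Finset.range n, (T.Gd (h / (m + 1)) (m + 1))ᶜ))
        ∩ (T.step (h / (n + 1)))^[n + 1] ⁻¹' s) ∪
      ((⋃ n : ℕ, T.Gd (h / (n + 1)) (n + 1))ᶜ ∩ s) := by
    ext y
    simp only [Set.mem_preimage, Set.mem_union, Set.mem_iUnion, Set.mem_inter_iff,
      Set.mem_iInter, Set.mem_compl_iff, Finset.mem_range]
    by_cases H : ∃ n : ℕ, y ∈ T.Gd (h / (n + 1)) (n + 1)
    · rw [tau, dif_pos H]
      constructor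
      · intro hy
        exact Or.inl ⟨Nat.find H, ⟨Nat.find_spec H, fun m hm => Nat.find_min H hm⟩, hy⟩
      · rintro (⟨n, ⟨h1, h2⟩, h3⟩ | ⟨h1, _⟩)
        · have : Nat.find H = n := (Nat.find_eq_iff H).2 ⟨h1, h2⟩
          rw [this]; exact h3
        · exact absurd H h1
    · rw [tau, dif_neg H]
      constructor
      · intro hy
        exact Or.inr ⟨H, hy⟩
      · rintro (⟨n, ⟨h1, _⟩, _⟩ | ⟨_, h1⟩)
        · exact absurd ⟨n, h1⟩ H
        · exact h1
  rw [key]
  refine MeasurableSet.union (MeasurableSet.iUnion fun n => ?_) ?_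
  · refine ((T.measurableSet_Gd _ _).inter ?_).inter (((T.measurable_step _).iterate _) hs)
    exact Finset.measurableSet_biInter _ fun m _ => (T.measurableSet_Gd _ _).compl
  · exact (MeasurableSet.iUnion fun n => T.measurableSet_Gd _ _).compl.inter hs

end Tri

end Crest.Agent.R103
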