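import Crest.Agent.R103.Alg

/-!
# Uniqueness of flight chains (task Ch1)
`exit_unique`: `ell i` is affine along the line.  `chain_eq`: two-sided induction on `k` for the
statement `t k, t (k+1), q k, q (k+1)` agree.  Base: the common point `p.1 ∈ In` lies on both flights
number `0` (`t 0 < 0` because `q 0 ∉ In`); use `exit_unique` with `v` and with `-v`.  Step: the sides
agree (`OnSide.unique`), so the velocities agree (`reflect`, `mirror_eq`, `mir_mir`), and
`q (k+1) = q k + (t (k+1) - t k) • vel k`.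
-/

set_option autoImplicit false
set_option linter.unusedSectionVars false
set_option linter.unusedVariables false

open MeasureTheory Filter Topology Complex
open Crest.AnalysisR.Billiard
open scoped RealInnerProductSpace

noncomputable section

namespace Crest.Agent.R103

namespace Tri

variable (T : Tri)

theorem ch1_exit_le {x v : Plane} {s s' : ℝ} {i j : Fin 3} (hs' : 0 < s') (hj : 0 < T.ell j x)
    (h : T.OnSide i (x + s • v)) (h' : T.OnSide j (x + s' • v)) : s ≤ s' := by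
  have h1 : 0 ≤ T.ell j (x + s • v) := by
    by_cases e : j = i
    · rw [e]; exact h.1.ge
    · exact (h.2 j e).le
  have h2 := h'.1
  rw [T.ell_add, real_inner_smul_left] at h1 h2
  by_contra hc
  push Not at hc
  have h3 : ⟪v, T.n j⟫ < 0 := by
    by_contra h4
    push Not at h4
    nlinarith [mul_nonneg hs'.le h4]
  nlinarith [mul_pos (sub_pos.2 hc) (neg_pos.2 h3)]

theorem exit_unique {x v : Plane} {s s' : ℝ} {i j : Fin 3} (hs : 0 < s) (hs' : 0 < s')
    (hi : 0 < T.ell i x) (hj : 0 < T.ell j x) (h : T.OnSide i (x + s • v))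
    (h' : T.OnSide j (x + s' • v)) : s = s' :=
  le_antisymm (T.ch1_exit_le hs' hj h h') (T.ch1_exit_le hs hi h' h)

theorem ch1_pos (c : Chain T.A) (k : ℤ) : 0 < c.t (k + 1) - c.t k :=
  sub_pos.2 (c.strictMono_t (lt_add_one k))

theorem ch1_next (c : Chain T.A) (k : ℤ) :
    c.q (k + 1) = c.q k + (c.t (k + 1) - c.t k) • c.vel k := by
  rw [Chain.vel, smul_smul, mul_inv_cancel₀ (T.ch1_pos c k).ne', one_smul, add_sub_cancel]

theorem ch1_prev (c : Chain T.A) (k : ℤ) :
    c.q k = c.q (k + 1) + (c.t (k + 1) - c.t k) • -c.vel k := by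
  rw [T.ch1_next c k, smul_neg, add_neg_cancel_right]

theorem ch1_side (c : Chain T.A) (k : ℤ) : T.OnSide (c.side k) (c.q k) :=
  (T.mem_openSide _ _).1 (c.mem_side k)

theorem ch1_vel (c : Chain T.A) (k : ℤ) : c.vel (k + 1) = T.mir (c.side (k + 1)) (c.vel k) := by
  have := c.reflect k
  rw [T.mirror_eq, show k + 2 = k + 1 + 1 by ring] at this
  exact this

theorem ch1_idx (c : Chain T.A) {τ : ℝ} {k l : ℤ} (h1 : c.t k ≤ τ) (h2 : τ < c.t (k + 1))
    (h3 : c.t l ≤ τ) (h4 : τ < c.t (l + 1)) : k = l := by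
  have a := c.strictMono_t.lt_iff_lt.1 (h1.trans_lt h4)
  have b := c.strictMono_t.lt_iff_lt.1 (h3.trans_lt h2)
  omega

theorem ch1_zero {p : Phase} (hp : p.1 ∈ T.In) {c : Chain T.A} (h : c.Through p) :
    0 < -c.t 0 ∧ c.q 0 = p.1 + (-c.t 0) • -(p.2 : Plane) ∧ c.vel 0 = p.2 := by
  obtain ⟨k, h1, h2, h3, h4⟩ := h
  obtain rfl : k = 0 := T.ch1_idx c h1 h2 c.t_zero_le c.t_one_pos
  rw [zero_sub, ← h4] at h3
  refine ⟨lt_of_le_of_ne (neg_nonneg.2 h1) fun e => ?_, ?_, h4.symm⟩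
  · rw [← e, zero_smul, add_zero] at h3
    exact (T.ch1_side c 0).not_In (h3 ▸ hp)
  · rw [h3, smul_neg, add_neg_cancel_right]

theorem ch1_up {c c' : Chain T.A} {k : ℤ}
    (h : c.t k = c'.t k ∧ c.q k = c'.q k ∧ c.vel k = c'.vel k) :
    c.t (k + 1) = c'.t (k + 1) ∧ c.q (k + 1) = c'.q (k + 1) ∧ c.vel (k + 1) = c'.vel (k + 1) := by
  obtain ⟨h1, h2, h3⟩ := h
  have a := T.ch1_side c (k + 1)
  have a' := T.ch1_side c' (k + 1)
  have e : c.t (k + 1) - c.t k = c'.t (k + 1) - c'.t k := by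
    refine T.exit_unique (x := c.q k) (v := c.vel k) (T.ch1_pos c k) (T.ch1_pos c' k)
      ((T.ch1_side c k).2 _ (c.side_ne k)) (h2 ▸ (T.ch1_side c' k).2 _ (c'.side_ne k)) ?_ ?_
    · rwa [← T.ch1_next]
    · rwa [h2, h3, ← T.ch1_next]
  have eq : c.q (k + 1) = c'.q (k + 1) := by rw [T.ch1_next, T.ch1_next, e, h2, h3]
  refine ⟨by linarith, eq, ?_⟩
  have es : c.side (k + 1) = c'.side (k + 1) := a.unique (eq ▸ a')
  rw [T.ch1_vel, T.ch1_vel, h3, es]

theorem ch1_down {c c' : Chain T.A} {k : ℤ}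
    (h : c.t (k + 1) = c'.t (k + 1) ∧ c.q (k + 1) = c'.q (k + 1) ∧
      c.vel (k + 1) = c'.vel (k + 1)) :
    c.t k = c'.t k ∧ c.q k = c'.q k ∧ c.vel k = c'.vel k := by
  obtain ⟨h1, h2, h3⟩ := h
  have a := T.ch1_side c (k + 1)
  have a' := T.ch1_side c' (k + 1)
  have ev : c.vel k = c'.vel k := by
    have es : c.side (k + 1) = c'.side (k + 1) := a.unique (h2 ▸ a')
    rw [T.ch1_vel, T.ch1_vel, ← es] at h3
    rw [← T.mir_mir (c.side (k + 1)) (c.vel k), h3, T.mir_mir]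
  have e : c.t (k + 1) - c.t k = c'.t (k + 1) - c'.t k := by
    refine T.exit_unique (x := c.q (k + 1)) (v := -c.vel k) (T.ch1_pos c k) (T.ch1_pos c' k)
      (a.2 _ (c.side_ne k).symm) (h2 ▸ a'.2 _ (c'.side_ne k).symm) ?_ ?_
    · rw [← T.ch1_prev]
      exact T.ch1_side c k
    · rw [h2, ev, ← T.ch1_prev]
      exact T.ch1_side c' k
  exact ⟨by linarith, by rw [T.ch1_prev c k, T.ch1_prev c' k, e, h2, ev], ev⟩

theorem chain_eq {p : Phase} (hp : p.1 ∈ T.In) {c c' : Chain T.A} (h : c.Through p)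
    (h' : c'.Through p) : c.t = c'.t ∧ c.q = c'.q := by
  have key : ∀ k, c.t k = c'.t k ∧ c.q k = c'.q k ∧ c.vel k = c'.vel k := by
    intro k
    induction k using Int.induction_on with
    | zero =>
      obtain ⟨a1, a2, a3⟩ := T.ch1_zero hp h
      obtain ⟨b1, b2, b3⟩ := T.ch1_zero hp h'
      have e := T.exit_unique a1 b1 (hp _) (hp _) (a2 ▸ T.ch1_side c 0) (b2 ▸ T.ch1_side c' 0)
      exact ⟨neg_injective e, by rw [a2, b2, e], a3.trans b3.symm⟩
    | succ i ih => exact T.ch1_up ih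
    | pred i ih => exact T.ch1_down (by rwa [sub_add_cancel])
  exact ⟨funext fun k => (key k).1, funext fun k => (key k).2.1⟩

theorem chain_unique {p : Phase} (hp : p.1 ∈ T.In) (c c' : Chain T.A) (h : c.Through p)
    (h' : c'.Through p) (τ : ℝ) (y y' : Phase) (hy : c.IsStateAt τ y) (hy' : c'.IsStateAt τ y') :
    y = y' := by
  obtain ⟨ht, hq⟩ := T.chain_eq hp h h'
  obtain ⟨k, a1, a2, a3, a4⟩ := hy
  obtain ⟨l, b1, b2, b3, b4⟩ := hy'
  have hv : c'.vel l = c.vel l := by rw [Chain.vel, Chain.vel, ht, hq]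
  rw [hv] at b3 b4
  rw [← ht] at b1 b2 b3
  rw [← hq] at b3
  obtain rfl := T.ch1_idx c a1 a2 b1 b2
  exact Prod.ext (a3.trans b3.symm) (Subtype.ext (a4.trans b4.symm))

end Tri

end Crest.Agent.R103
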