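import Crest.Agent.R103.Orb

/-!
# One-sided orbits (task Ch2)
Let `Inf y` mean that orbits of all lengths `n : ℕ` start at `y`.  A free flight is shorter than the
diameter (`isBounded_closed`; the start point is a limit of points of `In`), so a long orbit starts
with a hit `(s, i)`; the first hit is unique, hence `Inf (refl i (shift s y))` (one needs a lemma
cutting an orbit: `Orb t y y' → t' ≤ t → ∃ y'', Orb t' y y''`).  Dependent choice gives `s`, `i`, `z`.
By induction on `Orb 1 t (z k) y'` there is `n ≥ k` with `tm n - tm k ≤ t < tm (n+1) - tm k` and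
`y' = shift (t - (tm n - tm k)) (z n)`; this gives divergence and `Ray.state`.
-/

set_option autoImplicit false
set_option linter.unusedSectionVars false
set_option linter.unusedVariables false

open MeasureTheory Filter Topology Complex
open Crest.AnalysisR.Billiard
open scoped RealInnerProductSpace

noncomputable section

namespace Crest.Agent.R103

namespace Tri

variable {T : Tri}

/-- the first collision of the unit speed flow from `y` is at time `s` on side `i` -/
def ch2_Hit (T : Tri) (y : St) (s : ℝ) (i : Fin 3) : Prop :=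
  0 < s ∧ (∀ s' : ℝ, 0 < s' → s' < s → (shift s' y).1 ∈ T.In) ∧ T.OnSide i (shift s y).1

theorem ch2_hit_unique {y : St} {s s' : ℝ} {i i' : Fin 3} (h : ch2_Hit T y s i)
    (h' : ch2_Hit T y s' i') : s = s' ∧ i = i' := by
  have hs : s = s' := by
    rcases lt_trichotomy s s' with hlt | heq | hgt
    · exact absurd (h'.2.1 s h.1 hlt) h.2.2.not_In
    · exact heq
    · exact absurd (h.2.1 s' h'.1 hgt) h'.2.2.not_In
  subst hs
  exact ⟨rfl, h.2.2.unique h'.2.2⟩

theorem ch2_cut {h : ℂ} {t : ℝ} {y y' : St} (o : T.Orb h t y y') :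
    ∀ t' : ℝ, 0 ≤ t' → t' ≤ t → ∃ y'', T.Orb h t' y y'' := by
  induction o with
  | free t y y' ht hin hy =>
    intro t' h0 h1
    exact ⟨_, Orb.free t' y _ h0 (fun s hs hs' => hin s hs (hs'.trans h1)) rfl⟩
  | hit t s a y y' i hts hs hin hon o ih =>
    intro t' h0 h1
    rcases lt_or_ge t' s with hlt | hge
    · exact ⟨_, Orb.free t' y _ h0 (fun s' hs' hs'' => hin s' hs' (hs''.trans_lt hlt)) rfl⟩
    · obtain ⟨y'', o'⟩ := ih (t' - s) (by linarith) (by linarith)
      exact ⟨y'', Orb.hit t' s (t' - s) y y'' i (by ring) hs hin hon o'⟩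

theorem ch2_free_bound (T : Tri) : ∃ D : ℝ, ∀ (y : St) (t : ℝ),
    (∀ s : ℝ, 0 < s → s ≤ t → (shift s y).1 ∈ T.In) → t ≤ D := by
  obtain ⟨C, hC⟩ := Metric.isBounded_iff.1 T.isBounded_In
  refine ⟨max 0 (2 * C), fun y t hin => ?_⟩
  rcases le_or_gt t 0 with ht | ht
  · exact ht.trans (le_max_left _ _)
  · have h1 := hin t ht le_rfl
    have h2 := hin (t / 2) (by linarith) (by linarith)
    have h3 := hC h1 h2
    have h4 : shift (t : ℂ) y = shift ((t / 2 : ℝ) : ℂ) (shift ((t / 2 : ℝ) : ℂ) y) := by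
      rw [shift_add]; congr 1; push_cast; ring
    rw [dist_eq_norm, h4, norm_shift_sub, Complex.norm_real, Real.norm_eq_abs,
      abs_of_pos (by linarith)] at h3
    exact le_max_of_le_right (by linarith)

theorem ch2_long {D : ℝ} (hD : ∀ (y : St) (t : ℝ),
    (∀ s : ℝ, 0 < s → s ≤ t → (shift s y).1 ∈ T.In) → t ≤ D) {t : ℝ} {y y' : St}
    (o : T.Orb 1 t y y') (ht : D < t) :
    ∃ s i, ch2_Hit T y s i ∧ T.Orb 1 (t - s) (T.refl i (shift s y)) y' := by
  cases o with
  | free _ _ _ h0 hin hy =>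
    simp only [mul_one] at hin
    exact absurd (hD y t hin) (not_le.2 ht)
  | hit _ s a _ _ i hts hs hin hon o =>
    simp only [mul_one] at hin hon o
    refine ⟨s, i, ⟨hs, hin, hon⟩, ?_⟩
    have : t - s = a := by linarith
    rwa [this]

theorem ch2_next {y : St} (h : ∀ n : ℕ, ∃ y', T.Orb 1 n y y') :
    ∃ s i, ch2_Hit T y s i ∧ ∀ n : ℕ, ∃ y', T.Orb 1 n (T.refl i (shift s y)) y' := by
  obtain ⟨D, hD⟩ := ch2_free_bound T
  obtain ⟨n₀, hn₀⟩ := exists_nat_gt D
  obtain ⟨y₀, o₀⟩ := h n₀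
  obtain ⟨s, i, hh, -⟩ := ch2_long hD o₀ hn₀
  refine ⟨s, i, hh, fun m => ?_⟩
  obtain ⟨n, hn⟩ := exists_nat_gt (max D (s + m))
  obtain ⟨y₁, o₁⟩ := h n
  obtain ⟨s', i', hh', o'⟩ := ch2_long hD o₁ ((le_max_left _ _).trans_lt hn)
  obtain ⟨rfl, rfl⟩ := ch2_hit_unique hh hh'
  have := (le_max_right _ _).trans_lt hn
  exact ch2_cut o' m (Nat.cast_nonneg m) (by linarith)

theorem ch2_state {s : ℕ → ℝ} {i : ℕ → Fin 3} {z : ℕ → St}
    (hh : ∀ k, ch2_Hit T (z k) (s k) (i k))
    (hz : ∀ k, z (k + 1) = T.refl (i k) (shift (s k) (z k))) {t : ℝ} {y y' : St}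
    (o : T.Orb 1 t y y') : ∀ k, y = z k → ∃ n,
      ∑ j ∈ Finset.range n, s j - ∑ j ∈ Finset.range k, s j ≤ t ∧
      t < ∑ j ∈ Finset.range (n + 1), s j - ∑ j ∈ Finset.range k, s j ∧
      y' = shift ((t - (∑ j ∈ Finset.range n, s j - ∑ j ∈ Finset.range k, s j) : ℝ) : ℂ) (z n) := by
  induction o with
  | free t y y' ht hin hy =>
    intro k hk
    subst hk
    simp only [mul_one] at hin hy
    refine ⟨k, by simpa using ht, ?_, by simpa using hy⟩
    rw [Finset.sum_range_succ, add_sub_cancel_left]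
    by_contra hle
    exact (hh k).2.2.not_In (hin (s k) (hh k).1 (not_lt.1 hle))
  | hit t s₀ a y y' i₀ hts hs hin hon o ih =>
    intro k hk
    subst hk
    simp only [mul_one] at hin hon ih
    obtain ⟨rfl, rfl⟩ := ch2_hit_unique (hh k) ⟨hs, hin, hon⟩
    obtain ⟨n, h1, h2, h3⟩ := ih (k + 1) (hz k).symm
    rw [Finset.sum_range_succ s k] at h1 h2 h3
    refine ⟨n, by linarith, by linarith, ?_⟩
    rw [h3]
    congr 2
    linarith

theorem exists_ray {y : St} (h : ∀ n : ℕ, ∃ y', T.Orb 1 n y y') : Nonempty (T.Ray y) := by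
  have hn := fun (w : {w : St // ∀ n : ℕ, ∃ y', T.Orb 1 n w y'}) => ch2_next w.2
  choose fs fi hf hf' using hn
  let F : {w : St // ∀ n : ℕ, ∃ y', T.Orb 1 n w y'} → {w : St // ∀ n : ℕ, ∃ y', T.Orb 1 n w y'} :=
    fun w => ⟨T.refl (fi w) (shift (fs w) w.1), hf' w⟩
  let w : ℕ → {w : St // ∀ n : ℕ, ∃ y', T.Orb 1 n w y'} := fun k => F^[k] ⟨y, h⟩
  have hh : ∀ k, ch2_Hit T (w k).1 (fs (w k)) (fi (w k)) := fun k => hf _
  have hz : ∀ k, (w (k + 1)).1 = T.refl (fi (w k)) (shift (fs (w k)) (w k).1) := fun k => by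
    simp only [w, Function.iterate_succ_apply', F]
  refine ⟨⟨fun k => fs (w k), fun k => fi (w k), fun k => (w k).1, rfl, fun k => (hh k).1,
    fun k => (hh k).2.1, fun k => (hh k).2.2, hz, ?_⟩⟩
  refine tendsto_atTop_atTop_of_monotone ?_ fun b => ?_
  · refine monotone_nat_of_le_succ fun n => ?_
    rw [Finset.sum_range_succ]
    linarith [(hh n).1]
  · obtain ⟨N, hN⟩ := exists_nat_ge b
    obtain ⟨y', o⟩ := h N
    obtain ⟨n, -, h2, -⟩ := ch2_state (s := fun k => fs (w k)) (i := fun k => fi (w k))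
      (z := fun k => (w k).1) hh hz o 0 rfl
    refine ⟨n + 1, ?_⟩
    simp only [Finset.range_zero, Finset.sum_empty, sub_zero] at h2
    linarith

theorem Ray.state {y y' : St} (r : T.Ray y) {t : ℝ} (o : T.Orb 1 t y y') :
    ∃ n, r.tm n ≤ t ∧ t < r.tm (n + 1) ∧ y' = shift (t - r.tm n : ℝ) (r.z n) := by
  obtain ⟨n, h1, h2, h3⟩ := ch2_state (s := r.s) (i := r.i) (z := r.z)
    (fun k => ⟨r.s_pos k, r.inside k, r.side k⟩) r.z_succ o 0 r.z_zero.symm
  simp only [Finset.range_zero, Finset.sum_empty, sub_zero] at h1 h2 h3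
  exact ⟨n, h1, h2, h3⟩

end Tri

end Crest.Agent.R103
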