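import Crest.Agent.R103.Orb

/-!
# Two rays make a chain (task Ch3)
For `k ≥ 1`: `t k = r.tm k`, `q k = (r.z k).1`, `side k = r.i (k - 1)`.  For `k = -m ≤ 0`:
`t k = -r'.tm (m + 1)`, `q k = (r'.z (m + 1)).1`, `side k = r'.i m`.  It is convenient to introduce
the velocity `w k` of flight `k` (`(r.z k).2.1` for `k ≥ 0`, `-(r'.z m).2.1` for `k = -m ≤ 0`) and to
prove `q (k+1) = q k + (t (k+1) - t k) • w k`, `w (k+1) = mir (side (k+1)) (w k)`.  Consecutive sides
differ because `ell i` is affine and positive at an inner point of the flight.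
-/

set_option autoImplicit false
set_option linter.unusedSectionVars false
set_option linter.unusedVariables false

open MeasureTheory Filter Topology Complex
open Crest.AnalysisR.Billiard
open scoped RealInnerProductSpace

noncomputable section

namespace Crest.Agent.R103

namespace Tri

variable {T : Tri}

/-- glue two sequences to a two-sided sequence -/
def ch3Glue {α : Type*} (f g : ℕ → α) (k : ℤ) : α :=
  if 0 < k then f (k - 1).toNat else g (-k).toNat

theorem ch3Glue_pos {α : Type*} (f g : ℕ → α) (n : ℕ) : ch3Glue f g ((n : ℤ) + 1) = f n := by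
  rw [ch3Glue, if_pos (by omega)]
  simp

theorem ch3Glue_neg {α : Type*} (f g : ℕ → α) (m : ℕ) : ch3Glue f g (-(m : ℤ)) = g m := by
  rw [ch3Glue, if_neg (by omega)]
  simp

theorem ch3Glue_all {α : Type*} {f g : ℕ → α} (Q : α → Prop) (hf : ∀ n, Q (f n))
    (hg : ∀ n, Q (g n)) (k : ℤ) : Q (ch3Glue f g k) := by
  unfold ch3Glue
  split_ifs
  exacts [hf _, hg _]

theorem ch3Glue_step {α : Type*} {f g : ℕ → α} (Q : α → α → Prop)
    (hf : ∀ n, Q (f n) (f (n + 1))) (h0 : Q (g 0) (f 0)) (hg : ∀ m, Q (g (m + 1)) (g m))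
    (k : ℤ) : Q (ch3Glue f g k) (ch3Glue f g (k + 1)) := by
  rcases lt_trichotomy k 0 with hk | rfl | hk
  · obtain ⟨m, hm⟩ : ∃ m : ℕ, k = -((m + 1 : ℕ) : ℤ) := ⟨(-k - 1).toNat, by omega⟩
    have h1 : k + 1 = -(m : ℤ) := by omega
    rw [h1, hm, ch3Glue_neg, ch3Glue_neg]
    exact hg m
  · have h1 := ch3Glue_neg f g 0
    have h2 := ch3Glue_pos f g 0
    simp only [Nat.cast_zero, neg_zero] at h1 h2
    rw [h1, h2]
    exact h0
  · obtain ⟨n, hn⟩ : ∃ n : ℕ, k = (n : ℤ) + 1 := ⟨(k - 1).toNat, by omega⟩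
    have h1 : k + 1 = ((n + 1 : ℕ) : ℤ) + 1 := by omega
    rw [h1, hn, ch3Glue_pos, ch3Glue_pos]
    exact hf n

theorem ch3_shift_fst (s : ℝ) (y : St) : (shift s y).1 = y.1 + s • (y.2.1 : Plane) := by
  rw [shift, fr_ofReal]

theorem ch3_mir_neg (i : Fin 3) (v : Plane) : T.mir i (-v) = -T.mir i v := by
  simp only [mir, inner_neg_left, mul_neg, neg_smul]
  abel

theorem Ray.ch3_pos {y : St} (r : T.Ray y) (n : ℕ) :
    (r.z (n + 1)).1 = (r.z n).1 + r.s n • ((r.z n).2.1 : Plane) := by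
  rw [r.z_succ, ← ch3_shift_fst]
  exact T.rP_of_ell_eq_zero (r.side n).1

theorem Ray.ch3_vel {y : St} (r : T.Ray y) (n : ℕ) :
    ((r.z (n + 1)).2.1 : Plane) = T.mir (r.i n) (r.z n).2.1 := by
  rw [r.z_succ]
  rfl

theorem Ray.ch3_side {y : St} (r : T.Ray y) (n : ℕ) : T.OnSide (r.i n) (r.z (n + 1)).1 := by
  rw [r.ch3_pos, ← ch3_shift_fst]
  exact r.side n

theorem Ray.ch3_in {y : St} (r : T.Ray y) (n : ℕ) :
    (r.z n).1 + (r.s n / 2) • ((r.z n).2.1 : Plane) ∈ T.In := by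
  rw [← ch3_shift_fst]
  exact r.inside n _ (half_pos (r.s_pos n)) (half_lt_self (r.s_pos n))

theorem Ray.ch3_tm_succ {y : St} (r : T.Ray y) (n : ℕ) : r.tm (n + 1) = r.tm n + r.s n :=
  Finset.sum_range_succ _ _

theorem Ray.ch3_tm_zero {y : St} (r : T.Ray y) : r.tm 0 = 0 := Finset.sum_range_zero _

theorem Ray.ch3_unb {y : St} (r : T.Ray y) (b : ℝ) : ∃ n, b ≤ r.tm (n + 1) := by
  obtain ⟨n, hn⟩ := (r.div.eventually_ge_atTop b).exists
  refine ⟨n, le_trans hn ?_⟩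
  rw [r.ch3_tm_succ]
  exact le_add_of_nonneg_right (r.s_pos n).le

/-- a chain from times, points, velocities and sides -/
theorem ch3_mk (t : ℤ → ℝ) (q w : ℤ → Plane) (sd : ℤ → Fin 3) (ht : ∀ k, t k < t (k + 1))
    (h0 : t 0 ≤ 0) (h1 : 0 < t 1) (hT : ∀ b, ∃ k, b ≤ t k) (hB : ∀ b, ∃ k, t k ≤ b)
    (hq : ∀ k, q (k + 1) = q k + (t (k + 1) - t k) • w k)
    (hw : ∀ k, w (k + 1) = T.mir (sd (k + 1)) (w k)) (hn : ∀ k, ‖w k‖ = 1)
    (hs : ∀ k, T.OnSide (sd k) (q k)) (hi : ∀ k, ∃ s : ℝ, q k + s • w k ∈ T.In) :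
    ∃ c : Chain T.A, c.t = t ∧ c.q = q ∧ c.vel = w := by
  have hm : StrictMono t := strictMono_int_of_lt_succ ht
  have hv : ∀ k, (t (k + 1) - t k)⁻¹ • (q (k + 1) - q k) = w k := fun k => by
    rw [hq, add_sub_cancel_left, smul_smul, inv_mul_cancel₀ (sub_pos.2 (ht k)).ne', one_smul]
  refine ⟨⟨t, q, sd, hm, h0, h1, tendsto_atTop_atTop_of_monotone hm.monotone hT,
    tendsto_atBot_atBot_of_monotone hm.monotone hB, fun k => (T.mem_openSide _ _).2 (hs k),
    fun k hk => ?_, fun k => ?_, fun k => ?_⟩, rfl, rfl, funext hv⟩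
  · obtain ⟨s, hs'⟩ := hi k
    have e1 := (hs (k + 1)).1
    have e2 := hs' (sd k)
    rw [hk, hq, T.ell_add, (hs k).1, inner_smul_left, zero_add, mul_eq_zero] at e1
    rw [T.ell_add, (hs k).1, inner_smul_left, e1.resolve_left (sub_pos.2 (ht k)).ne'] at e2
    simp at e2
  · rw [dist_comm, dist_eq_norm, hq, add_sub_cancel_left, norm_smul, hn, mul_one,
      Real.norm_of_nonneg (sub_pos.2 (ht k)).le]
  · have e : k + 2 = k + 1 + 1 := by ring
    rw [e, hv, hv, hw, T.mirror_eq]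

theorem chain_of_rays {y : St} (hy : y.1 ∈ T.In) (r : T.Ray y) (r' : T.Ray (rot Real.pi y)) :
    ∃ c : Chain T.A, c.Through (proj y) ∧ ∀ (n : ℕ) (t : ℝ), r.tm n ≤ t → t < r.tm (n + 1) →
      c.IsStateAt t (proj (shift (t - r.tm n : ℝ) (r.z n))) := by
  have hp : (r'.z 0).1 = (r.z 0).1 := by rw [r.z_zero, r'.z_zero]; rfl
  have hv : ((r'.z 0).2.1 : Plane) = -((r.z 0).2.1 : Plane) := by
    rw [r.z_zero, r'.z_zero]
    exact rotD_pi y.2
  let f : ℕ → ℝ × Plane × Plane × Fin 3 := fun n =>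
    (r.tm (n + 1), (r.z (n + 1)).1, (r.z (n + 1)).2.1, r.i n)
  let g : ℕ → ℝ × Plane × Plane × Fin 3 := fun m =>
    (-r'.tm (m + 1), (r'.z (m + 1)).1, -((r'.z m).2.1 : Plane), r'.i m)
  have hstep := ch3Glue_step (f := f) (g := g) (fun a b => a.1 < b.1 ∧
    b.2.1 = a.2.1 + (b.1 - a.1) • a.2.2.1 ∧ b.2.2.1 = T.mir b.2.2.2 a.2.2.1 ∧
    ∃ s : ℝ, a.2.1 + s • a.2.2.1 ∈ T.In)
    (fun n => by
      refine ⟨?_, ?_, r.ch3_vel (n + 1), _, r.ch3_in (n + 1)⟩
      · simp only [f, r.ch3_tm_succ (n + 1)]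
        linarith [r.s_pos (n + 1)]
      · simp only [f, r.ch3_tm_succ (n + 1), add_sub_cancel_left]
        exact r.ch3_pos (n + 1))
    (by
      refine ⟨?_, ?_, ?_, r'.s 0, ?_⟩
      · simp only [f, g, r.ch3_tm_succ 0, r'.ch3_tm_succ 0, Ray.ch3_tm_zero]
        linarith [r.s_pos 0, r'.s_pos 0]
      · simp only [f, g, r.ch3_tm_succ 0, r'.ch3_tm_succ 0, Ray.ch3_tm_zero, r.ch3_pos 0,
          r'.ch3_pos 0, hp, hv]
        module
      · simp only [f, g, hv, neg_neg]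
        exact r.ch3_vel 0
      · have e : (g 0).2.1 + r'.s 0 • (g 0).2.2.1 = y.1 := by
          simp only [g, r'.ch3_pos 0, hp, r.z_zero]
          module
        rw [e]
        exact hy)
    (fun m => by
      refine ⟨?_, ?_, ?_, r'.s (m + 1) / 2, ?_⟩
      · simp only [g, r'.ch3_tm_succ (m + 1)]
        linarith [r'.s_pos (m + 1)]
      · simp only [g, r'.ch3_tm_succ (m + 1), r'.ch3_pos (m + 1)]
        module
      · simp only [g, r'.ch3_vel m, ch3_mir_neg, T.mir_mir]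
      · have e : (g (m + 1)).2.1 + (r'.s (m + 1) / 2) • (g (m + 1)).2.2.1 =
            (r'.z (m + 1)).1 + (r'.s (m + 1) / 2) • ((r'.z (m + 1)).2.1 : Plane) := by
          simp only [g, r'.ch3_pos (m + 1)]
          module
        rw [e]
        exact r'.ch3_in (m + 1))
  have hall := ch3Glue_all (f := f) (g := g) (fun a => ‖a.2.2.1‖ = 1 ∧ T.OnSide a.2.2.2 a.2.1)
    (fun n => ⟨by simp [f], r.ch3_side n⟩) (fun m => ⟨by simp [g], r'.ch3_side m⟩)
  have g0 : ch3Glue f g 0 = g 0 := by simpa using ch3Glue_neg f g 0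
  have g1 : ch3Glue f g (0 + 1) = f 0 := by simpa using ch3Glue_pos f g 0
  have t0 : (g 0).1 = -r'.s 0 := by simp only [g, r'.ch3_tm_succ 0, Ray.ch3_tm_zero, zero_add]
  obtain ⟨c, hct, hcq, hcv⟩ := ch3_mk (T := T) (fun k => (ch3Glue f g k).1)
    (fun k => (ch3Glue f g k).2.1) (fun k => (ch3Glue f g k).2.2.1)
    (fun k => (ch3Glue f g k).2.2.2) (fun k => (hstep k).1)
    (by
      simp only [g0, t0]
      linarith [r'.s_pos 0])
    (by
      rw [zero_add] at g1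
      simp only [g1, f, r.ch3_tm_succ 0, Ray.ch3_tm_zero]
      linarith [r.s_pos 0])
    (fun b => by
      obtain ⟨n, hn⟩ := r.ch3_unb b
      exact ⟨n + 1, by simpa only [ch3Glue_pos] using hn⟩)
    (fun b => by
      obtain ⟨n, hn⟩ := r'.ch3_unb (-b)
      refine ⟨-n, ?_⟩
      simp only [ch3Glue_neg, g]
      linarith)
    (fun k => (hstep k).2.1) (fun k => (hstep k).2.2.1) (fun k => (hall k).1)
    (fun k => (hall k).2) (fun k => (hstep k).2.2.2)
  have key : ∀ (n : ℕ) (t : ℝ), r.tm n ≤ t → t < r.tm (n + 1) →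
      c.IsStateAt t (proj (shift (t - r.tm n : ℝ) (r.z n))) := by
    intro n t h1 h2
    have e1 : (proj (shift (t - r.tm n : ℝ) (r.z n))).1 =
        (r.z n).1 + (t - r.tm n) • ((r.z n).2.1 : Plane) := ch3_shift_fst _ _
    have e2 : ((proj (shift (t - r.tm n : ℝ) (r.z n))).2 : Plane) = (r.z n).2.1 := rfl
    rw [Chain.IsStateAt, hct, hcq, hcv, e1, e2]
    cases n with
    | zero =>
      refine ⟨0, ?_, ?_, ?_, ?_⟩
      · rw [r.ch3_tm_zero] at h1
        simp only [g0, t0]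
        linarith [r'.s_pos 0]
      · simpa only [g1] using h2
      · simp only [g0, t0]
        simp only [g, r'.ch3_pos 0, hp, hv, Ray.ch3_tm_zero]
        module
      · simp only [g0, g, hv, neg_neg]
    | succ n =>
      have e3 : (n : ℤ) + 1 + 1 = ((n + 1 : ℕ) : ℤ) + 1 := by push_cast; ring
      refine ⟨n + 1, ?_, ?_, ?_, ?_⟩
      · simpa only [ch3Glue_pos] using h1
      · simpa only [e3, ch3Glue_pos] using h2
      · simp only [ch3Glue_pos, f]
      · simp only [ch3Glue_pos, f]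
  refine ⟨c, ?_, key⟩
  have h := key 0 0 r.ch3_tm_zero.le (by
    rw [r.ch3_tm_succ, r.ch3_tm_zero, zero_add]
    exact r.s_pos 0)
  rwa [r.ch3_tm_zero, sub_zero, ofReal_zero, shift_zero, r.z_zero] at h

end Tri

end Crest.Agent.R103
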