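import Crest.Agent.R103.Defs

/-!
# The logarithmic profile (task Cut1)
Put `r j = ε / 4 ^ j`.  If `|s - s'| ≤ ε / 4 ^ n`, the `j`-th ramp can only differ at `s`, `s'` when
`3/4 r j < s < 9/4 r j`; these intervals are disjoint, so at most one term of the sum is nonzero.
-/

set_option autoImplicit false
set_option linter.unusedSectionVars false
set_option linter.unusedVariables false

open MeasureTheory Filter Topology Complex
open Crest.AnalysisR.Billiard

noncomputable section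

namespace Crest.Agent.R103

variable {Ω : Type*} [MeasurableSpace Ω] [TopologicalSpace Ω] [BorelSpace Ω]
  [TopologicalSpace.PseudoMetrizableSpace Ω] {μ : Measure Ω} [IsFiniteMeasure μ]

theorem cut1_zero {r s : ℝ} (hr : 0 < r) (hs : s ≤ r) : max 0 (min 1 (s / r - 1)) = 0 :=
  max_eq_left ((min_le_right _ _).trans (sub_nonpos.2 ((div_le_one hr).2 hs)))

theorem cut1_one {r s : ℝ} (hr : 0 < r) (hs : 2 * r ≤ s) : max 0 (min 1 (s / r - 1)) = 1 := by
  have : 2 ≤ s / r := (le_div_iff₀ hr).2 hs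
  rw [min_eq_left (by linarith), max_eq_right zero_le_one]

theorem cut1_lip {r : ℝ} (hr : 0 < r) (s s' : ℝ) :
    |max 0 (min 1 (s / r - 1)) - max 0 (min 1 (s' / r - 1))| ≤ |s - s'| / r := by
  refine (abs_max_sub_max_le_max _ _ _ _).trans (max_le (by simp; positivity) ?_)
  refine (abs_min_sub_min_le_max _ _ _ _).trans (max_le (by simp; positivity) ?_)
  rw [sub_sub_sub_cancel_right, ← sub_div, abs_div, abs_of_pos hr]

theorem cut1_scale {ε : ℝ} (hε : 0 < ε) {j n : ℕ} (h : j < n) : 4 * (ε / 4 ^ n) ≤ ε / 4 ^ j := by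
  have h1 : (4 : ℝ) ^ (j + 1) ≤ 4 ^ n := pow_le_pow_right₀ (by norm_num) h
  calc 4 * (ε / 4 ^ n) ≤ 4 * (ε / 4 ^ (j + 1)) := by gcongr
    _ = ε / 4 ^ j := by rw [pow_succ]; field_simp

theorem cut1_real {ρ : Ω → ℝ} {K : ℝ} (hK : 0 ≤ K)
    (hm : ∀ r, 0 < r → μ {y | ρ y < r} ≤ ENNReal.ofReal (K * r ^ 2)) {r : ℝ} (hr : 0 < r) :
    μ.real {y | ρ y < r} ≤ K * r ^ 2 :=
  ENNReal.toReal_le_of_le_ofReal (by positivity) (hm r hr)

theorem prof_nonneg (n : ℕ) (ε s : ℝ) : 0 ≤ prof n ε s := by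
  unfold prof
  exact mul_nonneg (by positivity) (Finset.sum_nonneg fun j _ => le_max_left _ _)

theorem prof_le_one (n : ℕ) (ε s : ℝ) : prof n ε s ≤ 1 := by
  unfold prof
  have h : ∑ j ∈ Finset.range n, max 0 (min 1 (s / (ε / 4 ^ j) - 1)) ≤ n := by
    refine (Finset.sum_le_sum (g := fun _ => (1 : ℝ)) fun j _ =>
      max_le zero_le_one (min_le_left _ _)).trans (by simp)
  exact (mul_le_mul_of_nonneg_left h (by positivity)).trans inv_mul_le_one

theorem continuous_prof (n : ℕ) (ε : ℝ) : Continuous (prof n ε) := by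
  unfold prof
  fun_prop

theorem prof_eq_zero (n : ℕ) {ε s : ℝ} (hε : 0 < ε) (hs : s ≤ 4 * (ε / 4 ^ n)) :
    prof n ε s = 0 := by
  unfold prof
  rw [Finset.sum_eq_zero, mul_zero]
  intro j hj
  exact cut1_zero (by positivity) (hs.trans (cut1_scale hε (Finset.mem_range.1 hj)))

theorem prof_eq_one {n : ℕ} (hn : 0 < n) {ε s : ℝ} (hε : 0 < ε) (hs : 2 * ε ≤ s) :
    prof n ε s = 1 := by
  unfold prof
  rw [Finset.sum_congr rfl (g := fun _ => (1 : ℝ)) fun j _ => cut1_one (by positivity) ?_]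
  · have : (n : ℝ) ≠ 0 := by positivity
    simp [this]
  · have : ε / 4 ^ j ≤ ε := div_le_self hε.le (one_le_pow₀ (by norm_num))
    linarith

theorem prof_sub_sq_le (n : ℕ) {ε s s' Δ : ℝ} (hε : 0 < ε) (h : |s - s'| ≤ Δ)
    (hΔ : Δ ≤ ε / 4 ^ n) :
    (prof n ε s' - prof n ε s) ^ 2 ≤ Δ ^ 2 / n ^ 2 * ∑ j ∈ Finset.range n,
      (if s < 3 * (ε / 4 ^ j) then ((ε / 4 ^ j) ^ 2)⁻¹ else 0) := by
  have hΔ0 : 0 ≤ Δ := (abs_nonneg _).trans h
  set a : ℕ → ℝ := fun j => max 0 (min 1 (s' / (ε / 4 ^ j) - 1)) -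
    max 0 (min 1 (s / (ε / 4 ^ j) - 1)) with ha
  have e1 : prof n ε s' - prof n ε s = (n : ℝ)⁻¹ * ∑ j ∈ Finset.range n, a j := by
    simp only [prof, ha, Finset.sum_sub_distrib, mul_sub]
  have hnn : ∀ j ∈ Finset.range n,
      0 ≤ (if s < 3 * (ε / 4 ^ j) then ((ε / 4 ^ j) ^ 2)⁻¹ else 0 : ℝ) := fun j _ => by
    split_ifs <;> positivity
  have hwin : ∀ j ∈ Finset.range n, a j ≠ 0 →
      3 / 4 * (ε / 4 ^ j) < s ∧ s < 9 / 4 * (ε / 4 ^ j) := fun j hj hne => by
    have h1 := cut1_scale hε (Finset.mem_range.1 hj)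
    have h2 := abs_le.1 h
    have hr : 0 < ε / 4 ^ j := by positivity
    constructor
    · by_contra hc
      apply hne
      simp only [ha]
      rw [cut1_zero hr (by linarith), cut1_zero hr (by linarith), sub_self]
    · by_contra hc
      apply hne
      simp only [ha]
      rw [cut1_one hr (by linarith), cut1_one hr (by linarith), sub_self]
  have key : (∑ j ∈ Finset.range n, a j) ^ 2 ≤ Δ ^ 2 * ∑ j ∈ Finset.range n,
      (if s < 3 * (ε / 4 ^ j) then ((ε / 4 ^ j) ^ 2)⁻¹ else 0) := by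
    by_cases hex : ∃ j ∈ Finset.range n, a j ≠ 0
    · obtain ⟨j, hj, hne⟩ := hex
      have hr : 0 < ε / 4 ^ j := by positivity
      have hw := hwin j hj hne
      rw [Finset.sum_eq_single_of_mem j hj fun k hk hkj => ?_]
      · have h1 := Finset.single_le_sum hnn hj
        rw [if_pos (by linarith)] at h1
        refine le_trans ?_ (mul_le_mul_of_nonneg_left h1 (sq_nonneg _))
        have h2 : |a j| ≤ Δ / (ε / 4 ^ j) :=
          (cut1_lip hr s' s).trans (by rw [abs_sub_comm]; gcongr)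
        rw [← div_eq_mul_inv, ← div_pow, ← sq_abs]
        exact pow_le_pow_left₀ (abs_nonneg _) h2 2
      · by_contra hk0
        have hw' := hwin k hk hk0
        have hrk : 0 < ε / 4 ^ k := by positivity
        rcases lt_or_gt_of_ne hkj with hlt | hlt
        · have := cut1_scale hε hlt
          linarith
        · have := cut1_scale hε hlt
          linarith
    · push Not at hex
      rw [Finset.sum_eq_zero hex, zero_pow two_ne_zero]
      exact mul_nonneg (sq_nonneg _) (Finset.sum_nonneg hnn)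
  rw [e1, mul_pow, inv_pow, div_eq_mul_inv, mul_comm (Δ ^ 2), mul_assoc]
  exact mul_le_mul_of_nonneg_left key (by positivity)

/-- integrated form -/
theorem integral_prof_sub_sq_le {ρ ρ' : Ω → ℝ} (hρ : Measurable ρ) (hρ' : Measurable ρ') {K : ℝ}
    (hK : 0 ≤ K) (hm : ∀ r, 0 < r → μ {y | ρ y < r} ≤ ENNReal.ofReal (K * r ^ 2)) {n : ℕ}
    (hn : 0 < n) {ε Δ : ℝ} (hε : 0 < ε) (hΔ : Δ ≤ ε / 4 ^ n)
    (h : ∀ᵐ y ∂μ, |ρ y - ρ' y| ≤ Δ ∨ (ρ y ≤ 4 * (ε / 4 ^ n) ∧ ρ' y ≤ 4 * (ε / 4 ^ n))) :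
    ∫ y, (prof n ε (ρ' y) - prof n ε (ρ y)) ^ 2 ∂μ ≤ Δ ^ 2 * (9 * K / n) := by
  have hms : ∀ r : ℝ, MeasurableSet {y | ρ y < r} := fun r => measurableSet_lt hρ measurable_const
  have hint : ∀ j : ℕ, Integrable ({y | ρ y < 3 * (ε / 4 ^ j)}.indicator
      fun _ => ((ε / 4 ^ j) ^ 2)⁻¹) μ := fun j => (integrable_const _).indicator (hms _)
  have hn' : (0 : ℝ) < n := by exact_mod_cast hn
  calc ∫ y, (prof n ε (ρ' y) - prof n ε (ρ y)) ^ 2 ∂μ
      ≤ ∫ y, Δ ^ 2 / n ^ 2 * ∑ j ∈ Finset.range n, {y | ρ y < 3 * (ε / 4 ^ j)}.indicator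
          (fun _ => ((ε / 4 ^ j) ^ 2)⁻¹) y ∂μ := by
        refine integral_mono_of_nonneg (Eventually.of_forall fun y => sq_nonneg _)
          ((integrable_finsetSum _ fun j _ => hint j).const_mul _) ?_
        filter_upwards [h] with y hy
        rcases hy with hy | hy
        · simpa only [Set.indicator_apply, Set.mem_ofPred_eq] using prof_sub_sq_le n hε hy hΔ
        · rw [prof_eq_zero n hε hy.1, prof_eq_zero n hε hy.2, sub_self, zero_pow two_ne_zero]
          exact mul_nonneg (by positivity) (Finset.sum_nonneg fun j _ =>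
            Set.indicator_nonneg (fun _ _ => by positivity) _)
    _ ≤ Δ ^ 2 / n ^ 2 * ∑ j ∈ Finset.range n, 9 * K := by
        rw [integral_const_mul, integral_finsetSum _ fun j _ => hint j]
        refine mul_le_mul_of_nonneg_left (Finset.sum_le_sum fun j _ => ?_) (by positivity)
        have hr : 0 < ε / 4 ^ j := by positivity
        rw [integral_indicator_const _ (hms _), smul_eq_mul, ← div_eq_mul_inv,
          div_le_iff₀ (by positivity)]
        refine (cut1_real hK hm (by positivity)).trans (le_of_eq ?_)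
        ring
    _ = Δ ^ 2 * (9 * K / n) := by
        rw [Finset.sum_const, Finset.card_range, nsmul_eq_mul]
        field_simp

theorem integral_one_sub_prof_sq_le {ρ : Ω → ℝ} (hρ : Measurable ρ) {K : ℝ} (hK : 0 ≤ K)
    (hm : ∀ r, 0 < r → μ {y | ρ y < r} ≤ ENNReal.ofReal (K * r ^ 2)) {n : ℕ} (hn : 0 < n) {ε : ℝ}
    (hε : 0 < ε) : ∫ y, (1 - prof n ε (ρ y)) ^ 2 ∂μ ≤ 4 * K * ε ^ 2 := by
  have hms : MeasurableSet {y | ρ y < 2 * ε} := measurableSet_lt hρ measurable_const
  calc ∫ y, (1 - prof n ε (ρ y)) ^ 2 ∂μ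
      ≤ ∫ y, {y | ρ y < 2 * ε}.indicator (fun _ => (1 : ℝ)) y ∂μ := by
        refine integral_mono_of_nonneg (Eventually.of_forall fun y => sq_nonneg _)
          ((integrable_const _).indicator hms) (Eventually.of_forall fun y => ?_)
        have h0 := prof_nonneg n ε (ρ y)
        have h1 := prof_le_one n ε (ρ y)
        by_cases hy : ρ y < 2 * ε
        · beta_reduce
          rw [Set.indicator_of_mem (show y ∈ {y | ρ y < 2 * ε} from hy)]
          nlinarith
        · beta_reduce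
          rw [Set.indicator_of_notMem (show y ∉ {y | ρ y < 2 * ε} from hy),
            prof_eq_one hn hε (not_lt.1 hy)]
          norm_num
    _ ≤ 4 * K * ε ^ 2 := by
        rw [integral_indicator_const _ hms, smul_eq_mul, mul_one]
        refine (cut1_real hK hm (by positivity)).trans (le_of_eq ?_)
        ring

end Crest.Agent.R103
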