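import Crest.Agent.R103.Defs

/-!
# The stretched distance (task Cut2)
All almost-everywhere statements are used for countably many parameters (`ae_all_iff`) and are
pulled back along the measure preserving maps (`(B.mτ h).quasiMeasurePreserving.ae`).
* `d_flow`: `τ s = τ (s - s') ∘ τ s'` (`τ_add` with `h = 1`) and `d_τ`.
* `meas_rho_lt`: if `rho < r` there is a rational `|s| < r L` with `d (τ s y) < r / L`; the nearest
  point `j r / L` (`|j| ≤ ⌈L ^ 2⌉`, at most `5 L ^ 2` points) has `d ≤ 2 r / L`; union bound.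
* `rho_X`: compare the rational `s` for `τ t y` with rationals `s'` close to `s + t`.
* `rho_Y`: for rational `|s| < rho y * L` and `a = s / n` small, all the points `τ (j a) y` have
  `d ≥ r / L`, so `loc` (twice) gives `τ (j a) (τ (t I) y) = τ (t I) (τ (j a) y)` by induction on `j`.
-/

set_option autoImplicit false
set_option linter.unusedSectionVars false
set_option linter.unusedVariables false

open MeasureTheory Filter Topology Complex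
open Crest.AnalysisR.Billiard

noncomputable section

namespace Crest.Agent.R103

variable {Ω : Type*} [MeasurableSpace Ω] [TopologicalSpace Ω] [BorelSpace Ω]
  [TopologicalSpace.PseudoMetrizableSpace Ω] {μ : Measure Ω} [IsFiniteMeasure μ]

namespace MSys

variable (B : MSys μ)

theorem d_flow (s s' : ℝ) : ∀ᵐ y ∂μ, |B.d (B.τ s y) - B.d (B.τ s' y)| ≤ |s - s'| := by
  have h1 := B.τ_add 1 (s - s') s'
  have h2 := (B.mτ (s' : ℂ)).quasiMeasurePreserving.ae (B.d_τ ((s - s' : ℝ) : ℂ))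
  filter_upwards [h1, h2] with y h1 h2
  simp only [mul_one, sub_add_cancel] at h1
  rwa [h1, Complex.norm_real, Real.norm_eq_abs] at h2

theorem rho_nonneg {L : ℝ} (hL : 0 < L) (y : Ω) : 0 ≤ B.rho L y := by
  exact Real.iInf_nonneg fun s => le_max_of_le_left (by positivity)

theorem rho_le {L : ℝ} (hL : 0 < L) (y : Ω) (s : ℚ) :
    B.rho L y ≤ max (|(s : ℝ)| / L) (L * B.d (B.τ ((s : ℝ) : ℂ) y)) := by
  refine ciInf_le (f := fun s : ℚ => max (|(s : ℝ)| / L) (L * B.d (B.τ ((s : ℝ) : ℂ) y)))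
    ⟨0, ?_⟩ s
  rintro _ ⟨q, rfl⟩
  exact le_max_of_le_left (by positivity)

theorem measurable_rho (L : ℝ) : Measurable (B.rho L) := by
  refine Measurable.iInf fun s => measurable_const.max ?_
  exact measurable_const.mul (B.md.comp (B.mτ _).measurable)

theorem rho_le_d {L : ℝ} (hL : 0 < L) : ∀ᵐ y ∂μ, B.rho L y ≤ max 0 (L * B.d y) := by
  filter_upwards [B.τ_zero] with y hy
  have h := B.rho_le hL y 0
  simpa [hy] using h

theorem rho_W (L t : ℝ) : ∀ᵐ y ∂μ, B.rho L (B.W t y) = B.rho L y := by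
  have h1 : ∀ᵐ y ∂μ, ∀ s : ℚ, B.τ ((s : ℝ) : ℂ) (B.W t y) = B.W t (B.τ ((s : ℝ) : ℂ) y) :=
    ae_all_iff.2 fun s => B.τ_W _ t
  have h2 : ∀ᵐ y ∂μ, ∀ s : ℚ, B.d (B.W t (B.τ ((s : ℝ) : ℂ) y)) = B.d (B.τ ((s : ℝ) : ℂ) y) :=
    ae_all_iff.2 fun s => (B.mτ _).quasiMeasurePreserving.ae (B.d_W t)
  filter_upwards [h1, h2] with y h1 h2
  unfold rho
  simp only [h1, h2]

theorem meas_rho_lt {L : ℝ} (hL : 1 ≤ L) {r : ℝ} (hr : 0 < r) :
    μ {y | B.rho L y < r} ≤ ENNReal.ofReal (20 * B.C * r ^ 2) := by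
  have hL0 : 0 < L := by linarith
  set N : ℕ := ⌈L ^ 2⌉₊ with hN
  have hN1 : L ^ 2 ≤ N := Nat.le_ceil _
  have hN2 : (N : ℝ) ≤ 2 * L ^ 2 := by
    have h1 := Nat.ceil_lt_add_one (sq_nonneg L)
    have h2 : 1 ≤ L ^ 2 := one_le_pow₀ hL
    linarith
  set a : ℝ := r / L with ha
  have ha0 : 0 < a := by positivity
  have h1 : ∀ᵐ y ∂μ, ∀ s : ℚ, ∀ j : ℤ,
      |B.d (B.τ ((s : ℝ) : ℂ) y) - B.d (B.τ ((j * a : ℝ) : ℂ) y)| ≤ |(s : ℝ) - j * a| :=
    ae_all_iff.2 fun s => ae_all_iff.2 fun j => B.d_flow _ _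
  have h2 : {y | B.rho L y < r} ≤ᵐ[μ]
      ⋃ j ∈ Finset.Ico (-(N : ℤ)) N, B.τ ((j * a : ℝ) : ℂ) ⁻¹' {y | B.d y ≤ 2 * a} := by
    filter_upwards [h1] with y hy hlt
    obtain ⟨s, hs⟩ := exists_lt_of_ciInf_lt (a := r) hlt
    rw [max_lt_iff, div_lt_iff₀ hL0] at hs
    obtain ⟨hs1, hs2⟩ := hs
    have h3 : B.d (B.τ ((s : ℝ) : ℂ) y) < a := by
      rw [ha, lt_div_iff₀ hL0]
      linarith
    have h4 : r * L = L ^ 2 * a := by
      rw [ha]
      field_simp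
    have h5 : |(s : ℝ) / a| < N := by
      rw [abs_div, abs_of_pos ha0, div_lt_iff₀ ha0]
      nlinarith
    rw [abs_lt] at h5
    have h6 := Int.floor_le ((s : ℝ) / a)
    have h7 := Int.lt_floor_add_one ((s : ℝ) / a)
    rw [le_div_iff₀ ha0] at h6
    rw [div_lt_iff₀ ha0] at h7
    refine Set.mem_iUnion₂.2 ⟨⌊(s : ℝ) / a⌋, Finset.mem_Ico.2 ⟨Int.le_floor.2 ?_, Int.floor_lt.2 ?_⟩,
      ?_⟩
    · push_cast
      exact h5.1.le
    · push_cast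
      exact h5.2
    · have h8 := hy s ⌊(s : ℝ) / a⌋
      have h9 : |(s : ℝ) - ⌊(s : ℝ) / a⌋ * a| ≤ a := abs_le.2 ⟨by linarith, by linarith⟩
      have h10 := (abs_le.1 (h8.trans h9)).1
      change B.d _ ≤ 2 * a
      linarith
  refine (measure_mono_ae h2).trans ((measure_biUnion_finset_le _ _).trans ?_)
  have h3 : ∀ j ∈ Finset.Ico (-(N : ℤ)) N,
      μ (B.τ ((j * a : ℝ) : ℂ) ⁻¹' {y | B.d y ≤ 2 * a}) ≤ ENNReal.ofReal (B.C * (2 * a) ^ 2) := by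
    intro j _
    rw [(B.mτ _).measure_preimage (measurableSet_le B.md measurable_const).nullMeasurableSet]
    exact B.d_meas _ (by positivity)
  refine (Finset.sum_le_sum h3).trans ?_
  rw [Finset.sum_const, Int.card_Ico, nsmul_eq_mul, ← ENNReal.ofReal_natCast,
    ← ENNReal.ofReal_mul (Nat.cast_nonneg _)]
  refine ENNReal.ofReal_le_ofReal ?_
  have h4 : (((N : ℤ) - -(N : ℤ)).toNat : ℝ) = 2 * N := by
    rw [show (N : ℤ) - -(N : ℤ) = ((2 * N : ℕ) : ℤ) by push_cast; ring, Int.toNat_natCast]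
    push_cast
    ring
  have h5 : L ^ 2 * a ^ 2 = r ^ 2 := by
    rw [ha]
    field_simp
  have hC := B.C_pos
  rw [h4]
  calc 2 * (N : ℝ) * (B.C * (2 * a) ^ 2) ≤ 2 * (2 * L ^ 2) * (B.C * (2 * a) ^ 2) := by gcongr
    _ = 16 * B.C * (L ^ 2 * a ^ 2) := by ring
    _ ≤ 20 * B.C * r ^ 2 := by
      rw [h5]
      gcongr
      norm_num

theorem cut2b_add (s t : ℝ) : ∀ᵐ y ∂μ, B.τ s (B.τ t y) = B.τ ((s + t : ℝ) : ℂ) y := by
  simpa using B.τ_add 1 s t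

theorem cut2b_le_rho {L : ℝ} {y : Ω} {c : ℝ}
    (h : ∀ s : ℚ, c ≤ max (|(s : ℝ)| / L) (L * B.d (B.τ ((s : ℝ) : ℂ) y))) : c ≤ B.rho L y :=
  le_ciInf h

/-- comparison of two points whose orbits are shifted by `t` -/
theorem cut2b_cmp {L : ℝ} (hL : 0 < L) {t : ℝ} {y y' : Ω}
    (h : ∀ s s' : ℚ, B.d (B.τ ((s' : ℝ) : ℂ) y) ≤ B.d (B.τ ((s : ℝ) : ℂ) y') + |(s : ℝ) + t - s'|) :
    B.rho L y ≤ B.rho L y' + |t| / L := by
  rw [← sub_le_iff_le_add]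
  refine B.cut2b_le_rho fun s => ?_
  refine le_of_forall_pos_le_add fun ε hε => ?_
  have hK : 0 < L + L⁻¹ := by positivity
  obtain ⟨s', h1, h2⟩ := exists_rat_btwn (show (s : ℝ) + t < s + t + ε / (L + L⁻¹) by
    have := div_pos hε hK; linarith)
  have hδ : |(s : ℝ) + t - s'| ≤ ε / (L + L⁻¹) := by
    rw [abs_le]; constructor <;> [linarith; linarith [div_pos hε hK]]
  have h3 := B.rho_le hL y s'
  have h4 := h s s'
  have hδL : L * (ε / (L + L⁻¹)) ≤ ε := by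
    rw [← mul_div_assoc, div_le_iff₀ hK]; nlinarith [inv_pos.2 hL]
  have hδL' : ε / (L + L⁻¹) / L ≤ ε := by
    rw [div_div, div_le_iff₀ (by positivity), add_mul, inv_mul_cancel₀ hL.ne']; nlinarith [mul_pos hL hL]
  have ht : 0 ≤ |t| / L := by positivity
  have h5 : |(s' : ℝ)| / L ≤ |(s : ℝ)| / L + |t| / L + ε := by
    have : |(s' : ℝ)| ≤ |(s : ℝ)| + |t| + ε / (L + L⁻¹) := by
      have e : (s' : ℝ) = (s + t) - ((s : ℝ) + t - s') := by ring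
      calc |(s' : ℝ)| = |((s : ℝ) + t) - ((s : ℝ) + t - s')| := by rw [← e]
        _ ≤ |(s : ℝ) + t| + |(s : ℝ) + t - s'| := abs_sub _ _
        _ ≤ _ := add_le_add (abs_add_le _ _) hδ
    calc |(s' : ℝ)| / L ≤ (|(s : ℝ)| + |t| + ε / (L + L⁻¹)) / L := by gcongr
      _ = |(s : ℝ)| / L + |t| / L + ε / (L + L⁻¹) / L := by ring
      _ ≤ _ := by linarith
  have h6 : L * B.d (B.τ ((s' : ℝ) : ℂ) y) ≤ L * B.d (B.τ ((s : ℝ) : ℂ) y') + ε := by
    have := mul_le_mul_of_nonneg_left (h4.trans (add_le_add_right hδ _)) hL.le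
    linarith [mul_add L (B.d (B.τ ((s : ℝ) : ℂ) y')) (ε / (L + L⁻¹))]
  have h7 := le_max_left (|(s : ℝ)| / L) (L * B.d (B.τ ((s : ℝ) : ℂ) y'))
  have h8 := le_max_right (|(s : ℝ)| / L) (L * B.d (B.τ ((s : ℝ) : ℂ) y'))
  rcases le_max_iff.1 h3 with h9 | h9 <;> linarith

theorem rho_X {L : ℝ} (hL : 0 < L) (t : ℝ) :
    ∀ᵐ y ∂μ, |B.rho L y - B.rho L (B.τ t y)| ≤ |t| / L := by
  have h1 : ∀ᵐ y ∂μ, ∀ s : ℚ, B.τ ((s : ℝ) : ℂ) (B.τ t y) = B.τ (((s : ℝ) + t : ℝ) : ℂ) y :=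
    ae_all_iff.2 fun s => B.cut2b_add s t
  have h2 : ∀ᵐ y ∂μ, ∀ s s' : ℚ,
      |B.d (B.τ (((s : ℝ) + t : ℝ) : ℂ) y) - B.d (B.τ ((s' : ℝ) : ℂ) y)| ≤ |(s : ℝ) + t - s'| :=
    ae_all_iff.2 fun s => ae_all_iff.2 fun s' => B.d_flow _ _
  filter_upwards [h1, h2] with y h1 h2
  have a1 : B.rho L y ≤ B.rho L (B.τ t y) + |t| / L := B.cut2b_cmp hL fun s s' => by
    rw [h1 s]; have := (abs_le.1 (h2 s s')).1; linarith
  have a2 : B.rho L (B.τ t y) ≤ B.rho L y + |-t| / L := B.cut2b_cmp hL fun s s' => by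
    rw [h1 s']
    have := (abs_le.1 (h2 s' s)).2
    have e : |(s' : ℝ) + t - s| = |(s : ℝ) + -t - s'| := by rw [abs_sub_comm]; congr 1; ring
    linarith
  rw [abs_neg] at a2
  rw [abs_le]; constructor <;> linarith

theorem rho_Y {L : ℝ} (hL : 0 < L) {r t : ℝ} (hr : 0 < r) (ht : 8 * |t| ≤ r / L) :
    ∀ᵐ y ∂μ, r ≤ B.rho L y → B.rho L y - L * |t| ≤ B.rho L (B.τ (t * I) y) := by
  have hn : ‖(t : ℂ) * I‖ = |t| := by simp
  have h0 := B.τ_zero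
  have h0' := (B.mτ (t * I)).quasiMeasurePreserving.ae B.τ_zero
  have h1 : ∀ᵐ y ∂μ, ∀ a b : ℚ, B.τ ((a : ℝ) : ℂ) (B.τ ((b : ℝ) : ℂ) y) =
      B.τ (((a : ℝ) + b : ℝ) : ℂ) y :=
    ae_all_iff.2 fun a => ae_all_iff.2 fun b => B.cut2b_add a b
  have h1' := (B.mτ (t * I)).quasiMeasurePreserving.ae h1
  have h2 : ∀ᵐ y ∂μ, ∀ a : ℚ, 4 * (|t| + |(a : ℝ)|) < B.d y →
      B.τ ((a : ℝ) : ℂ) (B.τ (t * I) y) = B.τ (t * I) (B.τ ((a : ℝ) : ℂ) y) := by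
    refine ae_all_iff.2 fun a => ?_
    filter_upwards [B.loc (t * I) ((a : ℝ) : ℂ), B.loc ((a : ℝ) : ℂ) (t * I)] with y e1 e2 h
    rw [hn, Complex.norm_real, Real.norm_eq_abs] at e1 e2
    rw [e1 h, e2 (by linarith), add_comm]
  have h2' : ∀ᵐ y ∂μ, ∀ b : ℚ, ∀ a : ℚ, 4 * (|t| + |(a : ℝ)|) < B.d (B.τ ((b : ℝ) : ℂ) y) →
      B.τ ((a : ℝ) : ℂ) (B.τ (t * I) (B.τ ((b : ℝ) : ℂ) y)) =
        B.τ (t * I) (B.τ ((a : ℝ) : ℂ) (B.τ ((b : ℝ) : ℂ) y)) :=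
    ae_all_iff.2 fun b => (B.mτ _).quasiMeasurePreserving.ae h2
  have h3 : ∀ᵐ y ∂μ, ∀ b : ℚ, |B.d (B.τ (t * I) (B.τ ((b : ℝ) : ℂ) y)) - B.d (B.τ ((b : ℝ) : ℂ) y)| ≤
      ‖(t : ℂ) * I‖ :=
    ae_all_iff.2 fun b => (B.mτ _).quasiMeasurePreserving.ae (B.d_τ _)
  filter_upwards [h0, h0', h1, h1', h2', h3] with y h0 h0' h1 h1' h2' h3 hry
  have hLt : 0 ≤ L * |t| := by positivity
  refine B.cut2b_le_rho fun s => ?_
  by_cases hs : B.rho L y ≤ |(s : ℝ)| / L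
  · exact le_max_of_le_left (by linarith)
  push Not at hs
  have hd : ∀ b : ℚ, |(b : ℝ)| ≤ |(s : ℝ)| → B.rho L y ≤ L * B.d (B.τ ((b : ℝ) : ℂ) y) := by
    intro b hb
    rcases le_max_iff.1 (B.rho_le hL y b) with h | h
    · exact absurd (h.trans (by gcongr)) (not_le.2 hs)
    · exact h
  obtain ⟨n, hn1⟩ := exists_nat_gt (8 * |(s : ℝ)| / (r / L))
  have hrL : 0 < r / L := div_pos hr hL
  have hn0 : (0 : ℝ) < n := lt_of_le_of_lt (by positivity) hn1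
  have ha : |((s / n : ℚ) : ℝ)| < r / L / 8 := by
    push_cast
    rw [abs_div, abs_of_pos hn0, div_lt_iff₀ hn0]
    rw [div_lt_iff₀ hrL] at hn1
    linarith
  have key : ∀ j : ℕ, j ≤ n → B.τ (((j * (s / n) : ℚ) : ℝ) : ℂ) (B.τ (t * I) y) =
      B.τ (t * I) (B.τ (((j * (s / n) : ℚ) : ℝ) : ℂ) y) := by
    intro j
    induction j with
    | zero => intro _; simp [h0, h0']
    | succ j ih =>
      intro hj
      have e : ((((j + 1 : ℕ) : ℚ) * (s / n) : ℚ) : ℝ) = ((s / n : ℚ) : ℝ) + ((j * (s / n) : ℚ) : ℝ) := by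
        push_cast; ring
      have hb : |((j * (s / n) : ℚ) : ℝ)| ≤ |(s : ℝ)| := by
        push_cast
        rw [abs_mul, abs_div, abs_of_pos hn0, Nat.abs_cast, mul_div_assoc', div_le_iff₀ hn0, mul_comm]
        have : (j : ℝ) ≤ n := by exact_mod_cast (by omega : j ≤ n)
        gcongr
      have hdj : r / L ≤ B.d (B.τ (((j * (s / n) : ℚ) : ℝ) : ℂ) y) := by
        rw [div_le_iff₀' hL]; exact hry.trans (hd _ hb)
      rw [e, ← h1', ← h1, ih (by omega), h2' _ _ (by linarith)]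
  have hns : ((n : ℚ) * (s / n) : ℚ) = s := by
    have : (n : ℚ) ≠ 0 := by exact_mod_cast hn0.ne'
    field_simp
  have k := key n le_rfl
  rw [hns] at k
  refine le_max_of_le_right ?_
  rw [k]
  have h4 := (abs_le.1 (h3 s)).1
  rw [hn] at h4
  have h5 := hd s le_rfl
  nlinarith

end MSys

end Crest.Agent.R103
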