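import Crest.Agent.R103.Cut1
import Crest.Agent.R103.Cut2

/-!
# The cutoff, and invariance from local invariance (task Cut3)
`cutoff`: `χ = prof n ε ∘ rho L`, `180 C / n ≤ κ ^ 2`, `80 C ε ^ 2 ≤ κ ^ 2`, `r₀ = ε / 4 ^ n`.  For the
`Y` estimate use `rho_Y` with `r = 2 r₀` at `y` and (pulled back by `τ (t I)`, with `-t`) at
`τ (t I) y`: either both values are `≥ 2 r₀` or both are `≤ 4 r₀`.
`inv_of_loc`: `μ {f (τ h y) ≠ f y} ≤ n * μ {f (τ (h / n) y) ≠ f y} ≤ n C (K / n) ^ 2` (outer measure;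
`τ ((j+1) h / n) = τ (h / n) ∘ τ (j h / n)`, `MeasurePreserving.measure_preimage_le`-type bounds or
measurability of the sets).
-/

set_option autoImplicit false
set_option linter.unusedSectionVars false
set_option linter.unusedVariables false

open MeasureTheory Filter Topology Complex
open Crest.AnalysisR.Billiard

noncomputable section

namespace Crest.Agent.R103

variable {Ω : Type*} [MeasurableSpace Ω] [TopologicalSpace Ω] [BorelSpace Ω]
  [TopologicalSpace.PseudoMetrizableSpace Ω] {μ : Measure Ω} [IsFiniteMeasure μ]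

namespace MSys

variable (B : MSys μ)

theorem Cut3_cancel (h : ℂ) : ∀ᵐ y ∂μ, B.τ (-h) (B.τ h y) = y := by
  filter_upwards [B.τ_add h (-1) 1, B.τ_zero] with y h1 h2
  simpa [h2] using h1

theorem cutoff {κ : ℝ} (hκ : 0 < κ) : ∃ r₀ : ℝ, 0 < r₀ ∧ ∀ L : ℝ, 1 ≤ L → ∃ χ : Ω → ℝ,
    Measurable χ ∧ (∀ y, 0 ≤ χ y ∧ χ y ≤ 1) ∧ (∀ᵐ y ∂μ, B.d y ≤ r₀ / L → χ y = 0) ∧
    (∀ t, ∀ᵐ y ∂μ, χ (B.W t y) = χ y) ∧ ∫ y, (1 - χ y) ^ 2 ∂μ ≤ κ ^ 2 ∧
    (∀ t : ℝ, |t| ≤ r₀ / (8 * L) → ∫ y, (χ (B.τ t y) - χ y) ^ 2 ∂μ ≤ (κ / L * |t|) ^ 2) ∧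
    (∀ t : ℝ, |t| ≤ r₀ / (8 * L) →
      ∫ y, (χ (B.τ (t * I) y) - χ y) ^ 2 ∂μ ≤ (κ * L * |t|) ^ 2) := by
  have hC := B.C_pos
  obtain ⟨n, hn⟩ := exists_nat_gt (180 * B.C / κ ^ 2)
  have hn0 : (0 : ℝ) < n := lt_trans (by positivity) hn
  have hn1 : 0 < n := by exact_mod_cast hn0
  have hK : 9 * (20 * B.C) / n ≤ κ ^ 2 := by
    rw [div_lt_iff₀ (by positivity)] at hn
    rw [div_le_iff₀ hn0]
    linarith
  obtain ⟨ε, hε, hε'⟩ : ∃ ε : ℝ, 0 < ε ∧ 4 * (20 * B.C) * ε ^ 2 ≤ κ ^ 2 := by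
    refine ⟨κ / (80 * B.C + 1), by positivity, ?_⟩
    rw [div_pow, ← mul_div_assoc, div_le_iff₀ (by positivity)]
    have : 4 * (20 * B.C) ≤ (80 * B.C + 1) ^ 2 := by nlinarith
    nlinarith [sq_nonneg κ]
  have hr : 0 < ε / 4 ^ n := by positivity
  refine ⟨ε / 4 ^ n, hr, fun L hL => ?_⟩
  have hL0 : 0 < L := by linarith
  have hm : ∀ r, 0 < r → μ {y | B.rho L y < r} ≤ ENNReal.ofReal (20 * B.C * r ^ 2) :=
    fun r hr => B.meas_rho_lt hL hr
  have hρ := B.measurable_rho L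
  refine ⟨fun y => prof n ε (B.rho L y), (continuous_prof n ε).measurable.comp hρ,
    fun y => ⟨prof_nonneg _ _ _, prof_le_one _ _ _⟩, ?_, fun t => ?_,
    (integral_one_sub_prof_sq_le hρ (by positivity) hm hn1 hε).trans hε', fun t ht => ?_,
    fun t ht => ?_⟩
  · filter_upwards [B.rho_le_d hL0] with y hy hd
    refine prof_eq_zero n hε (hy.trans (max_le (by positivity) ?_))
    rw [le_div_iff₀ hL0] at hd
    linarith
  · filter_upwards [B.rho_W L t] with y hy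
    rw [hy]
  · have h0 := abs_nonneg t
    rw [le_div_iff₀ (by positivity)] at ht
    refine (integral_prof_sub_sq_le (ρ' := fun y => B.rho L (B.τ t y)) (Δ := |t| / L) hρ
      (hρ.comp (B.mτ _).measurable) (by positivity) hm hn1 hε ?_
      ((B.rho_X hL0 t).mono fun y hy => Or.inl hy)).trans ?_
    · refine (div_le_self h0 hL).trans ?_
      nlinarith
    · calc (|t| / L) ^ 2 * (9 * (20 * B.C) / n) ≤ (|t| / L) ^ 2 * κ ^ 2 := by gcongr
        _ = _ := by ring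
  · have h0 := abs_nonneg t
    rw [le_div_iff₀ (by positivity)] at ht
    have h8 : 8 * |t| ≤ 2 * (ε / 4 ^ n) / L := by
      rw [le_div_iff₀ hL0]
      linarith
    refine (integral_prof_sub_sq_le (ρ' := fun y => B.rho L (B.τ (t * I) y)) (Δ := L * |t|) hρ
      (hρ.comp (B.mτ _).measurable) (by positivity) hm hn1 hε (by linarith) ?_).trans ?_
    · have h1 := B.rho_Y hL0 (r := 2 * (ε / 4 ^ n)) (t := t) (by positivity) h8
      have h2 := (B.mτ (t * I)).quasiMeasurePreserving.ae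
        (B.rho_Y hL0 (r := 2 * (ε / 4 ^ n)) (t := -t) (by positivity) (by rwa [abs_neg]))
      filter_upwards [h1, h2, B.Cut3_cancel (t * I)] with y a1 a2 a3
      rw [Complex.ofReal_neg, neg_mul, a3, abs_neg] at a2
      by_cases b1 : 2 * (ε / 4 ^ n) ≤ B.rho L y
      · by_cases b2 : 2 * (ε / 4 ^ n) ≤ B.rho L (B.τ (t * I) y)
        · exact Or.inl (abs_le.2 ⟨by linarith [a2 b2], by linarith [a1 b1]⟩)
        · exact Or.inr ⟨by linarith [a1 b1], by linarith⟩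
      · by_cases b2 : 2 * (ε / 4 ^ n) ≤ B.rho L (B.τ (t * I) y)
        · exact Or.inr ⟨by linarith, by linarith [a2 b2]⟩
        · exact Or.inr ⟨by linarith, by linarith⟩
    · calc (L * |t|) ^ 2 * (9 * (20 * B.C) / n) ≤ (L * |t|) ^ 2 * κ ^ 2 := by gcongr
        _ = _ := by ring

theorem inv_of_loc {f : Ω → ℂ} (hf : Measurable f) (h : ℂ) {K : ℝ} (hK : 0 < K)
    (hl : ∀ δ : ℝ, 0 < δ → ∀ᵐ y ∂μ, K * δ < B.d y → f (B.τ (δ * h) y) = f y) :
    ∀ᵐ y ∂μ, f (B.τ h y) = f y := by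
  have key : ∀ n : ℕ, μ {y | ¬ f (B.τ h y) = f y} ≤
      ENNReal.ofReal (B.C * K ^ 2 * (1 / ((n : ℝ) + 1))) := by
    intro n
    obtain ⟨δ, hδ⟩ : ∃ δ : ℝ, δ = 1 / ((n : ℝ) + 1) := ⟨_, rfl⟩
    have hδ0 : 0 < δ := by rw [hδ]; positivity
    have hδ1 : ((n + 1 : ℕ) : ℝ) * δ = 1 := by
      rw [hδ]
      push_cast
      field_simp
    have h1 : ∀ᵐ y ∂μ, ∀ j : ℕ, K * δ < B.d (B.τ ((j * δ : ℝ) * h) y) →
        f (B.τ (((j + 1 : ℕ) * δ : ℝ) * h) y) = f (B.τ ((j * δ : ℝ) * h) y) := by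
      rw [ae_all_iff]
      intro j
      filter_upwards [(B.mτ ((j * δ : ℝ) * h)).quasiMeasurePreserving.ae (hl δ hδ0),
        B.τ_add h δ (j * δ)] with y a1 a2 a3
      rw [← a1 a3, a2]
      congr 4
      push_cast
      ring
    have h2 : {y | ¬ f (B.τ h y) = f y} ≤ᵐ[μ]
        ⋃ j ∈ Finset.range (n + 1), B.τ ((j * δ : ℝ) * h) ⁻¹' {y | B.d y ≤ K * δ} := by
      filter_upwards [h1, B.τ_zero] with y a1 a2 a3
      by_contra hc
      have b1 : ∀ j ≤ n + 1, f (B.τ ((j * δ : ℝ) * h) y) = f y := by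
        intro j hj
        induction j with
        | zero => simp [a2]
        | succ j ih =>
          rw [a1 j, ih (by omega)]
          by_contra b2
          exact hc (Set.mem_iUnion₂.2 ⟨j, Finset.mem_range.2 hj, not_lt.1 b2⟩)
      have b3 := b1 (n + 1) le_rfl
      rw [hδ1, Complex.ofReal_one, one_mul] at b3
      exact a3 b3
    refine (measure_mono_ae h2).trans ((measure_biUnion_finset_le _ _).trans ?_)
    have h3 : ∀ j ∈ Finset.range (n + 1),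
        μ (B.τ ((j * δ : ℝ) * h) ⁻¹' {y | B.d y ≤ K * δ}) ≤ ENNReal.ofReal (B.C * (K * δ) ^ 2) := by
      intro j _
      rw [(B.mτ _).measure_preimage (measurableSet_le B.md measurable_const).nullMeasurableSet]
      exact B.d_meas _ (by positivity)
    refine (Finset.sum_le_card_nsmul _ _ _ h3).trans (le_of_eq ?_)
    rw [Finset.card_range, nsmul_eq_mul, ← ENNReal.ofReal_natCast,
      ← ENNReal.ofReal_mul (Nat.cast_nonneg _), ← hδ]
    congr 1
    linear_combination (B.C * K ^ 2 * δ) * hδ1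
  have lim : Tendsto (fun n : ℕ => ENNReal.ofReal (B.C * K ^ 2 * (1 / ((n : ℝ) + 1)))) atTop
      (𝓝 0) := by
    have := ENNReal.tendsto_ofReal
      ((tendsto_one_div_add_atTop_nhds_zero_nat (𝕜 := ℝ)).const_mul (B.C * K ^ 2))
    rwa [mul_zero, ENNReal.ofReal_zero] at this
  exact ae_iff.2 (le_antisymm (ge_of_tendsto' lim key) bot_le)

theorem inv_neg {f : Ω → ℂ} {h : ℂ} (hi : ∀ᵐ y ∂μ, f (B.τ h y) = f y) :
    ∀ᵐ y ∂μ, f (B.τ (-h) y) = f y := by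
  filter_upwards [(B.mτ (-h)).quasiMeasurePreserving.ae hi, B.Cut3_cancel (-h)] with y a1 a2
  rw [neg_neg] at a2
  rw [← a1, a2]

/-- invariance under the diagonal flow for negative times -/
theorem inv_diag {f : Ω → ℂ} (hi : ∀ t : ℝ, 0 ≤ t → ∀ᵐ y ∂μ, f (B.τ t (B.W t y)) = f y) (t : ℝ) :
    ∀ᵐ y ∂μ, f (B.τ t (B.W t y)) = f y := by
  rcases le_total 0 t with ht | ht
  · exact hi t ht
  · filter_upwards [((B.mτ t).comp (B.mW t)).quasiMeasurePreserving.ae (hi (-t) (by linarith)),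
      (B.mW t).quasiMeasurePreserving.ae (B.τ_W t (-t)), B.W_add (-t) t, B.W_zero,
      B.Cut3_cancel t] with y a1 a2 a3 a4 a5
    rw [neg_add_cancel, a4] at a3
    rw [a3] at a2
    simp only [Function.comp] at a1
    rw [← a2, Complex.ofReal_neg, a5] at a1
    exact a1.symm

theorem inv_all {f : Ω → ℂ} (hf : Measurable f) (hX : ∀ t : ℝ, ∀ᵐ y ∂μ, f (B.τ t y) = f y)
    (hY : ∀ t : ℝ, ∀ᵐ y ∂μ, f (B.τ (t * I) y) = f y) (h : ℂ) :
    ∀ᵐ y ∂μ, f (B.τ h y) = f y := by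
  refine B.inv_of_loc hf h (K := 4 * (|h.re| + |h.im|) + 1) (by positivity) fun δ hδ => ?_
  filter_upwards [B.loc ((δ * h.re : ℝ) : ℂ) ((δ * h.im : ℝ) * I), hX (δ * h.re),
    (B.mτ ((δ * h.re : ℝ) : ℂ)).quasiMeasurePreserving.ae (hY (δ * h.im))] with y a1 a2 a3 a4
  have e : (δ : ℂ) * h = ((δ * h.re : ℝ) : ℂ) + (δ * h.im : ℝ) * I := by
    conv_lhs => rw [← Complex.re_add_im h]
    push_cast
    ring
  rw [e, ← a1, a3, a2]
  rw [norm_mul, Complex.norm_I, mul_one, Complex.norm_real, Complex.norm_real, Real.norm_eq_abs,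
    Real.norm_eq_abs, abs_mul, abs_mul, abs_of_pos hδ]
  linarith

/-- `Y` is conjugate to `X` -/
theorem inv_rot {f : Ω → ℂ} (hY : ∀ t : ℝ, ∀ᵐ y ∂μ, f (B.τ (t * I) y) = f y) (t : ℝ) :
    ∀ᵐ y ∂μ, f (B.R (-(Real.pi / 2)) (B.τ t y)) = f (B.R (-(Real.pi / 2)) y) := by
  filter_upwards [B.τ_R (t * I) (-(Real.pi / 2)),
    (B.mR (-(Real.pi / 2))).quasiMeasurePreserving.ae (hY t)] with y a1 a2
  have e : exp (((-(Real.pi / 2) : ℝ) : ℂ) * I) * (t * I) = t := by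
    rw [Complex.exp_mul_I, ← Complex.ofReal_cos, ← Complex.ofReal_sin, Real.cos_neg, Real.sin_neg,
      Real.cos_pi_div_two, Real.sin_pi_div_two]
    push_cast
    linear_combination (-(t : ℂ)) * Complex.I_sq
  rw [e] at a1
  rw [← a1, a2]

end MSys

end Crest.Agent.R103
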