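import Mathlib
import Crest.Prelude.Def_Billiard

/-!
# Row 103 (weak mixing of irrational triangle billiards): definitions and blueprint (owner helper76)

`St` = position × orthonormal frame (unit vector `v`, orientation bit).  `τ h` (`h : ℂ`) is the
billiard motion for unit time with velocity `Re h • v + ± Im h • J v`; `τ t` is the billiard flow
`X`, `τ (u * I)` the perpendicular flow `Y`, `rot φ` rotates the frame.  `τ k ∘ τ h = τ (h + k)`
away from the vertices.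

1. (H1-H6, abstract Hilbert space) Rotation modes `P n`; for `v` vanishing near the vertices with
   `x = X v`, `y = Y v`, `a = A v` (`A` generates the flow of the second factor), `p = (x - i y)/2`,
   `q = (x + i y)/2`: `‖p_{n+1}‖ = ‖q_{n-1}‖`, `⟪a_{n+1}, p_{n+1}⟫ = ⟪q_n, a_n⟫`.  Telescoping gives
   `‖P m y‖² ≤ c_N (‖x + a‖ ‖y‖ + ‖x + a‖) + ‖a_{N+1}‖² + ‖a_{-N-1}‖²`.
2. (Cut1-Cut3) a logarithmic cutoff `χ = g (rho L)`, `rho L y = inf_s max (|s|/L) (L d (τ s y))`, has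
   `‖X χ‖ ≤ κ / L`, `‖Y χ‖ ≤ κ L` for every `L ≥ 1`.
3. (M1-M3) so a bounded function invariant under `τ t ∘ W t` is invariant under `τ (u * I)`.
4. (Geo, Alg, Meas, Step, Orb, Tau, Chain) the billiard is such a system.
5. (Sph, Erg, Prod, Final) irrational holonomy gives ergodicity, conjugating `Y` to `X` gives weak
   mixing.
-/

set_option autoImplicit false

open MeasureTheory Filter Topology Complex
open Crest.AnalysisR.Billiard

noncomputable section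

namespace Crest.Agent.R103

/-! ## Abstract Hilbert space setting -/

section Hilbert

variable (H : Type*) [NormedAddCommGroup H] [InnerProductSpace ℂ H]

/-- strongly continuous one-parameter groups of isometries -/
structure OPG where
  E : ℝ → H →L[ℂ] H
  zero : ∀ v, E 0 v = v
  add : ∀ s t v, E s (E t v) = E (s + t) v
  norm : ∀ t v, ‖E t v‖ = ‖v‖
  cont0 : ∀ v, Tendsto (fun t => E t v) (𝓝 0) (𝓝 v)

/-- the operator form of the structure on the frame bundle -/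
structure HSys where
  U : ℂ → H →L[ℂ] H
  R : OPG H
  W : OPG H
  S : ℝ → Submodule ℂ H
  U_zero : ∀ v, U 0 v = v
  U_add : ∀ (h : ℂ) (s t : ℝ) v, U (s * h) (U (t * h) v) = U ((s + t : ℝ) * h) v
  U_norm : ∀ h v, ‖U h v‖ = ‖v‖
  U_cont : ∀ v, Tendsto (fun h => U h v) (𝓝 0) (𝓝 v)
  R_per : ∀ v, R.E (2 * Real.pi) v = v
  R_U : ∀ (φ : ℝ) h v, R.E φ (U h v) = U (exp (φ * I) * h) (R.E φ v)
  W_U : ∀ t h v, W.E t (U h v) = U h (W.E t v)
  W_R : ∀ t φ v, W.E t (R.E φ v) = R.E φ (W.E t v)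
  S_closed : ∀ η, IsClosed (S η : Set H)
  S_anti : ∀ η η', η ≤ η' → S η' ≤ S η
  S_U : ∀ η h v, v ∈ S η → U h v ∈ S (η - ‖h‖)
  S_R : ∀ η φ v, v ∈ S η → R.E φ v ∈ S η
  S_W : ∀ η t v, v ∈ S η → W.E t v ∈ S η
  loc : ∀ η h k v, v ∈ S η → 8 * (‖h‖ + ‖k‖) < η → U h (U k v) = U (h + k) v

variable {H}

/-- the flow in direction `h` -/
def HSys.dir (Y : HSys H) (h : ℂ) : OPG H where
  E t := Y.U (t * h)
  zero v := by simpa using Y.U_zero v
  add s t v := Y.U_add h s t v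
  norm t v := Y.U_norm _ v
  cont0 v := by
    have : Tendsto (fun t : ℝ => (t : ℂ) * h) (𝓝 0) (𝓝 0) := by
      have : Continuous (fun t : ℝ => (t : ℂ) * h) := by fun_prop
      simpa using this.tendsto 0
    exact (Y.U_cont v).comp this

variable [NormedSpace ℝ H]

/-- average over `[0, δ]` -/
def OPG.avg (G : OPG H) (δ : ℝ) (v : H) : H := δ⁻¹ • ∫ s in (0 : ℝ)..δ, G.E s v

/-- `x` is the generator applied to `v` -/
def OPG.Der (G : OPG H) (v x : H) : Prop := HasDerivAt (fun t : ℝ => G.E t v) x 0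

/-- the `n`-th mode of a `2π`-periodic group -/
def OPG.P (G : OPG H) (n : ℤ) (v : H) : H :=
  (2 * Real.pi)⁻¹ • ∫ φ in (0 : ℝ)..(2 * Real.pi), exp (-(n * φ * I)) • G.E φ v

/-- vectors vanishing near the vertices with `X v = x`, `Y v = y` -/
structure HSys.Dom (Y : HSys H) (v x y : H) : Prop where
  supp : ∃ η, 0 < η ∧ v ∈ Y.S η
  dx : (Y.dir 1).Der v x
  dy : (Y.dir I).Der v y

/-- good approximation of `f` (and of `a = A f`) -/
def HSys.Approx (Y : HSys H) (f a : H) (ε : ℝ) : Prop :=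
  ∃ (v a' : H) (η t₀ α β : ℝ), 0 < η ∧ 0 < t₀ ∧ v ∈ Y.S η ∧ ‖v - f‖ ≤ ε ∧ Y.W.Der v a' ∧
    ‖a' - a‖ ≤ ε ∧ 0 ≤ α ∧ 0 ≤ β ∧ α ≤ ε ∧ α * β ≤ ε ∧
    (∀ t : ℝ, |t| ≤ t₀ → ‖Y.U t (Y.W.E t v) - v‖ ≤ α * |t|) ∧
    (∀ t : ℝ, |t| ≤ t₀ → ‖Y.U (t * I) v - v‖ ≤ β * |t|)

end Hilbert

/-! ## Abstract measure-theoretic setting -/

/-- the structure on the frame bundle (times a second factor with flow `W`) -/
structure MSys {Ω : Type*} [MeasurableSpace Ω] [TopologicalSpace Ω] (μ : Measure Ω) where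
  τ : ℂ → Ω → Ω
  R : ℝ → Ω → Ω
  W : ℝ → Ω → Ω
  d : Ω → ℝ
  C : ℝ
  C_pos : 0 < C
  mτ : ∀ h, MeasurePreserving (τ h) μ μ
  mR : ∀ φ, MeasurePreserving (R φ) μ μ
  mW : ∀ t, MeasurePreserving (W t) μ μ
  md : Measurable d
  τ_zero : ∀ᵐ y ∂μ, τ 0 y = y
  τ_add : ∀ (h : ℂ) (s t : ℝ), ∀ᵐ y ∂μ, τ (s * h) (τ (t * h) y) = τ ((s + t : ℝ) * h) y
  R_zero : ∀ᵐ y ∂μ, R 0 y = y
  R_add : ∀ s t, ∀ᵐ y ∂μ, R s (R t y) = R (s + t) y
  R_per : ∀ᵐ y ∂μ, R (2 * Real.pi) y = y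
  W_zero : ∀ᵐ y ∂μ, W 0 y = y
  W_add : ∀ s t, ∀ᵐ y ∂μ, W s (W t y) = W (s + t) y
  τ_R : ∀ (h : ℂ) (φ : ℝ), ∀ᵐ y ∂μ, τ h (R φ y) = R φ (τ (exp (φ * I) * h) y)
  τ_W : ∀ h t, ∀ᵐ y ∂μ, τ h (W t y) = W t (τ h y)
  R_W : ∀ φ t, ∀ᵐ y ∂μ, R φ (W t y) = W t (R φ y)
  d_R : ∀ φ, ∀ᵐ y ∂μ, d (R φ y) = d y
  d_W : ∀ t, ∀ᵐ y ∂μ, d (W t y) = d y
  d_τ : ∀ h, ∀ᵐ y ∂μ, |d (τ h y) - d y| ≤ ‖h‖
  d_meas : ∀ η, 0 < η → μ {y | d y ≤ η} ≤ ENNReal.ofReal (C * η ^ 2)
  loc : ∀ h k, ∀ᵐ y ∂μ, 4 * (‖h‖ + ‖k‖) < d y → τ k (τ h y) = τ (h + k) y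
  τ_cont : ∀ u : ℕ → ℂ, Tendsto u atTop (𝓝 0) →
    ∀ᵐ y ∂μ, Tendsto (fun n => τ (u n) y) atTop (𝓝 y)
  R_cont : ∀ u : ℕ → ℝ, Tendsto u atTop (𝓝 0) →
    ∀ᵐ y ∂μ, Tendsto (fun n => R (u n) y) atTop (𝓝 y)
  W_cont : ∀ u : ℕ → ℝ, Tendsto u atTop (𝓝 0) →
    ∀ᵐ y ∂μ, Tendsto (fun n => W (u n) y) atTop (𝓝 y)

/-- distance to the vertices in the metric stretched by `L` -/
def MSys.rho {Ω : Type*} [MeasurableSpace Ω] [TopologicalSpace Ω] {μ : Measure Ω} (B : MSys μ)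
    (L : ℝ) (y : Ω) : ℝ :=
  ⨅ s : ℚ, max (|(s : ℝ)| / L) (L * B.d (B.τ ((s : ℝ) : ℂ) y))

/-- the logarithmic profile, as an average of `n` ramps at the scales `ε / 4 ^ j` -/
def prof (n : ℕ) (ε s : ℝ) : ℝ :=
  (n : ℝ)⁻¹ * ∑ j ∈ Finset.range n, max 0 (min 1 (s / (ε / 4 ^ j) - 1))

/-- composition operator on `L²` -/
def koop {Ω : Type*} [MeasurableSpace Ω] {μ : Measure Ω} {T : Ω → Ω}
    (hT : MeasurePreserving T μ μ) : Lp ℂ 2 μ →L[ℂ] Lp ℂ 2 μ :=
  (Lp.compMeasurePreservingₗᵢ ℂ T hT).toContinuousLinearMap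

/-! ## The triangle -/

open scoped RealInnerProductSpace

abbrev Sph : Type := ↥(Metric.sphere (0 : Plane) 1)
/-- orthonormal frames -/
abbrev Dir : Type := Sph × Bool
abbrev St : Type := Plane × Dir

/-- rotation by a right angle -/
def J (v : Plane) : Plane := !₂[-v 1, v 0]

def sg (b : Bool) : ℝ := if b then 1 else -1

/-- the vector with coordinates `h` in the frame `e` -/
def fr (e : Dir) (h : ℂ) : Plane := h.re • (e.1 : Plane) + (sg e.2 * h.im) • J e.1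

theorem sph_sq (v : Sph) : (v : Plane) 0 ^ 2 + (v : Plane) 1 ^ 2 = 1 := by
  have h : ‖(v : Plane)‖ = 1 := by simp
  have := EuclideanSpace.real_norm_sq_eq (v : Plane)
  rw [h, Fin.sum_univ_two] at this
  linarith

theorem sg_sq (b : Bool) : sg b ^ 2 = 1 := by cases b <;> simp [sg]

theorem norm_fr (e : Dir) (h : ℂ) : ‖fr e h‖ = ‖h‖ := by
  have h1 := EuclideanSpace.real_norm_sq_eq (fr e h)
  have h2 := sph_sq e.1
  have h3 := sg_sq e.2
  have h4 : ‖h‖ ^ 2 = h.re ^ 2 + h.im ^ 2 := by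
    rw [Complex.sq_norm, Complex.normSq_apply]; ring
  rw [← sq_eq_sq₀ (norm_nonneg _) (norm_nonneg _), h1, h4, Fin.sum_univ_two]
  simp only [fr, J, PiLp.add_apply, PiLp.smul_apply, smul_eq_mul, Matrix.cons_val_zero,
    Matrix.cons_val_one, Matrix.cons_val_fin_one]
  linear_combination (h.re ^ 2 + sg e.2 ^ 2 * h.im ^ 2) * h2 + h.im ^ 2 * h3

/-- rotation of a frame -/
def rotD (φ : ℝ) (e : Dir) : Dir :=
  (⟨fr e (exp (φ * I)), by simp [norm_fr, Complex.norm_exp_ofReal_mul_I]⟩, e.2)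

def shift (h : ℂ) (y : St) : St := (y.1 + fr y.2 h, y.2)

def rot (φ : ℝ) (y : St) : St := (y.1, rotD φ y.2)

/-- the underlying phase point -/
def proj (y : St) : Phase := (y.1, y.2.1)

def sig : Measure Dir := (volume : Measure Plane).toSphere.prod Measure.count

def lam : Measure St := (volume : Measure Plane).prod sig

/-- a triangle with its inner unit normals -/
structure Tri where
  A : Fin 3 → Plane
  n : Fin 3 → Plane
  hA : AffineIndependent ℝ A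
  norm_n : ∀ i, ‖n i‖ = 1
  orth : ∀ i, ⟪sideVec A i, n i⟫ = 0
  pos : ∀ i, 0 < ⟪A i - A (i + 1), n i⟫

namespace Tri

variable (T : Tri)

/-- signed distance to the line of side `i` -/
def ell (i : Fin 3) (x : Plane) : ℝ := ⟪x - T.A (i + 1), T.n i⟫

def In : Set Plane := {x | ∀ i, 0 < T.ell i x}

def OnSide (i : Fin 3) (x : Plane) : Prop := T.ell i x = 0 ∧ ∀ j, j ≠ i → 0 < T.ell j x

/-- substitute for the distance to the vertices -/
def dd (x : Plane) : ℝ :=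
  min (max (T.ell 0 x) (T.ell 1 x))
    (min (max (T.ell 1 x) (T.ell 2 x)) (max (T.ell 0 x) (T.ell 2 x)))

def mir (i : Fin 3) (v : Plane) : Plane := v - (2 * ⟪v, T.n i⟫) • T.n i

theorem norm_mir (i : Fin 3) (v : Plane) : ‖T.mir i v‖ = ‖v‖ := by
  rw [← sq_eq_sq₀ (norm_nonneg _) (norm_nonneg _), mir, norm_sub_sq_real, inner_smul_right,
    norm_smul, T.norm_n, Real.norm_eq_abs, mul_one, sq_abs]
  ring

def rD (i : Fin 3) (e : Dir) : Dir :=
  (⟨T.mir i e.1, by simp [norm_mir]⟩, !e.2)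

def rP (i : Fin 3) (x : Plane) : Plane := x - (2 * T.ell i x) • T.n i

def refl (i : Fin 3) (y : St) : St := (T.rP i y.1, T.rD i y.2)

def fold (y : St) : St :=
  if T.ell 0 y.1 ≤ 0 then T.refl 0 y else if T.ell 1 y.1 ≤ 0 then T.refl 1 y
  else if T.ell 2 y.1 ≤ 0 then T.refl 2 y else y

/-- a short step with at most one reflection -/
def step (h : ℂ) (y : St) : St := T.fold (shift h y)

def mu : Measure St := ((volume : Measure Plane).restrict T.In).prod sig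

/-- finite billiard orbits with velocity `h` (in the moving frame) during time `t` -/
inductive Orb (h : ℂ) : ℝ → St → St → Prop
  | free (t : ℝ) (y y' : St) : 0 ≤ t →
      (∀ s : ℝ, 0 < s → s ≤ t → (shift (s * h) y).1 ∈ T.In) → y' = shift (t * h) y → Orb h t y y'
  | hit (t s a : ℝ) (y y' : St) (i : Fin 3) : t = s + a → 0 < s →
      (∀ s' : ℝ, 0 < s' → s' < s → (shift (s' * h) y).1 ∈ T.In) →
      T.OnSide i (shift (s * h) y).1 → Orb h a (T.refl i (shift (s * h) y)) y' → Orb h t y y'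

/-- `n` short steps stay away from the vertices -/
def Gd (h : ℂ) (n : ℕ) : Set St :=
  {y | ∀ i < n, ((T.step h)^[i] y).1 ∈ T.In ∧ 2 * ‖h‖ < T.dd ((T.step h)^[i] y).1}

open Classical in
/-- the billiard motion for unit time with velocity `h` -/
def tau (h : ℂ) (y : St) : St :=
  if H : ∃ n : ℕ, y ∈ T.Gd (h / (n + 1)) (n + 1) then
    (T.step (h / (Nat.find H + 1)))^[Nat.find H + 1] y
  else y

/-- a one-sided infinite orbit of the unit speed flow -/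
structure Ray (y : St) where
  s : ℕ → ℝ
  i : ℕ → Fin 3
  z : ℕ → St
  z_zero : z 0 = y
  s_pos : ∀ k, 0 < s k
  inside : ∀ k (s' : ℝ), 0 < s' → s' < s k → (shift s' (z k)).1 ∈ T.In
  side : ∀ k, T.OnSide (i k) (shift (s k) (z k)).1
  z_succ : ∀ k, z (k + 1) = T.refl (i k) (shift (s k) (z k))
  div : Tendsto (fun n => ∑ k ∈ Finset.range n, s k) atTop atTop

/-- time of the `n`-th collision -/
def Ray.tm {T : Tri} {y : St} (r : T.Ray y) (n : ℕ) : ℝ := ∑ k ∈ Finset.range n, r.s k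

end Tri

end Crest.Agent.R103
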