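import Crest.Agent.R103.M3

/-!
# Product systems and weak mixing (task Prod)
`prod`: `τ`, `R`, `d` act on the first factor, `W t` is the flow `τ t` on the second factor.
`section_const`: `inv_Y` for the indicator of `s` in `B.prod`; for measurable `A` the function
`g y = μ.real {z | (y, z) ∈ s ∧ z ∈ A} / (μ.real univ + 1)` is `Y`-invariant (`Measure.ae_ae_of_ae_prod`),
`g ∘ R (-π/2)` is `X`-invariant (`inv_rot`), hence a.e. constant, hence so is `g`.
`weak_mixing`: apply `section_const` to `s` and to `Prod.swap ⁻¹' s`; then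
`(μ.prod μ) (s ∩ A ×ˢ A') = c μ A μ A'` for all rectangles, so `(μ.prod μ).restrict s = c • μ.prod μ`
(`Measure.prod_eq` or `ext_of_generate_finite`); evaluate on `sᶜ` and on `s`.
-/

set_option autoImplicit false
set_option linter.unusedSectionVars false
set_option linter.unusedVariables false

open MeasureTheory Filter Topology Complex
open Crest.AnalysisR.Billiard

noncomputable section

namespace Crest.Agent.R103

variable {Ω : Type*} [MeasurableSpace Ω] [TopologicalSpace Ω] [BorelSpace Ω]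
  [TopologicalSpace.PseudoMetrizableSpace Ω] {μ : Measure Ω} [IsFiniteMeasure μ]

variable [SecondCountableTopology Ω]

theorem proda_fst {p : Ω → Prop} (h : ∀ᵐ y ∂μ, p y) : ∀ᵐ y ∂(μ.prod μ), p y.1 :=
  Measure.quasiMeasurePreserving_fst.ae h

theorem proda_snd {p : Ω → Prop} (h : ∀ᵐ y ∂μ, p y) : ∀ᵐ y ∂(μ.prod μ), p y.2 :=
  Measure.quasiMeasurePreserving_snd.ae h

namespace MSys

variable (B : MSys μ)

def prod : MSys (μ.prod μ) where
  τ h p := (B.τ h p.1, p.2)
  R φ p := (B.R φ p.1, p.2)
  W t p := (p.1, B.τ t p.2)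
  d p := B.d p.1
  C := B.C * (μ.real Set.univ + 1)
  C_pos := mul_pos B.C_pos (by positivity)
  mτ := fun h => (B.mτ h).prod (MeasurePreserving.id μ)
  mR := fun φ => (B.mR φ).prod (MeasurePreserving.id μ)
  mW := fun t => (MeasurePreserving.id μ).prod (B.mτ t)
  md := B.md.comp measurable_fst
  τ_zero := (proda_fst B.τ_zero).mono fun _ h => Prod.ext h rfl
  τ_add := fun h s t => (proda_fst (B.τ_add h s t)).mono fun _ h => Prod.ext h rfl
  R_zero := (proda_fst B.R_zero).mono fun _ h => Prod.ext h rfl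
  R_add := fun s t => (proda_fst (B.R_add s t)).mono fun _ h => Prod.ext h rfl
  R_per := (proda_fst B.R_per).mono fun _ h => Prod.ext h rfl
  W_zero := (proda_snd B.τ_zero).mono fun _ h => Prod.ext rfl h
  W_add := fun s t => (proda_snd (B.τ_add 1 s t)).mono fun _ h =>
    Prod.ext rfl (by simpa only [mul_one] using h)
  τ_R := fun h φ => (proda_fst (B.τ_R h φ)).mono fun _ h => Prod.ext h rfl
  τ_W := fun _ _ => Eventually.of_forall fun _ => rfl
  R_W := fun _ _ => Eventually.of_forall fun _ => rfl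
  d_R := fun φ => proda_fst (B.d_R φ)
  d_W := fun _ => Eventually.of_forall fun _ => rfl
  d_τ := fun h => proda_fst (B.d_τ h)
  d_meas := fun η hη => by
    have e : {y : Ω × Ω | B.d y.1 ≤ η} = {y | B.d y ≤ η} ×ˢ Set.univ := by
      ext y
      simp
    rw [e, Measure.prod_prod, mul_right_comm,
      ENNReal.ofReal_mul (mul_pos B.C_pos (pow_pos hη 2)).le]
    refine mul_le_mul' (B.d_meas η hη) ?_
    rw [← ofReal_measureReal]
    exact ENNReal.ofReal_le_ofReal (le_add_of_nonneg_right zero_le_one)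
  loc := fun h k => (proda_fst (B.loc h k)).mono fun _ h hd => Prod.ext (h hd) rfl
  τ_cont := fun u hu => (proda_fst (B.τ_cont u hu)).mono fun _ h =>
    h.prodMk_nhds tendsto_const_nhds
  R_cont := fun u hu => (proda_fst (B.R_cont u hu)).mono fun _ h =>
    h.prodMk_nhds tendsto_const_nhds
  W_cont := fun u hu => (proda_snd (B.τ_cont (fun n => u n) (by exact_mod_cast hu.ofReal))).mono
    fun _ h => tendsto_const_nhds.prodMk_nhds h

/-- ergodicity of the flow `X` -/
def Erg : Prop := ∀ f : Ω → ℂ, Measurable f → (∀ y, ‖f y‖ ≤ 1) →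
  (∀ t : ℝ, 0 ≤ t → ∀ᵐ y ∂μ, f (B.τ t y) = f y) → ∃ c, ∀ᵐ y ∂μ, f y = c

theorem section_const (hE : B.Erg) {s : Set (Ω × Ω)} (hs : MeasurableSet s)
    (hi : ∀ t : ℝ, 0 ≤ t → ∀ᵐ p ∂(μ.prod μ), ((B.τ t p.1, B.τ t p.2) ∈ s ↔ p ∈ s))
    {A : Set Ω} (hA : MeasurableSet A) :
    ∃ c : ENNReal, ∀ᵐ y ∂μ, μ {z | (y, z) ∈ s ∧ z ∈ A} = c := by
  classical
  have hind : ∀ p q : Ω × Ω, s.indicator (fun _ => (1 : ℂ)) p = s.indicator (fun _ => 1) q ↔
      (p ∈ s ↔ q ∈ s) := fun p q => by
    by_cases hp : p ∈ s <;> by_cases hq : q ∈ s <;> simp [hp, hq]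
  have hY := B.prod.inv_Y (f := s.indicator fun _ => 1) (measurable_const.indicator hs)
    (fun p => by by_cases hp : p ∈ s <;> simp [hp])
    (fun t ht => (hi t ht).mono fun p hp => (hind _ _).2 hp)
  set m : Ω → ENNReal := fun y => μ {z | (y, z) ∈ s ∧ z ∈ A} with hm
  have hmm : Measurable m :=
    measurable_measure_prodMk_left (ν := μ) (hs.inter (hA.preimage measurable_snd))
  have hK : 0 < μ.real Set.univ + 1 := by positivity
  set g : Ω → ℂ := fun y => (((m y).toReal / (μ.real Set.univ + 1) : ℝ) : ℂ) with hg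
  have hgm : Measurable g := Complex.measurable_ofReal.comp (hmm.ennreal_toReal.div_const _)
  have hg1 : ∀ y, ‖g y‖ ≤ 1 := fun y => by
    rw [hg]
    simp only
    rw [Complex.norm_real, Real.norm_of_nonneg (by positivity), div_le_one hK]
    exact (measureReal_mono (μ := μ) (Set.subset_univ _)).trans (by linarith)
  have hgY : ∀ t : ℝ, ∀ᵐ y ∂μ, g (B.τ (t * I) y) = g y := fun t => by
    filter_upwards [Measure.ae_ae_of_ae_prod (hY t)] with y hy
    have : m (B.τ (t * I) y) = m y := measure_congr (hy.mono fun z hz =>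
      propext (and_congr_left' ((hind _ _).1 hz)))
    simp only [hg, this]
  obtain ⟨c, hc⟩ := hE (fun y => g (B.R (-(Real.pi / 2)) y)) (hgm.comp (B.mR _).measurable)
    (fun y => hg1 _) fun t _ => B.inv_rot hgY t
  have hc' : ∀ᵐ y ∂μ, g y = c := by
    rw [← (B.mR (-(Real.pi / 2))).map_eq]
    exact (ae_map_iff (B.mR _).measurable.aemeasurable
      (measurableSet_eq_fun hgm measurable_const)).2 hc
  refine ⟨ENNReal.ofReal (c.re * (μ.real Set.univ + 1)), hc'.mono fun y hy => ?_⟩
  rw [← hy, hg]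
  simp only
  rw [Complex.ofReal_re, div_mul_cancel₀ _ hK.ne', ENNReal.ofReal_toReal (measure_ne_top _ _)]

theorem weak_mixing (hE : B.Erg) {s : Set (Ω × Ω)} (hs : MeasurableSet s)
    (hi : ∀ t : ℝ, 0 ≤ t → ∀ᵐ p ∂(μ.prod μ), ((B.τ t p.1, B.τ t p.2) ∈ s ↔ p ∈ s)) :
    (μ.prod μ) s = 0 ∨ (μ.prod μ) sᶜ = 0 := by
  obtain ⟨c₀, hc₀⟩ := B.section_const hE (s := Prod.swap ⁻¹' s) (hs.preimage measurable_swap)
    (fun t ht => (Measure.measurePreserving_swap (μ := μ) (ν := μ)).quasiMeasurePreserving.ae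
      (hi t ht)) MeasurableSet.univ
  have h1 : ∀ {A' : Set Ω}, MeasurableSet A' → ∃ c, ∀ {A : Set Ω}, MeasurableSet A →
      (μ.prod μ) (A ×ˢ A' ∩ s) = c * μ A := by
    intro A' hA'
    obtain ⟨c, hc⟩ := B.section_const hE hs hi hA'
    refine ⟨c, fun {A} hA => ?_⟩
    rw [Measure.prod_apply ((hA.prod hA').inter hs), ← lintegral_indicator_const hA]
    refine lintegral_congr_ae (hc.mono fun y hy => ?_)
    by_cases h : y ∈ A
    · simp only [Set.indicator_of_mem h, ← hy]
      congr 1
      ext z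
      simp [h, and_comm]
    · simp only [Set.indicator_of_notMem h]
      convert measure_empty (μ := μ)
      ext z
      simp [h]
  have h2 : ∀ {A' : Set Ω}, MeasurableSet A' →
      (μ.prod μ) (Set.univ ×ˢ A' ∩ s) = c₀ * μ A' := by
    intro A' hA'
    rw [Measure.prod_apply_symm ((MeasurableSet.univ.prod hA').inter hs),
      ← lintegral_indicator_const hA']
    refine lintegral_congr_ae (hc₀.mono fun z hz => ?_)
    by_cases h : z ∈ A'
    · simp only [Set.indicator_of_mem h, ← hz]
      congr 1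
      ext y
      simp [h]
    · simp only [Set.indicator_of_notMem h]
      convert measure_empty (μ := μ)
      ext y
      simp [h]
  have : IsFiniteMeasure (μ Set.univ • (μ.prod μ).restrict s) :=
    Measure.smul_finite _ (measure_ne_top _ _)
  have h3 : μ Set.univ • (μ.prod μ).restrict s = c₀ • μ.prod μ := by
    refine Measure.ext_prod fun {A A'} hA hA' => ?_
    obtain ⟨c, hc⟩ := h1 hA'
    have e := (hc MeasurableSet.univ).symm.trans (h2 hA')
    rw [Measure.smul_apply, Measure.smul_apply, Measure.restrict_apply (hA.prod hA'), hc hA,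
      Measure.prod_prod, smul_eq_mul, smul_eq_mul, ← mul_assoc, mul_comm (μ Set.univ), e]
    ring
  have h4 := congrArg (fun ν : Measure (Ω × Ω) => ν sᶜ) h3
  have h5 := congrArg (fun ν : Measure (Ω × Ω) => ν s) h3
  simp only [Measure.smul_apply, Measure.restrict_apply hs.compl, Measure.restrict_apply hs,
    Set.compl_inter_self, Set.inter_self, measure_empty, smul_eq_mul, mul_zero] at h4 h5
  rcases mul_eq_zero.1 h4.symm with h | h
  · left
    rw [h, zero_mul] at h5
    rcases mul_eq_zero.1 h5 with h | h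
    · rw [Measure.measure_univ_eq_zero.1 h]
      simp
    · exact h
  · exact Or.inr h

end MSys

end Crest.Agent.R103
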