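import Crest.Agent.R103.Meas

/-!
# Irrational rotations of frames (task Sph)
`rD_rD_eq`: with unit vectors `u`, `u'` along the two sides at `A i`, `u' = cos α u ± sin α J u`, and the
product of the two reflections is the rotation by `± 2 α`; on a frame with bit `b` this is
`rotD (± sg b * 2 α)`.  (`mir i v = mirror (sideVec i) v`; `sideVec (i+2) = A (i+1) - A i`,
`sideVec (i+1) = -(A (i+2) - A i)`.)
`sph_erg`: transport `toSphere` to `AddCircle (2π)` (`AddCircle.homeomorphCircle`,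
`Complex.orthonormalBasisOneI.repr`); the image is a finite left invariant measure;
`ergodic_add_left_of_denseRange_zsmul`, `AddCircle.denseRange_zsmul_coe_iff`,
`Ergodic.ae_eq_const_of_ae_eq_comp`.
`dir_const`: `c (·, b)` is a.e. constant for each `b`, and `rD i` exchanges the two bits.
-/

set_option autoImplicit false
set_option linter.unusedSectionVars false
set_option linter.unusedVariables false

open MeasureTheory Filter Topology Complex
open Crest.AnalysisR.Billiard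
open scoped RealInnerProductSpace

noncomputable section

namespace Crest.Agent.R103

theorem spha_sq {u : Plane} (hu : ‖u‖ = 1) : u 0 ^ 2 + u 1 ^ 2 = 1 := by
  have := EuclideanSpace.real_norm_sq_eq u
  rw [hu, Fin.sum_univ_two] at this
  linarith

theorem spha_inner (u v : Plane) : ⟪u, v⟫ = u 0 * v 0 + u 1 * v 1 := by
  simp [PiLp.inner_apply, Fin.sum_univ_two, mul_comm]

theorem spha_mir (T : Tri) (i : Fin 3) {u : Plane} (hu : ‖u‖ = 1) (ho : ⟪u, T.n i⟫ = 0)
    (v : Plane) : T.mir i v 0 = (u 0 ^ 2 - u 1 ^ 2) * v 0 + 2 * u 0 * u 1 * v 1 ∧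
      T.mir i v 1 = 2 * u 0 * u 1 * v 0 + (u 1 ^ 2 - u 0 ^ 2) * v 1 := by
  have h1 := spha_sq hu
  have h2 := spha_sq (T.norm_n i)
  rw [spha_inner] at ho
  have e0 : T.n i 0 ^ 2 = u 1 ^ 2 := by
    linear_combination (-T.n i 0 ^ 2) * h1 + u 1 ^ 2 * h2 + (T.n i 0 * u 0 - T.n i 1 * u 1) * ho
  have e1 : T.n i 0 * T.n i 1 = -(u 0 * u 1) := by
    linear_combination (T.n i 1 * u 0 + T.n i 0 * u 1) * ho - T.n i 0 * T.n i 1 * h1 -
      u 0 * u 1 * h2
  simp only [Tri.mir, spha_inner, PiLp.sub_apply, PiLp.smul_apply, smul_eq_mul]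
  constructor
  · linear_combination (-2 * v 0) * e0 - 2 * v 1 * e1 - v 0 * h1
  · linear_combination (-2 * v 0) * e1 + 2 * v 1 * e0 - 2 * v 1 * h2 + v 1 * h1

theorem spha_angle {u u' : Plane} (hu : ‖u‖ = 1) (hu' : ‖u'‖ = 1) : ∃ σ : ℝ, (σ = 1 ∨ σ = -1) ∧
    Real.cos (InnerProductGeometry.angle u u') = u 0 * u' 0 + u 1 * u' 1 ∧
    σ * Real.sin (InnerProductGeometry.angle u u') = u 0 * u' 1 - u 1 * u' 0 := by
  have hc : Real.cos (InnerProductGeometry.angle u u') = u 0 * u' 0 + u 1 * u' 1 := by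
    rw [InnerProductGeometry.cos_angle, hu, hu', spha_inner]; simp
  have h1 := spha_sq hu
  have h2 := spha_sq hu'
  have hs : Real.sin (InnerProductGeometry.angle u u') ^ 2 = (u 0 * u' 1 - u 1 * u' 0) ^ 2 := by
    rw [Real.sin_sq, hc]
    linear_combination (-(u' 0 ^ 2 + u' 1 ^ 2)) * h1 - h2
  rcases sq_eq_sq_iff_eq_or_eq_neg.1 hs with h | h
  · exact ⟨1, Or.inl rfl, hc, by rw [h, one_mul]⟩
  · exact ⟨-1, Or.inr rfl, hc, by rw [h]; ring⟩

theorem Tri.rD_rD_eq (T : Tri) (i : Fin 3) : ∃ σ : ℝ, (σ = 1 ∨ σ = -1) ∧ ∀ e : Dir,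
    T.rD (i + 1) (T.rD (i + 2) e) = rotD (σ * sg e.2 *
      (2 * EuclideanGeometry.angle (T.A (i + 1)) (T.A i) (T.A (i + 2)))) e := by
  have a1 : i + 2 + 2 = i + 1 := by fin_cases i <;> rfl
  have a2 : i + 2 + 1 = i := by fin_cases i <;> rfl
  have a3 : i + 1 + 2 = i := by fin_cases i <;> rfl
  have a4 : i + 1 + 1 = i + 2 := by fin_cases i <;> rfl
  have hp : sideVec T.A (i + 2) = T.A (i + 1) - T.A i := by rw [sideVec, a1, a2]
  have hq : sideVec T.A (i + 1) = -(T.A (i + 2) - T.A i) := by rw [sideVec, a3, a4, neg_sub]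
  set p := T.A (i + 1) - T.A i
  set q := T.A (i + 2) - T.A i
  have hp0 : 0 < ‖p‖ := norm_pos_iff.2 (hp ▸ T.sideVec_ne _)
  have hq0 : 0 < ‖q‖ := norm_pos_iff.2 (neg_ne_zero.1 (hq ▸ T.sideVec_ne _))
  have hu : ‖‖p‖⁻¹ • p‖ = 1 := by rw [norm_smul, norm_inv, norm_norm, inv_mul_cancel₀ hp0.ne']
  have hu' : ‖‖q‖⁻¹ • q‖ = 1 := by rw [norm_smul, norm_inv, norm_norm, inv_mul_cancel₀ hq0.ne']
  have ho : ⟪‖p‖⁻¹ • p, T.n (i + 2)⟫ = 0 := by
    rw [real_inner_smul_left, ← hp, T.orth, mul_zero]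
  have ho' : ⟪‖q‖⁻¹ • q, T.n (i + 1)⟫ = 0 := by
    have := T.orth (i + 1)
    rw [hq, inner_neg_left, neg_eq_zero] at this
    rw [real_inner_smul_left, this, mul_zero]
  have hang : EuclideanGeometry.angle (T.A (i + 1)) (T.A i) (T.A (i + 2)) =
      InnerProductGeometry.angle (‖p‖⁻¹ • p) (‖q‖⁻¹ • q) := by
    rw [InnerProductGeometry.angle_smul_left_of_pos _ _ (inv_pos.2 hp0),
      InnerProductGeometry.angle_smul_right_of_pos _ _ (inv_pos.2 hq0)]
    rfl
  obtain ⟨σ, hσ, hc, hs⟩ := spha_angle hu hu'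
  refine ⟨σ, hσ, fun e => ?_⟩
  rw [hang]
  generalize InnerProductGeometry.angle (‖p‖⁻¹ • p) (‖q‖⁻¹ • q) = α at hc hs
  generalize ‖p‖⁻¹ • p = u at hu ho hc hs
  generalize ‖q‖⁻¹ • q = u' at hu' ho' hc hs
  have c1 : Real.cos (σ * sg e.2 * (2 * α)) = Real.cos α ^ 2 - (σ * Real.sin α) ^ 2 := by
    rcases hσ with rfl | rfl <;> cases e.2 <;> simp [sg, Real.cos_two_mul']
  have c2 : sg e.2 * Real.sin (σ * sg e.2 * (2 * α)) = 2 * (σ * Real.sin α) * Real.cos α := by
    rcases hσ with rfl | rfl <;> cases e.2 <;> simp [sg, Real.sin_two_mul]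
  rw [hc, hs] at c1 c2
  refine Prod.ext (Subtype.ext ?_) (Bool.not_not _)
  show T.mir (i + 1) (T.mir (i + 2) e.1) = fr e (exp (((σ * sg e.2 * (2 * α) : ℝ) : ℂ) * I))
  obtain ⟨m1, m2⟩ := spha_mir T (i + 2) hu ho e.1
  obtain ⟨m3, m4⟩ := spha_mir T (i + 1) hu' ho' (T.mir (i + 2) e.1)
  rw [m1, m2] at m3 m4
  rw [fr, Complex.exp_ofReal_mul_I_re, Complex.exp_ofReal_mul_I_im, c1, c2]
  ext k
  fin_cases k
  · simp only [Fin.zero_eta, m3, J, PiLp.add_apply, PiLp.smul_apply, smul_eq_mul,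
      Matrix.cons_val_zero]
    ring
  · simp only [Fin.mk_one, m4, J, PiLp.add_apply, PiLp.smul_apply, smul_eq_mul,
      Matrix.cons_val_one, Matrix.cons_val_fin_one]
    ring

theorem sphb_dense {β : ℝ} (hβ : Irrational (β / (2 * Real.pi))) :
    DenseRange (Circle.exp β ^ · : ℤ → Circle) := by
  have h := (AddCircle.homeomorphCircle'.surjective.denseRange).comp
    (AddCircle.denseRange_zsmul_coe_iff.2 hβ) AddCircle.homeomorphCircle'.continuous
  convert h using 2 with n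
  rw [Function.comp_apply, ← AddCircle.coe_zsmul, AddCircle.homeomorphCircle'_apply_mk,
    zsmul_eq_mul, Circle.exp_intCast_mul]

/-- a linear isometry identifies the circle group with the sphere -/
def sphbHomeo (L : ℂ ≃ₗᵢ[ℝ] Plane) : Circle ≃ₜ Sph where
  toFun z := ⟨L z, by simp⟩
  invFun v := ⟨L.symm v, by simp [Submonoid.unitSphere]⟩
  left_inv z := Circle.ext (L.symm_apply_apply _)
  right_inv v := Subtype.ext (L.apply_symm_apply _)
  continuous_toFun := (L.continuous.comp continuous_subtype_val).subtype_mk _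
  continuous_invFun := (L.symm.continuous.comp continuous_subtype_val).subtype_mk _

theorem sphb_erg (L : ℂ ≃ₗᵢ[ℝ] Plane) {a : Circle} (ha : DenseRange (a ^ · : ℤ → Circle))
    {f : Sph → Sph} (hf : ∀ z, f (sphbHomeo L z) = sphbHomeo L (a * z)) :
    Ergodic f (volume : Measure Plane).toSphere := by
  borelize Circle
  set Ψ := sphbHomeo L
  set μ := (volume : Measure Plane).toSphere
  have hm : ∀ g : Circle, MeasurePreserving (fun v => Ψ (g * Ψ.symm v)) μ μ := fun g =>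
    toSphere_map (L.symm.trans ((rotation g).trans L)) fun v => rfl
  have h1 : MeasurePreserving Ψ.symm μ (μ.map Ψ.symm) := ⟨Ψ.symm.measurable, rfl⟩
  have h2 : MeasurePreserving Ψ (μ.map Ψ.symm) μ :=
    MeasurePreserving.symm Ψ.symm.toMeasurableEquiv h1
  have : (μ.map Ψ.symm).IsMulLeftInvariant := ⟨fun g =>
    (h1.of_semiconj (hm g) (gb := fun z => g * z) (fun v => Ψ.symm_apply_apply _)
      (measurable_const_mul g)).map_eq⟩
  have hf' : f = fun v => Ψ (a * Ψ.symm v) := funext fun v => by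
    rw [← hf, Ψ.apply_symm_apply]
  exact h2.ergodic_of_ergodic_semiconj (ergodic_mul_left_of_denseRange_zpow ha _)
    (hf' ▸ (hm a).measurable) fun z => (hf z).symm

theorem sph_erg {β : ℝ} (hβ : Irrational (β / (2 * Real.pi))) (b : Bool) {g : Sph → ℂ}
    (hg : Measurable g)
    (hi : ∀ᵐ v ∂(volume : Measure Plane).toSphere, g (rotD β (v, b)).1 = g v) :
    ∃ c, ∀ᵐ v ∂(volume : Measure Plane).toSphere, g v = c := by
  obtain ⟨v₀⟩ : Nonempty Sph := (NormedSpace.sphere_nonempty.2 zero_le_one).to_subtype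
  obtain ⟨L, hL⟩ := exists_frL (v₀, b)
  have key : ∀ θ : ℝ, (sphbHomeo L (Circle.exp θ), b) = rotD θ (v₀, b) := fun θ =>
    Prod.ext (Subtype.ext (hL _)) rfl
  have h := sphb_erg L (sphb_dense hβ) (f := fun v => (rotD β (v, b)).1) fun z => by
    obtain ⟨θ, rfl⟩ := Circle.exp_surjective z
    rw [key, rotD_add, ← key, Circle.exp_add]
  exact h.ae_eq_const_of_ae_eq_comp₀ hg.nullMeasurable hi

theorem Tri.dir_const (T : Tri) (hirr : ∃ i : Fin 3,
      Irrational (EuclideanGeometry.angle (T.A (i + 1)) (T.A i) (T.A (i + 2)) / Real.pi))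
    {c : Dir → ℂ} (hc : Measurable c) (hi : ∀ i, ∀ᵐ e ∂sig, c (T.rD i e) = c e) :
    ∃ c₀, ∀ᵐ e ∂sig, c e = c₀ := by
  obtain ⟨i, hirr⟩ := hirr
  obtain ⟨σ, hσ, hrot⟩ := T.rD_rD_eq i
  generalize EuclideanGeometry.angle (T.A (i + 1)) (T.A i) (T.A (i + 2)) = α at hirr hrot
  have h1 : ∀ᵐ e ∂sig, c (rotD (σ * sg e.2 * (2 * α)) e) = c e := by
    filter_upwards [(T.mp_rD (i + 2)).quasiMeasurePreserving.ae (hi (i + 1)), hi (i + 2)]
      with e h h'
    rw [← hrot, h, h']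
  have h2 : ∀ b : Bool, ∃ k, ∀ᵐ v ∂(volume : Measure Plane).toSphere, c (v, b) = k := fun b => by
    refine sph_erg (β := σ * sg b * (2 * α)) ?_ b (g := fun v => c (v, b))
      (hc.comp measurable_prodMk_right) ?_
    · have e : σ * sg b * (2 * α) / (2 * Real.pi) = σ * sg b * (α / Real.pi) := by
        field_simp
      rw [e]
      rcases hσ with rfl | rfl <;> cases b <;> simp [sg, hirr]
    · filter_upwards [Measure.ae_ae_of_ae_prod h1] with v hv
      exact Measure.ae_count_iff.1 hv b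
  choose k hk using h2
  have h3 : ∀ᵐ e ∂sig, c e = k e.2 := by
    refine (Measure.ae_prod_iff_ae_ae
      (measurableSet_eq_fun hc ((measurable_of_countable k).comp measurable_snd))).2 ?_
    filter_upwards [ae_all_iff.2 hk] with v hv
    exact Eventually.of_forall hv
  have := ae_neBot.2 sig_ne_zero
  obtain ⟨e, h4, h5, h6⟩ :=
    (h3.and (((T.mp_rD 0).quasiMeasurePreserving.ae h3).and (hi 0))).exists
  have h7 : k (!e.2) = k e.2 := by rw [← h4, ← h6, h5]; rfl
  have h8 : ∀ b, k b = k true := fun b => by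
    cases b
    · cases h : e.2 <;> simp [h] at h7 <;> simp [h7]
    · rfl
  exact ⟨k true, h3.mono fun e he => he.trans (h8 _)⟩

end Crest.Agent.R103
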