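import Crest.Agent.R103.Tau
import Crest.Agent.R103.Sph
import Crest.Agent.R103.Prod

/-!
# Ergodicity (task Erg)
`leaf_const`: the measurable set `{(y, h) | (shift h y).1 ∈ In ∧ f (shift h y) ≠ f y}` has null
`h`-sections (`tau_shift`), so for a.e. frame `e`, a.e. `x ∈ In` and a.e. `h` one has
`f (x + fr e h, e) = f (x, e)` when `x + fr e h ∈ In`; `h ↦ x + fr e h` preserves Lebesgue measure
(`exists_frL`).  Take `c e` = average of `f (·, e)` over `In`.
`refl_inv`: fix `x₀` on side `i` (`exists_onSide`) and `0 < δ < dd x₀ / 8`.  For a.e. `y` and the four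
`h = ± δ, ± δ I`: `c (tau h y).2 = c y.2`, and `tau h y = refl i (shift h y)` when `2 δ < dd y.1`,
`ell i (shift h y).1 ≤ 0` (`tau_step`, `fold_of_le`).  For every frame `e` one of the four `h` has
`⟪fr e h, n i⟫ < 0`, and then the set of such `x ∈ In` contains a nonempty open set near `x₀`.
-/

set_option autoImplicit false
set_option linter.unusedSectionVars false
set_option linter.unusedVariables false

open MeasureTheory Filter Topology Complex
open Crest.AnalysisR.Billiard
open scoped RealInnerProductSpace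

noncomputable section

namespace Crest.Agent.R103

namespace Tri

variable (T : Tri)

theorem Erg_ae_plane {x : Plane} {e : Dir} {p : St → Prop}
    (h : ∀ᵐ h ∂(volume : Measure ℂ), p (shift h (x, e))) : ∀ᵐ x' ∂(volume : Measure Plane), p (x', e) := by
  obtain ⟨L, hL⟩ := exists_frL e
  have h1 : MeasurePreserving (fun x' : Plane => L.symm (x' - x)) volume volume :=
    L.symm.measurePreserving.comp (measurePreserving_sub_right volume x)
  filter_upwards [h1.quasiMeasurePreserving.ae h] with x' hx'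
  have : shift (L.symm (x' - x)) (x, e) = (x', e) := by
    simp only [shift, ← hL, LinearIsometryEquiv.apply_symm_apply, add_sub_cancel]
  rwa [this] at hx'

theorem Erg_exists_neg (i : Fin 3) (e : Dir) {δ : ℝ} (hδ : 0 < δ) :
    ∃ h ∈ ({(δ : ℂ), -(δ : ℂ), δ * I, -(δ * I)} : Set ℂ), ⟪fr e h, T.n i⟫ < 0 := by
  by_contra hc
  push Not at hc
  have h1 := hc δ (by simp)
  have h2 := hc (-(δ : ℂ)) (by simp)
  have h3 := hc (δ * I) (by simp)
  have h4 := hc (-(δ * I)) (by simp)
  rw [fr_neg, inner_neg_left] at h2 h4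
  have h5 : ⟪fr e δ, T.n i⟫ = 0 := by linarith
  have h6 : ⟪fr e (δ * I), T.n i⟫ = 0 := by linarith
  obtain ⟨L, hL⟩ := exists_frL e
  obtain ⟨k, hk⟩ := L.surjective (T.n i)
  have hk' : k = ((k.re / δ : ℝ) : ℂ) * δ + ((k.im / δ : ℝ) : ℂ) * (δ * I) := by
    have : (δ : ℂ) ≠ 0 := ofReal_ne_zero.2 hδ.ne'
    push_cast
    field_simp
    exact (re_add_im k).symm
  have h7 : ⟪fr e k, T.n i⟫ = 0 := by
    rw [hk', fr_add, fr_smul, fr_smul e _ (δ * I), inner_add_left, real_inner_smul_left,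
      real_inner_smul_left, h5, h6]
    ring
  rw [← hL, hk, real_inner_self_eq_norm_sq, T.norm_n] at h7
  norm_num at h7

theorem leaf_const {f : St → ℂ} (hf : Measurable f) (hb : ∀ y, ‖f y‖ ≤ 1)
    (hi : ∀ h : ℂ, ∀ᵐ y ∂T.mu, f (T.tau h y) = f y) :
    ∃ c : Dir → ℂ, Measurable c ∧ ∀ᵐ y ∂T.mu, f y = c y.2 := by
  have hm : MeasurableSet {p : ℂ × St | (shift p.1 p.2).1 ∈ T.In → f (shift p.1 p.2) = f p.2} := by
    have h1 : Measurable fun p : ℂ × St => shift p.1 p.2 := continuous_shift.measurable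
    exact MeasurableSet.imp (T.measurableSet_In.preimage h1.fst)
      (measurableSet_eq_fun (hf.comp h1) (hf.comp measurable_snd))
  have h1 : ∀ᵐ h ∂(volume : Measure ℂ), ∀ᵐ y ∂T.mu,
      (shift h y).1 ∈ T.In → f (shift h y) = f y := .of_forall fun h => by
    filter_upwards [hi h, T.tau_shift h] with y h1 h2 h3
    rw [← h2 h3, h1]
  have h2 := (Measure.ae_ae_comm (p := fun h y => (shift h y).1 ∈ T.In → f (shift h y) = f y) hm).1 h1
  have h0 : (volume : Measure Plane).restrict T.In ≠ 0 := by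
    rw [Ne, Measure.restrict_eq_zero]
    exact (T.isOpen_In.measure_pos _ T.In_nonempty).ne'
  have : NeZero ((volume : Measure Plane).restrict T.In) := ⟨h0⟩
  refine ⟨fun e => ⨍ x in T.In, f (x, e), ?_, ?_⟩
  · simp only [average_eq]
    exact (hf.stronglyMeasurable.integral_prod_left').measurable.const_smul _
  · filter_upwards [h2] with y hy
    obtain ⟨x, e⟩ := y
    have h3 := Erg_ae_plane (p := fun y' => y'.1 ∈ T.In → f y' = f (x, e)) hy
    have h4 : (fun x' => f (x', e)) =ᵐ[(volume : Measure Plane).restrict T.In] fun _ => f (x, e) :=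
      (ae_restrict_iff' T.measurableSet_In).2 h3
    rw [average_congr h4, average_const]

theorem refl_inv {c : Dir → ℂ} (hc : Measurable c)
    (hi : ∀ h : ℂ, ∀ᵐ y ∂T.mu, c (T.tau h y).2 = c y.2) (i : Fin 3) :
    ∀ᵐ e ∂sig, c (T.rD i e) = c e := by
  obtain ⟨x₀, hx₀⟩ := T.exists_onSide i
  have hd := hx₀.dd_pos
  set δ := T.dd x₀ / 8 with hδ
  have hδ0 : 0 < δ := by positivity
  have hj : ∀ j, j ≠ i → 7 * δ < T.ell j x₀ := fun j hj => by
    rcases (T.lt_dd_iff (7 * δ) x₀).1 (by linarith) j i hj with h | h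
    · exact h
    · rw [hx₀.1] at h; linarith
  have h1 : ∀ᵐ y ∂T.mu, ∀ h ∈ ({(δ : ℂ), -(δ : ℂ), δ * I, -(δ * I)} : Set ℂ),
      2 * ‖h‖ < T.dd y.1 → T.ell i (shift h y).1 ≤ 0 → (∀ j, j ≠ i → 0 < T.ell j (shift h y).1) →
        c (T.rD i y.2) = c y.2 := by
    refine (ae_ball_iff (Set.toFinite _).countable).2 fun h _ => ?_
    filter_upwards [hi h, T.tau_step h] with y h1 h2 h3 h4 h5
    rw [h2 h3, step, T.fold_of_le h4 h5] at h1
    exact h1
  have h2 := Measure.ae_ae_of_ae_prod
    ((Measure.measurePreserving_swap (μ := sig)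
      (ν := (volume : Measure Plane).restrict T.In)).quasiMeasurePreserving.ae h1)
  filter_upwards [h2] with e he
  obtain ⟨h, hh, hneg⟩ := T.Erg_exists_neg i e hδ0
  have hn : ‖h‖ = δ := by
    rcases hh with rfl | rfl | rfl | rfl <;> simp [abs_of_pos hδ0]
  set U : Set Plane := {x | x ∈ T.In ∧ 2 * δ < T.dd x ∧ T.ell i (x + fr e h) < 0 ∧
    ∀ j, j ≠ i → 0 < T.ell j (x + fr e h)} with hU
  have hc' : ∀ j, Continuous fun x => T.ell j (x + fr e h) := fun j =>
    (T.continuous_ell j).comp (continuous_id.add continuous_const)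
  have hUo : IsOpen U := by
    refine T.isOpen_In.inter ((isOpen_lt continuous_const T.continuous_dd).inter
      ((isOpen_lt (hc' i) continuous_const).inter ?_))
    have : {x | ∀ j, j ≠ i → 0 < T.ell j (x + fr e h)} =
        ⋂ j ∈ {j | j ≠ i}, {x | 0 < T.ell j (x + fr e h)} := by
      ext x; simp
    change IsOpen {x | ∀ j, j ≠ i → 0 < T.ell j (x + fr e h)}
    rw [this]
    exact (Set.toFinite _).isOpen_biInter fun j _ => isOpen_lt continuous_const (hc' j)
  have hab : ∀ j, |⟪fr e h, T.n j⟫| ≤ δ := fun j => by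
    have := abs_real_inner_le_norm (fr e h) (T.n j)
    rwa [norm_fr, hn, T.norm_n, mul_one] at this
  have hUn : U.Nonempty := by
    set a := -⟪fr e h, T.n i⟫ / 2 with ha
    have ha0 : 0 < a := by linarith
    have ha1 : a ≤ δ := by have := abs_le.1 (hab i); linarith
    have hnorm : ‖(x₀ + a • T.n i) - x₀‖ = a := by
      rw [add_sub_cancel_left, norm_smul, T.norm_n, mul_one, Real.norm_eq_abs, abs_of_pos ha0]
    have hei : T.ell i (x₀ + a • T.n i) = a := by
      rw [T.ell_add, hx₀.1, real_inner_smul_left, real_inner_self_eq_norm_sq, T.norm_n]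
      ring
    have hej : ∀ j, j ≠ i → 6 * δ < T.ell j (x₀ + a • T.n i) := fun j hji => by
      have h3 := abs_le.1 (T.ell_lip j (x₀ + a • T.n i) x₀)
      rw [hnorm] at h3
      linarith [hj j hji]
    refine ⟨x₀ + a • T.n i, fun j => ?_, ?_, ?_, fun j hji => ?_⟩
    · by_cases hji : j = i
      · rw [hji, hei]; exact ha0
      · linarith [hej j hji]
    · have h3 := abs_le.1 (T.dd_lip (x₀ + a • T.n i) x₀)
      rw [hnorm] at h3
      linarith
    · rw [T.ell_add, hei]; linarith
    · rw [T.ell_add]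
      linarith [hej j hji, abs_le.1 (hab j)]
  obtain ⟨x, hx, hxe⟩ := Measure.exists_mem_of_measure_ne_zero_of_ae
    (hUo.measure_pos (volume : Measure Plane) hUn).ne'
    (ae_restrict_of_ae_restrict_of_subset (fun x hx => hx.1) he)
  exact hxe h hh (hn ▸ hx.2.1) hx.2.2.1.le hx.2.2.2

theorem erg (hirr : ∃ i : Fin 3,
      Irrational (EuclideanGeometry.angle (T.A (i + 1)) (T.A i) (T.A (i + 2)) / Real.pi)) :
    T.msys.Erg := by
  intro f hf hb hi
  have hX := T.msys.inv_diag (f := f) hi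
  have hY := T.msys.inv_Y hf hb hi
  have hall := T.msys.inv_all hf hX hY
  obtain ⟨c, hc, hfc⟩ := T.leaf_const hf hb hall
  have hci : ∀ h : ℂ, ∀ᵐ y ∂T.mu, c (T.tau h y).2 = c y.2 := by
    intro h
    filter_upwards [hall h, hfc, (T.mp_tau h).quasiMeasurePreserving.ae hfc] with y h1 h2 h3
    rw [← h3, ← h2]; exact h1
  obtain ⟨c₀, h₀⟩ := T.dir_const hirr hc (T.refl_inv hc hci)
  refine ⟨c₀, ?_⟩
  have : ∀ᵐ y ∂T.mu, c y.2 = c₀ := Measure.quasiMeasurePreserving_snd.ae h₀
  filter_upwards [hfc, this] with y h1 h2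
  rw [h1, h2]

end Tri

end Crest.Agent.R103
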