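import Crest.Agent.R103.Erg
import Crest.Agent.R103.Ch1
import Crest.Agent.R103.Ch2
import Crest.Agent.R103.Ch3

/-!
# Assembly (task Final)
-/

set_option autoImplicit false
set_option linter.unusedSectionVars false
set_option linter.unusedVariables false

open MeasureTheory Filter Topology Complex
open Crest.AnalysisR.Billiard
open scoped RealInnerProductSpace

noncomputable section

namespace Crest.Agent.R103

open scoped symmDiff

namespace Tri

variable (T : Tri)

theorem ae_chain : ∀ᵐ y ∂T.mu, ∃ c : Chain T.A, c.Through (proj y) ∧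
    ∀ (t : ℝ) (y' : St), T.Orb 1 t y y' → c.IsStateAt t (proj y') := by
  have h1 : ∀ᵐ y ∂T.mu, ∀ n : ℕ, ∃ y', T.Orb 1 n y y' :=
    ae_all_iff.2 fun n => (T.ae_orb_real n n.cast_nonneg).mono fun y h => ⟨_, h⟩
  filter_upwards [T.ae_In, h1, (T.mp_rot Real.pi).quasiMeasurePreserving.ae h1] with y hy a b
  obtain ⟨r⟩ := exists_ray a
  obtain ⟨r'⟩ := exists_ray b
  obtain ⟨c, hc, hs⟩ := chain_of_rays hy r r'
  refine ⟨c, hc, fun t y' o => ?_⟩
  obtain ⟨n, h1, h2, rfl⟩ := r.state o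
  exact hs n t h1 h2

theorem ae_In_phase : ∀ᵐ p ∂(phaseMeasure T.A), p.1 ∈ T.In :=
  T.qmp_emb.ae T.ae_In

theorem flow_eq {Φ : ℝ → Phase → Phase}
    (hΦ : ∀ᵐ p ∂(phaseMeasure T.A), ∃ c : Chain T.A, c.Through p ∧ ∀ τ : ℝ, c.IsStateAt τ (Φ τ p))
    {t : ℝ} (ht : 0 ≤ t) : ∀ᵐ y ∂T.mu, proj (T.tau t y) = Φ t (proj y) := by
  filter_upwards [T.ae_In, T.ae_chain, T.qmp_proj.ae hΦ, T.ae_orb_real t ht] with y hy h1 h2 o
  obtain ⟨c, hc, hs⟩ := h1
  obtain ⟨c', hc', hs'⟩ := h2
  exact T.chain_unique (p := proj y) hy c c' hc hc' t _ _ (hs t _ o) (hs' t)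

end Tri

theorem final (A : Fin 3 → Plane) (hA : AffineIndependent ℝ A)
    (hirr : ∃ i : Fin 3,
      Irrational (EuclideanGeometry.angle (A (i + 1)) (A i) (A (i + 2)) / Real.pi)) :
    (∀ᵐ p ∂(phaseMeasure A), (∃ c : Chain A, c.Through p) ∧
        ∀ c c' : Chain A, c.Through p → c'.Through p →
          ∀ (τ : ℝ) (y y' : Phase), c.IsStateAt τ y → c'.IsStateAt τ y' → y = y') ∧
    ∀ Φ : ℝ → Phase → Phase,
      (∀ᵐ p ∂(phaseMeasure A), ∃ c : Chain A, c.Through p ∧ ∀ τ : ℝ, c.IsStateAt τ (Φ τ p)) →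
      ∀ s : Set (Phase × Phase), MeasurableSet s →
        (∀ τ : ℝ, ((phaseMeasure A).prod (phaseMeasure A))
            (((fun z : Phase × Phase => (Φ τ z.1, Φ τ z.2)) ⁻¹' s) ∆ s) = 0) →
        ((phaseMeasure A).prod (phaseMeasure A)) s = 0 ∨
          ((phaseMeasure A).prod (phaseMeasure A)) sᶜ = 0 := by
  obtain ⟨T, rfl⟩ := exists_tri hA
  constructor
  · filter_upwards [T.ae_In_phase, T.qmp_emb.ae T.ae_chain] with p hp h
    obtain ⟨c, hc, -⟩ := h
    exact ⟨⟨c, hc⟩, T.chain_unique hp⟩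
  · intro Φ hΦ s hs hi
    have : IsFiniteMeasure (phaseMeasure T.A) := by rw [T.phase_eq]; infer_instance
    have q1 : Measure.QuasiMeasurePreserving (Prod.map proj proj) (T.mu.prod T.mu)
        ((phaseMeasure T.A).prod (phaseMeasure T.A)) := QuasiMeasurePreserving.prodMap T.qmp_proj T.qmp_proj
    have q2 := QuasiMeasurePreserving.prodMap T.qmp_emb T.qmp_emb
    have key := T.msys.weak_mixing (T.erg hirr) (q1.measurable hs) (fun t ht => by
      have h0 : ∀ᵐ z ∂((phaseMeasure T.A).prod (phaseMeasure T.A)),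
          ((Φ t z.1, Φ t z.2) ∈ s ↔ z ∈ s) := by
        have := measure_eq_zero_iff_ae_notMem.1 (hi t)
        filter_upwards [this] with z hz
        simp only [Set.mem_symmDiff, Set.mem_preimage] at hz
        tauto
      have h1 := T.flow_eq hΦ ht
      filter_upwards [q1.ae h0, Measure.quasiMeasurePreserving_fst.ae h1,
        Measure.quasiMeasurePreserving_snd.ae h1] with p a b c
      show (proj (T.tau t p.1), proj (T.tau t p.2)) ∈ s ↔ _
      rw [b, c]; exact a)
    rcases key with h | h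
    · left; exact q2.preimage_null h
    · right; exact q2.preimage_null h

end Crest.Agent.R103
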