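import Crest.Agent.R103.Defs

/-!
# The triangle (task Geo1)
`exists_tri`: `n i = (sign D / ‖sideVec i‖) • J (sideVec i)`, `D = ⟪J (sideVec i), A i - A (i+1)⟫` is
the same determinant for all `i`, and `D ≠ 0` by affine independence.
The barycentric coordinates are `ell i x / ell i (A i)`; `AffineBasis.interior_convexHull`.
`exists_neg`: `In` is bounded (it lies in the convex hull).
-/

set_option autoImplicit false
set_option linter.unusedSectionVars false
set_option linter.unusedVariables false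

open MeasureTheory Filter Topology Complex
open Crest.AnalysisR.Billiard
open scoped RealInnerProductSpace

noncomputable section

namespace Crest.Agent.R103

/-- the vertices as an affine basis -/
def geo1_basis {A : Fin 3 → Plane} (hA : AffineIndependent ℝ A) : AffineBasis (Fin 3) ℝ Plane :=
  ⟨A, hA, hA.affineSpan_eq_top_iff_card_eq_finrank_add_one.2 (by simp)⟩

theorem geo1_coe {A : Fin 3 → Plane} (hA : AffineIndependent ℝ A) : ⇑(geo1_basis hA) = A := rfl

theorem geo1_sum3 {M : Type*} [AddCommMonoid M] (i : Fin 3) (f : Fin 3 → M) :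
    ∑ j, f j = f i + f (i + 1) + f (i + 2) := by
  rw [Fin.sum_univ_three]
  fin_cases i
  · rfl
  · show f 0 + f 1 + f 2 = f 1 + f 2 + f 0
    abel
  · show f 0 + f 1 + f 2 = f 2 + f 0 + f 1
    abel

theorem geo1_cases {i j : Fin 3} (h : j ≠ i) : j = i + 1 ∨ j = i + 2 := by
  revert h
  fin_cases i <;> fin_cases j <;> decide

theorem geo1_inner {A : Fin 3 → Plane} (hA : AffineIndependent ℝ A) (x p w : Plane) :
    ⟪x - p, w⟫ = ∑ j, (geo1_basis hA).coord j x * ⟪A j - p, w⟫ := by
  have h1 := (geo1_basis hA).linear_combination_coord_eq_self x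
  have h2 := (geo1_basis hA).sum_coord_apply_eq_one x
  rw [geo1_coe] at h1
  simp only [inner_sub_left, mul_sub, Finset.sum_sub_distrib, ← Finset.sum_mul, h2, one_mul]
  congr 1
  conv_lhs => rw [← h1]
  rw [sum_inner]
  simp only [real_inner_smul_left]

theorem geo1_inner_eq (v w : Plane) : ⟪v, w⟫ = v 0 * w 0 + v 1 * w 1 := by
  rw [PiLp.inner_apply, Fin.sum_univ_two]
  simp [mul_comm]

theorem geo1_inner_J (v : Plane) : ⟪v, J v⟫ = 0 := by
  rw [geo1_inner_eq]
  simp [J]
  ring

theorem exists_tri {A : Fin 3 → Plane} (hA : AffineIndependent ℝ A) : ∃ T : Tri, T.A = A := by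
  let w : Fin 3 → Plane := fun i => J (sideVec A i)
  let D : Fin 3 → ℝ := fun i => ⟪A i - A (i + 1), w i⟫
  have horth : ∀ i, ⟪sideVec A i, w i⟫ = 0 := fun i => geo1_inner_J _
  have hD : ∀ i, D i ≠ 0 := by
    intro i h
    have h1 := geo1_inner hA (A (i + 1) + w i) (A (i + 1)) (w i)
    rw [geo1_sum3 i, add_sub_cancel_left, sub_self, inner_zero_left,
      show ⟪A i - A (i + 1), w i⟫ = 0 from h, show ⟪A (i + 2) - A (i + 1), w i⟫ = 0 from horth i,
      mul_zero, mul_zero, mul_zero, add_zero, add_zero, inner_self_eq_zero] at h1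
    have h2 : sideVec A i = 0 := by
      ext k
      fin_cases k
      · simpa [w, J] using congrArg (fun z : Plane => z 1) h1
      · simpa [w, J] using congrArg (fun z : Plane => z 0) h1
    have h3 := hA.injective (sub_eq_zero.1 h2)
    revert h3
    fin_cases i <;> decide
  have hu : ∀ i, D i • w i ≠ 0 := by
    intro i h
    have : ⟪A i - A (i + 1), D i • w i⟫ = 0 := by rw [h, inner_zero_right]
    rw [inner_smul_right] at this
    exact hD i (mul_self_eq_zero.1 this)
  refine ⟨⟨A, fun i => ‖D i • w i‖⁻¹ • D i • w i, hA, fun i => norm_smul_inv_norm (hu i),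
    fun i => ?_, fun i => ?_⟩, rfl⟩
  · rw [inner_smul_right, inner_smul_right, horth, mul_zero, mul_zero]
  · rw [inner_smul_right, inner_smul_right]
    exact mul_pos (inv_pos.2 (norm_pos_iff.2 (hu i))) (mul_self_pos.2 (hD i))

namespace Tri

variable (T : Tri)

theorem ell_add (i : Fin 3) (x v : Plane) : T.ell i (x + v) = T.ell i x + ⟪v, T.n i⟫ := by
  unfold ell
  rw [← inner_add_left]
  congr 1
  abel

theorem ell_lip (i : Fin 3) (x x' : Plane) : |T.ell i x - T.ell i x'| ≤ ‖x - x'‖ := by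
  have h := T.ell_add i x' (x - x')
  rw [add_sub_cancel] at h
  rw [h, add_sub_cancel_left]
  have := abs_real_inner_le_norm (x - x') (T.n i)
  rwa [T.norm_n, mul_one] at this

theorem continuous_ell (i : Fin 3) : Continuous (T.ell i) := by
  unfold ell
  fun_prop

theorem ell_A_pos (i : Fin 3) : 0 < T.ell i (T.A i) := by
  exact T.pos i

theorem ell_A_ne {i j : Fin 3} (h : j ≠ i) : T.ell i (T.A j) = 0 := by
  rcases geo1_cases h with rfl | rfl
  · simp [ell]
  · exact T.orth i

theorem ell_lineMap (i : Fin 3) (x x' : Plane) (s : ℝ) :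
    T.ell i (AffineMap.lineMap x x' s) = (1 - s) * T.ell i x + s * T.ell i x' := by
  rw [AffineMap.lineMap_apply_module']
  have h := T.ell_add i x (x' - x)
  rw [add_sub_cancel] at h
  rw [add_comm, T.ell_add, real_inner_smul_left, h]
  ring

theorem geo1_coord (i : Fin 3) (x : Plane) :
    (geo1_basis T.hA).coord i x = T.ell i x / T.ell i (T.A i) := by
  rw [eq_div_iff (T.ell_A_pos i).ne']
  have h := geo1_inner T.hA x (T.A (i + 1)) (T.n i)
  rw [Finset.sum_eq_single i (fun j _ hj => by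
    rw [show ⟪T.A j - T.A (i + 1), T.n i⟫ = 0 from T.ell_A_ne hj, mul_zero])
    (fun h => absurd (Finset.mem_univ _) h)] at h
  exact h.symm

/-- barycentric coordinates -/
theorem bary (x : Plane) : ∑ i, T.ell i x / T.ell i (T.A i) = 1 ∧
    x = ∑ i, (T.ell i x / T.ell i (T.A i)) • T.A i := by
  simp only [← T.geo1_coord]
  exact ⟨(geo1_basis T.hA).sum_coord_apply_eq_one x,
    ((geo1_basis T.hA).linear_combination_coord_eq_self x).symm⟩

theorem In_eq : interior (convexHull ℝ (Set.range T.A)) = T.In := by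
  rw [← geo1_coe T.hA, AffineBasis.interior_convexHull]
  ext x
  simp only [In, Set.mem_ofPred_eq, T.geo1_coord]
  exact forall_congr' fun i => div_pos_iff_of_pos_right (T.ell_A_pos i)

theorem isOpen_In : IsOpen T.In := by
  rw [← T.In_eq]
  exact isOpen_interior

theorem measurableSet_In : MeasurableSet T.In := T.isOpen_In.measurableSet

theorem convex_In : Convex ℝ T.In := by
  rw [← T.In_eq]
  exact (convex_convexHull ℝ _).interior

theorem In_nonempty : T.In.Nonempty := by
  refine ⟨AffineMap.lineMap (T.A 0) (AffineMap.lineMap (T.A 1) (T.A 2) (1 / 2 : ℝ)) (1 / 2 : ℝ),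
    fun i => ?_⟩
  rw [ell_lineMap, ell_lineMap]
  have h := T.ell_A_pos i
  have h' : ∀ j, 0 ≤ T.ell i (T.A j) := fun j => by
    by_cases hj : j = i
    · rw [hj]; exact h.le
    · exact (T.ell_A_ne hj).ge
  have h0 := h' 0
  have h1 := h' 1
  have h2 := h' 2
  fin_cases i
  · change 0 < T.ell _ (T.A 0) at h
    linarith
  · change 0 < T.ell _ (T.A 1) at h
    linarith
  · change 0 < T.ell _ (T.A 2) at h
    linarith

theorem isBounded_closed : Bornology.IsBounded {x | ∀ i, 0 ≤ T.ell i x} := by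
  have h : Bornology.IsBounded (convexHull ℝ (Set.range (geo1_basis T.hA))) :=
    isBounded_convexHull.2 (Set.finite_range _).isBounded
  rw [AffineBasis.convexHull_eq_nonneg_coord] at h
  refine h.subset fun x hx i => ?_
  rw [T.geo1_coord]
  exact div_nonneg (hx i) (T.ell_A_pos i).le

theorem isBounded_In : Bornology.IsBounded T.In := by
  exact T.isBounded_closed.subset fun x hx i => (hx i).le

theorem mem_openSide (i : Fin 3) (x : Plane) : x ∈ openSide T.A i ↔ T.OnSide i x := by
  have n1 : i + 1 ≠ i := by fin_cases i <;> decide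
  have n2 : i + 2 ≠ i := by fin_cases i <;> decide
  have n3 : i + 2 ≠ i + 1 := by fin_cases i <;> decide
  constructor
  · rintro ⟨s, hs, rfl⟩
    refine ⟨?_, fun j hj => ?_⟩
    · rw [ell_lineMap, T.ell_A_ne n1, T.ell_A_ne n2]
      ring
    · rw [ell_lineMap]
      rcases geo1_cases hj with rfl | rfl
      · rw [T.ell_A_ne n3, mul_zero, add_zero]
        exact mul_pos (sub_pos.2 hs.2) (T.ell_A_pos _)
      · rw [T.ell_A_ne n3.symm, mul_zero, zero_add]
        exact mul_pos hs.1 (T.ell_A_pos _)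
  · rintro ⟨h0, h⟩
    obtain ⟨b1, b2⟩ := T.bary x
    rw [geo1_sum3 i, h0, zero_div, zero_add] at b1
    rw [geo1_sum3 i, h0, zero_div, zero_smul, zero_add] at b2
    have p1 := div_pos (h _ n1) (T.ell_A_pos (i + 1))
    have p2 := div_pos (h _ n2) (T.ell_A_pos (i + 2))
    refine ⟨T.ell (i + 2) x / T.ell (i + 2) (T.A (i + 2)), ⟨p2, by linarith⟩, ?_⟩
    beta_reduce
    rw [AffineMap.lineMap_apply_module, ← eq_sub_of_add_eq b1]
    exact b2.symm

theorem exists_onSide (i : Fin 3) : ∃ x, T.OnSide i x := by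
  exact ⟨_, (T.mem_openSide i _).1 ⟨1 / 2, ⟨by norm_num, by norm_num⟩, rfl⟩⟩

theorem OnSide.unique {T : Tri} {i j : Fin 3} {x : Plane} (h : T.OnSide i x) (h' : T.OnSide j x) :
    i = j := by
  by_contra hne
  exact (h'.2 i hne).ne' h.1

theorem OnSide.not_In {T : Tri} {i : Fin 3} {x : Plane} (h : T.OnSide i x) : x ∉ T.In := by
  exact fun hx => (hx i).ne' h.1

theorem sideVec_ne (i : Fin 3) : sideVec T.A i ≠ 0 := by
  intro h
  have h3 := T.hA.injective (sub_eq_zero.1 h)
  revert h3
  fin_cases i <;> decide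

theorem mirror_eq (i : Fin 3) (v : Plane) : mirror (sideVec T.A i) v = T.mir i v := by
  have h0 : ⟪sideVec T.A i, sideVec T.A i⟫ ≠ 0 := inner_self_ne_zero.2 (T.sideVec_ne i)
  have h1 := T.orth i
  have h2 : ⟪T.n i, T.n i⟫ = 1 := by rw [real_inner_self_eq_norm_sq, T.norm_n]; norm_num
  unfold mirror mir
  generalize sideVec T.A i = e at *
  generalize T.n i = n at *
  simp only [geo1_inner_eq] at *
  ext k
  fin_cases k
  · simp only [Fin.zero_eta, PiLp.sub_apply, PiLp.smul_apply, smul_eq_mul]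
    rw [sub_eq_iff_eq_add, div_mul_eq_mul_div, div_eq_iff h0]
    linear_combination (2 * (v 0 * e 0 * n 0 - v 0 * e 1 * n 1 + v 1 * e 0 * n 1 +
      v 1 * e 1 * n 0)) * h1 + (2 * v 0 * e 1 * e 1 - 2 * v 1 * e 0 * e 1) * h2
  · simp only [Fin.mk_one, PiLp.sub_apply, PiLp.smul_apply, smul_eq_mul]
    rw [sub_eq_iff_eq_add, div_mul_eq_mul_div, div_eq_iff h0]
    linear_combination (2 * (v 1 * e 1 * n 1 - v 1 * e 0 * n 0 + v 0 * e 1 * n 0 +
      v 0 * e 0 * n 1)) * h1 + (2 * v 1 * e 0 * e 0 - 2 * v 0 * e 1 * e 0) * h2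

theorem exists_neg {v : Plane} (hv : v ≠ 0) : ∃ i, ⟪v, T.n i⟫ < 0 := by
  by_contra hn
  push Not at hn
  obtain ⟨a1, a2⟩ := T.bary 0
  obtain ⟨b1, b2⟩ := T.bary (0 + v)
  simp only [ell_add, add_div, Finset.sum_add_distrib, add_smul] at b1 b2
  rw [a1, add_eq_left, Finset.sum_eq_zero_iff_of_nonneg
    fun i _ => div_nonneg (hn i) (T.ell_A_pos i).le] at b1
  rw [← a2, add_right_inj, Finset.sum_eq_zero fun i hi => by rw [b1 i hi, zero_smul]] at b2
  exact hv b2

theorem lt_dd_iff (δ : ℝ) (x : Plane) :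
    δ < T.dd x ↔ ∀ i j, i ≠ j → δ < T.ell i x ∨ δ < T.ell j x := by
  simp only [dd, lt_min_iff, lt_max_iff]
  constructor
  · rintro ⟨h1, h2, h3⟩ i j hij
    fin_cases i <;> fin_cases j <;>
      first
        | exact absurd rfl hij
        | assumption
        | exact Or.symm ‹_›
  · intro h
    exact ⟨h 0 1 (by decide), h 1 2 (by decide), h 0 2 (by decide)⟩

theorem dd_lip (x x' : Plane) : |T.dd x - T.dd x'| ≤ ‖x - x'‖ := by
  have hm : ∀ i j, |max (T.ell i x) (T.ell j x) - max (T.ell i x') (T.ell j x')| ≤ ‖x - x'‖ :=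
    fun i j => (abs_max_sub_max_le_max _ _ _ _).trans (max_le (T.ell_lip _ _ _) (T.ell_lip _ _ _))
  exact (abs_min_sub_min_le_max _ _ _ _).trans (max_le (hm _ _)
    ((abs_min_sub_min_le_max _ _ _ _).trans (max_le (hm _ _) (hm _ _))))

theorem continuous_dd : Continuous T.dd := by
  have := T.continuous_ell
  unfold dd
  fun_prop

theorem OnSide.dd_pos {T : Tri} {i : Fin 3} {x : Plane} (h : T.OnSide i x) : 0 < T.dd x := by
  rw [lt_dd_iff]
  intro j k hjk
  by_cases hj : j = i
  · exact Or.inr (h.2 k fun hk => hjk (hj.trans hk.symm))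
  · exact Or.inl (h.2 j hj)

end Tri

end Crest.Agent.R103
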