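import Crest.Agent.R103.Defs

/-!
# One-parameter groups of isometries (task H1)
`E t` is a surjective linear isometry, so it preserves inner products
(`LinearIsometry.inner_map_map`).  `E t (avg δ v) - avg δ v = δ⁻¹ • ∫ s in 0..t, E s (E δ v - v)`.
-/

set_option autoImplicit false
set_option linter.unusedSectionVars false
set_option linter.unusedVariables false

open MeasureTheory Filter Topology Complex
open Crest.AnalysisR.Billiard
open scoped InnerProductSpace

noncomputable section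

namespace Crest.Agent.R103

variable {H : Type*} [NormedAddCommGroup H] [InnerProductSpace ℂ H] [CompleteSpace H]
  [NormedSpace ℝ H] [IsScalarTower ℝ ℂ H]

namespace OPG

variable (G : OPG H)

theorem continuous (v : H) : Continuous fun t => G.E t v := by
  refine continuous_iff_continuousAt.2 fun t₀ => ?_
  have h1 : Tendsto (fun t : ℝ => t - t₀) (𝓝 t₀) (𝓝 0) := by
    simpa using (show Continuous fun t : ℝ => t - t₀ by fun_prop).tendsto t₀
  have h2 := ((G.E t₀).continuous.tendsto v).comp ((G.cont0 v).comp h1)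
  refine h2.congr fun t => ?_
  simp only [Function.comp_apply, G.add, add_sub_cancel]

theorem h1a_ii (v : H) (a b : ℝ) : IntervalIntegrable (fun t => G.E t v) volume a b :=
  (G.continuous v).intervalIntegrable a b

theorem inner_map (t : ℝ) (v w : H) : ⟪G.E t v, G.E t w⟫_ℂ = ⟪v, w⟫_ℂ :=
  LinearIsometry.inner_map_map (⟨(G.E t : H →ₗ[ℂ] H), G.norm t⟩ : H →ₗᵢ[ℂ] H) v w

theorem inner_left (t : ℝ) (v w : H) : ⟪G.E t v, w⟫_ℂ = ⟪v, G.E (-t) w⟫_ℂ := by
  rw [← G.inner_map t v, G.add, add_neg_cancel, G.zero]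

/-- joint continuity at a moving vector -/
theorem tendsto_E {ι : Type*} {l : Filter ι} {t : ι → ℝ} {v : ι → H} {w : H}
    (ht : Tendsto t l (𝓝 0)) (hv : Tendsto v l (𝓝 w)) :
    Tendsto (fun k => G.E (t k) (v k)) l (𝓝 w) := by
  have h1 : Tendsto (fun k => G.E (t k) (v k - w)) l (𝓝 0) := by
    rw [tendsto_zero_iff_norm_tendsto_zero]
    simp only [G.norm]
    exact tendsto_iff_norm_sub_tendsto_zero.1 hv
  have h2 := h1.add ((G.cont0 w).comp ht)
  rw [zero_add] at h2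
  refine h2.congr fun k => ?_
  simp only [Function.comp_apply, map_sub, sub_add_cancel]

theorem map_avg (T : H →L[ℂ] H) (δ : ℝ) (v : H) :
    T (G.avg δ v) = δ⁻¹ • ∫ s in (0 : ℝ)..δ, T (G.E s v) := by
  rw [avg, T.map_smul_of_tower, T.intervalIntegral_comp_comm (G.h1a_ii v 0 δ)]

theorem h1a_norm (δ : ℝ) (v : H) : ‖G.avg δ v‖ ≤ ‖v‖ := by
  have h1 := intervalIntegral.norm_integral_le_of_norm_le_const (a := 0) (b := δ)
    (f := fun s => G.E s v) (C := ‖v‖) fun s _ => (G.norm s v).le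
  rw [avg, norm_smul, norm_inv, Real.norm_eq_abs]
  rw [sub_zero] at h1
  rcases eq_or_ne δ 0 with rfl | h
  · simp
  · rw [inv_mul_le_iff₀ (abs_pos.2 h), mul_comm]
    exact h1

theorem exists_avgL (δ : ℝ) : ∃ T : H →L[ℂ] H, ∀ v, T v = G.avg δ v := by
  refine ⟨LinearMap.mkContinuous
    { toFun := G.avg δ
      map_add' := fun v w => ?_
      map_smul' := fun c v => ?_ } 1 fun v => ?_, fun v => rfl⟩
  · simp only [avg, map_add]
    rw [intervalIntegral.integral_add (G.h1a_ii v 0 δ) (G.h1a_ii w 0 δ), smul_add]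
  · simp only [avg, map_smul, RingHom.id_apply]
    rw [intervalIntegral.integral_smul, smul_comm]
  · rw [one_mul]
    exact G.h1a_norm δ v

theorem norm_avg_le (δ : ℝ) (v : H) : ‖G.avg δ v‖ ≤ ‖v‖ := G.h1a_norm δ v

theorem avg_sub (δ : ℝ) (v w : H) : G.avg δ (v - w) = G.avg δ v - G.avg δ w := by
  obtain ⟨T, hT⟩ := G.exists_avgL δ
  rw [← hT, ← hT, ← hT, map_sub]

theorem h1a_der (v : H) : HasDerivAt (fun t => ∫ s in (0 : ℝ)..t, G.E s v) v 0 := by
  have := ((G.continuous v).integral_hasStrictDerivAt 0 0).hasDerivAt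
  rwa [G.zero] at this

theorem tendsto_avg (v : H) : Tendsto (fun δ => G.avg δ v) (𝓝[>] 0) (𝓝 v) := by
  simpa [avg] using (G.h1a_der v).tendsto_slope_zero_right

theorem E_avg (t δ : ℝ) (v : H) : G.E t (G.avg δ v) = G.avg δ (G.E t v) := by
  rw [G.map_avg, avg]
  simp only [G.add, add_comm]

/-- an operator commuting with the group on the relevant orbit piece commutes with the average -/
theorem comm_avg (T : H →L[ℂ] H) {δ : ℝ} (hδ : 0 < δ) {v : H}
    (h : ∀ s ∈ Set.Icc (0 : ℝ) δ, T (G.E s v) = G.E s (T v)) :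
    T (G.avg δ v) = G.avg δ (T v) := by
  rw [G.map_avg, avg, intervalIntegral.integral_congr (g := fun s => G.E s (T v))]
  rw [Set.uIcc_of_le hδ.le]
  exact h

theorem avg_mem {K : Set H} (hK : Convex ℝ K) (hc : IsClosed K) {δ : ℝ} (hδ : 0 < δ) {v : H}
    (h : ∀ s ∈ Set.Icc (0 : ℝ) δ, G.E s v ∈ K) : G.avg δ v ∈ K := by
  have h1 := interval_average_eq (fun s => G.E s v) 0 δ
  rw [sub_zero] at h1
  rw [avg, ← h1, Set.uIoc_of_le hδ.le]
  refine hK.set_average_mem hc (by simpa using hδ) (by simp) ?_ (G.h1a_ii v 0 δ).1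
  exact ae_restrict_of_forall_mem measurableSet_Ioc fun s hs => h s ⟨hs.1.le, hs.2⟩

theorem h1a_key (δ : ℝ) (v : H) (t : ℝ) :
    G.E t (G.avg δ v) - G.avg δ v = δ⁻¹ • ∫ s in (0 : ℝ)..t, G.E s (G.E δ v - v) := by
  rw [G.map_avg, avg, ← smul_sub]
  congr 1
  simp only [map_sub, G.add]
  rw [intervalIntegral.integral_sub ?_ (G.h1a_ii v 0 t),
    intervalIntegral.integral_comp_add_left (fun s => G.E s v),
    intervalIntegral.integral_comp_add_right (fun s => G.E s v), add_zero, zero_add,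
    sub_eq_sub_iff_add_eq_add, add_comm, add_comm (∫ s in δ..t + δ, G.E s v),
    intervalIntegral.integral_add_adjacent_intervals (G.h1a_ii v _ _) (G.h1a_ii v _ _),
    intervalIntegral.integral_add_adjacent_intervals (G.h1a_ii v _ _) (G.h1a_ii v _ _)]
  exact ((G.continuous v).comp (continuous_id.add continuous_const)).intervalIntegrable _ _

theorem der_avg {δ : ℝ} (hδ : 0 < δ) (v : H) : G.Der (G.avg δ v) (δ⁻¹ • (G.E δ v - v)) := by
  have h1 := ((G.h1a_der (G.E δ v - v)).const_smul δ⁻¹).add_const (G.avg δ v)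
  refine h1.congr_of_eventuallyEq (Eventually.of_forall fun t => ?_)
  exact eq_add_of_sub_eq (G.h1a_key δ v t)

theorem norm_E_avg_sub {δ : ℝ} (hδ : 0 < δ) (v : H) (t : ℝ) :
    ‖G.E t (G.avg δ v) - G.avg δ v‖ ≤ ‖G.E δ v - v‖ / δ * |t| := by
  have h1 := intervalIntegral.norm_integral_le_of_norm_le_const (a := 0) (b := t)
    (f := fun s => G.E s (G.E δ v - v)) (C := ‖G.E δ v - v‖) fun s _ => (G.norm s _).le
  rw [sub_zero] at h1
  rw [G.h1a_key, norm_smul, norm_inv, Real.norm_eq_abs, abs_of_pos hδ, div_mul_eq_mul_div,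
    div_eq_inv_mul]
  exact mul_le_mul_of_nonneg_left h1 (inv_nonneg.2 hδ.le)

variable {G}

theorem h1b_rsmul (r : ℝ) (v : H) : r • v = (r : ℂ) • v := by
  rw [← smul_one_smul ℂ r v]; simp

theorem h1b_scale {v x : H} (h : G.Der v x) (a : ℝ) :
    HasDerivAt (fun t : ℝ => G.E (a * t) v) (a • x) 0 := by
  have h1 : HasDerivAt (fun t : ℝ => a * t) a 0 := by simpa using (hasDerivAt_id (0 : ℝ)).const_mul a
  have h2 : HasDerivAt (fun t : ℝ => G.E t v) x (a * 0) := by rw [mul_zero]; exact h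
  exact h2.scomp (0 : ℝ) h1

theorem h1b_slope {v x : H} (h : G.Der v x) (a : ℝ) :
    Tendsto (fun t : ℝ => t⁻¹ • (G.E (a * t) v - v)) (𝓝[≠] 0) (𝓝 (a • x)) := by
  have := hasDerivAt_iff_tendsto_slope_zero.1 (h1b_scale h a)
  simpa only [zero_add, mul_zero, G.zero] using this

theorem Der.norm_le {v x : H} (h : G.Der v x) {α t₀ : ℝ} (ht₀ : 0 < t₀)
    (hb : ∀ t : ℝ, |t| ≤ t₀ → ‖G.E t v - v‖ ≤ α * |t|) : ‖x‖ ≤ α := by
  have h1 := (h1b_slope h 1).norm
  simp only [one_mul, one_smul] at h1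
  refine le_of_tendsto h1 ?_
  have h2 : ∀ᶠ t : ℝ in 𝓝[≠] 0, |t| ≤ t₀ := by
    refine Filter.Eventually.filter_mono nhdsWithin_le_nhds ?_
    have : Tendsto (fun t : ℝ => |t|) (𝓝 0) (𝓝 0) := by
      simpa using (continuous_abs (G := ℝ)).tendsto 0
    exact this.eventually (eventually_le_nhds ht₀)
  filter_upwards [h2, self_mem_nhdsWithin] with t ht ht0
  have hpos : 0 < |t| := abs_pos.2 ht0
  rw [norm_smul, norm_inv, Real.norm_eq_abs, inv_mul_le_iff₀ hpos, mul_comm]
  exact hb t ht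

theorem Der.map {v x : H} (h : G.Der v x) (T : H →L[ℂ] H)
    (hT : ∀ᶠ t in 𝓝 (0 : ℝ), G.E t (T v) = T (G.E t v)) : G.Der (T v) (T x) := by
  have h1 : HasDerivAt (fun t : ℝ => T (G.E t v)) (T x) 0 :=
    (T.restrictScalars ℝ).hasFDerivAt.comp_hasDerivAt (0 : ℝ) h
  exact h1.congr_of_eventuallyEq hT

theorem Der.skew {v x w y : H} (h : G.Der v x) (h' : G.Der w y) : ⟪x, w⟫_ℂ = -⟪v, y⟫_ℂ := by
  have h1 := HasDerivAt.inner ℂ h h'
  simp only [G.inner_map, G.zero] at h1
  have h2 := h1.unique (hasDerivAt_const (0 : ℝ) ⟪v, w⟫_ℂ)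
  linear_combination h2

/-- derivative of a product of two flows -/
theorem hasDerivAt_mul {G' : OPG H} {v x y : H} (h : G.Der v x) (h' : G'.Der v y) (a b : ℝ) :
    HasDerivAt (fun t : ℝ => G.E (a * t) (G'.E (b * t) v)) (a • x + b • y) 0 := by
  rw [hasDerivAt_iff_tendsto_slope_zero]
  have ht : Tendsto (fun t : ℝ => a * t) (𝓝[≠] 0) (𝓝 0) := by
    have : Tendsto (fun t : ℝ => a * t) (𝓝 0) (𝓝 (a * 0)) :=
      (continuous_const.mul continuous_id).tendsto 0
    rw [mul_zero] at this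
    exact this.mono_left nhdsWithin_le_nhds
  refine ((h1b_slope h a).add (G.tendsto_E ht (h1b_slope h' b))).congr fun t => ?_
  simp only [zero_add, mul_zero, G.zero, G'.zero, h1b_rsmul, map_smul, map_sub, smul_sub]
  abel

/-- Expand `⟪G t v - v, G' t w - w⟫ = ⟪G' (-t) v - v, G (-t) w - w⟫` and divide by `t ^ 2`. -/
theorem inner_comm {G' : OPG H} {v x y w x' y' : H} (h₁ : G.Der v x) (h₂ : G'.Der v y)
    (h₃ : G.Der w x') (h₄ : G'.Der w y')
    (hc : ∀ᶠ t in 𝓝 (0 : ℝ), G.E (-t) (G'.E t w) = G'.E t (G.E (-t) w)) :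
    ⟪x, y'⟫_ℂ = ⟪y, x'⟫_ℂ := by
  have A := (h1b_slope h₁ 1).inner (𝕜 := ℂ) (h1b_slope h₄ 1)
  have B := (h1b_slope h₂ (-1)).inner (𝕜 := ℂ) (h1b_slope h₃ (-1))
  simp only [one_mul, one_smul, neg_mul, neg_smul, inner_neg_neg] at A B
  refine tendsto_nhds_unique (A.congr' ?_) B
  filter_upwards [hc.filter_mono nhdsWithin_le_nhds] with t ht
  have e : ⟪G.E t v - v, G'.E t w - w⟫_ℂ = ⟪G'.E (-t) v - v, G.E (-t) w - w⟫_ℂ := by
    simp only [inner_sub_left, inner_sub_right, G.inner_left t, G'.inner_left (-t), neg_neg, ht]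
    ring
  simp only [h1b_rsmul, inner_smul_left, inner_smul_right, e]

end OPG

end Crest.Agent.R103
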