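import Crest.Agent.R103.H1

/-!
# Rotation modes (task H2)
`E ψ (P n v) = exp (n ψ i) • P n v` by periodicity (`Function.Periodic.intervalIntegral_add_eq`).
Orthogonality: `⟪a, b⟫ = ⟪E ψ a, E ψ b⟫`.  `fourier_unique`: lift to `AddCircle (2π)` and use
`fourierCoeff`, `hasSum_fourier_series_of_summable` (or `span_fourier_closure_eq_top`).
-/

set_option autoImplicit false
set_option linter.unusedSectionVars false
set_option linter.unusedVariables false

open MeasureTheory Filter Topology Complex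
open Crest.AnalysisR.Billiard
open scoped InnerProductSpace

noncomputable section

namespace Crest.Agent.R103

variable {H : Type*} [NormedAddCommGroup H] [InnerProductSpace ℂ H] [CompleteSpace H]
  [NormedSpace ℝ H] [IsScalarTower ℝ ℂ H]

namespace OPG

variable {G : OPG H}

theorem h2_cont (G : OPG H) (n : ℤ) (v : H) :
    Continuous fun φ : ℝ => exp (-(n * φ * I)) • G.E φ v :=
  (by fun_prop : Continuous fun φ : ℝ => exp (-(n * φ * I))).smul (G.continuous v)

theorem h2_cont' (G : OPG H) (n : ℤ) (u v : H) :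
    Continuous fun φ : ℝ => exp (-(n * φ * I)) * ⟪u, G.E φ v⟫_ℂ :=
  (by fun_prop : Continuous fun φ : ℝ => exp (-(n * φ * I))).mul
    (continuous_const.inner (G.continuous v))

theorem h2_per (hp : ∀ v, G.E (2 * Real.pi) v = v) (n : ℤ) (u v : H) :
    Function.Periodic (fun φ : ℝ => exp (-(n * φ * I)) * ⟪u, G.E φ v⟫_ℂ) (2 * Real.pi) := by
  intro φ
  simp only
  rw [← G.add, hp]
  congr 1
  have : -((n : ℂ) * ((φ + 2 * Real.pi : ℝ) : ℂ) * I) =
      -(n * φ * I) + ((-n : ℤ) : ℂ) * (2 * Real.pi * I) := by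
    push_cast; ring
  rw [this, exp_add, exp_int_mul_two_pi_mul_I, mul_one]

theorem h2_pi : ((2 * Real.pi : ℝ) : ℂ) ≠ 0 := by
  exact_mod_cast Real.two_pi_pos.ne'

theorem inner_P (G : OPG H) (n : ℤ) (u v : H) : ⟪u, G.P n v⟫_ℂ = ((2 * Real.pi : ℝ) : ℂ)⁻¹ *
    ∫ φ in (0 : ℝ)..(2 * Real.pi), exp (-(n * φ * I)) * ⟪u, G.E φ v⟫_ℂ := by
  unfold P
  rw [← smul_one_smul ℂ, inner_smul_right, Complex.real_smul, mul_one, Complex.ofReal_inv]
  congr 1
  have := (innerSL ℂ u).intervalIntegral_comp_comm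
    ((h2_cont G n v).intervalIntegrable (μ := volume) 0 (2 * Real.pi))
  simp only [innerSL_apply_apply, inner_smul_right] at this
  exact this.symm

theorem P_add (G : OPG H) (n : ℤ) (v w : H) : G.P n (v + w) = G.P n v + G.P n w := by
  refine ext_inner_left ℂ fun u => ?_
  rw [inner_add_right, inner_P, inner_P, inner_P, ← mul_add, ← intervalIntegral.integral_add
    ((h2_cont' G n u v).intervalIntegrable _ _) ((h2_cont' G n u w).intervalIntegrable _ _)]
  simp only [map_add, inner_add_right, mul_add]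

theorem P_sub (G : OPG H) (n : ℤ) (v w : H) : G.P n (v - w) = G.P n v - G.P n w := by
  rw [eq_sub_iff_add_eq, ← P_add, sub_add_cancel]

theorem P_smul (G : OPG H) (n : ℤ) (c : ℂ) (v : H) : G.P n (c • v) = c • G.P n v := by
  refine ext_inner_left ℂ fun u => ?_
  rw [inner_smul_right, inner_P, inner_P, mul_left_comm, ← intervalIntegral.integral_const_mul c]
  simp only [map_smul, inner_smul_right, mul_left_comm c]

theorem norm_P_le (G : OPG H) (n : ℤ) (v : H) : ‖G.P n v‖ ≤ ‖v‖ := by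
  unfold P
  have h := intervalIntegral.norm_integral_le_of_norm_le_const (a := 0) (b := 2 * Real.pi)
    (C := ‖v‖) (f := fun φ : ℝ => exp (-(n * φ * I)) • G.E φ v) (fun φ _ => by
      have : -((n : ℂ) * φ * I) = ((-(n * φ) : ℝ) : ℂ) * I := by push_cast; ring
      rw [norm_smul, G.norm, this, norm_exp_ofReal_mul_I, one_mul])
  have hp := Real.two_pi_pos
  rw [sub_zero, abs_of_pos hp] at h
  rw [norm_smul, Real.norm_eq_abs, abs_of_pos (inv_pos.2 hp), inv_mul_le_iff₀ hp]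
  exact h.trans_eq (mul_comm _ _)

theorem E_P (hp : ∀ v, G.E (2 * Real.pi) v = v) (n : ℤ) (ψ : ℝ) (v : H) :
    G.E ψ (G.P n v) = exp (n * ψ * I) • G.P n v := by
  refine ext_inner_left ℂ fun u => ?_
  have h1 : ⟪u, G.E ψ (G.P n v)⟫_ℂ = ⟪G.E (-ψ) u, G.P n v⟫_ℂ := by
    rw [G.inner_left, neg_neg]
  rw [h1, inner_smul_right, inner_P, inner_P, mul_left_comm]
  congr 1
  have h2 := (h2_per hp n u v).intervalIntegral_add_eq (0 + ψ) 0
  rw [zero_add (2 * Real.pi), add_right_comm, zero_add (2 * Real.pi),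
    ← intervalIntegral.integral_comp_add_right
      (fun φ : ℝ => exp (-(n * φ * I)) * ⟪u, G.E φ v⟫_ℂ) ψ] at h2
  rw [← h2, ← intervalIntegral.integral_const_mul]
  refine intervalIntegral.integral_congr fun φ _ => ?_
  rw [G.inner_left, neg_neg, G.add, ← mul_assoc, ← exp_add, add_comm ψ φ]
  congr 2
  push_cast; ring

theorem inner_P_left (hp : ∀ v, G.E (2 * Real.pi) v = v) (n : ℤ) (u v : H) :
    ⟪G.P n u, v⟫_ℂ = ⟪u, G.P n v⟫_ℂ := by
  rw [← inner_conj_symm, inner_P, inner_P, map_mul, map_inv₀, Complex.conj_ofReal,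
    ← intervalIntegral.intervalIntegral_conj]
  congr 1
  have h2 := (h2_per hp n u v).intervalIntegral_add_eq (-(2 * Real.pi)) 0
  rw [zero_add (2 * Real.pi), neg_add_cancel, ← neg_zero,
    ← intervalIntegral.integral_comp_neg
      (fun φ : ℝ => exp (-(n * φ * I)) * ⟪u, G.E φ v⟫_ℂ), neg_zero] at h2
  rw [← h2]
  refine intervalIntegral.integral_congr fun φ _ => ?_
  rw [map_mul, inner_conj_symm, G.inner_left, ← exp_conj]
  congr 2
  simp

theorem inner_P_P (hp : ∀ v, G.E (2 * Real.pi) v = v) (n : ℤ) (u v : H) :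
    ⟪G.P n u, G.P n v⟫_ℂ = ⟪u, G.P n v⟫_ℂ := by
  rw [inner_P_left hp, inner_P]
  have : ∀ φ : ℝ, exp (-(n * φ * I)) * ⟪u, G.E φ (G.P n v)⟫_ℂ = ⟪u, G.P n v⟫_ℂ := by
    intro φ
    rw [E_P hp, inner_smul_right, ← mul_assoc, ← exp_add, neg_add_cancel, exp_zero, one_mul]
  simp only [this]
  rw [intervalIntegral.integral_const, sub_zero, Complex.real_smul, ← mul_assoc,
    inv_mul_cancel₀ h2_pi, one_mul]

theorem bessel (hp : ∀ v, G.E (2 * Real.pi) v = v) (v : H) (s : Finset ℤ) :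
    ∑ n ∈ s, ‖G.P n v‖ ^ 2 ≤ ‖v‖ ^ 2 := by
  have horth : ∀ n m : ℤ, n ≠ m → ⟪G.P n v, G.P m v⟫_ℂ = 0 := by
    intro n m hnm
    have hd : ((m : ℂ) - n) ≠ 0 := sub_ne_zero.2 (by exact_mod_cast hnm.symm)
    have h := G.inner_map (Real.pi / (m - n)) (G.P n v) (G.P m v)
    rw [E_P hp, E_P hp, inner_smul_left, inner_smul_right, ← mul_assoc, ← exp_conj,
      ← exp_add] at h
    have h' : (starRingEnd ℂ) ((n : ℂ) * ((Real.pi / (m - n) : ℝ) : ℂ) * I) +
        (m : ℂ) * ((Real.pi / (m - n) : ℝ) : ℂ) * I = Real.pi * I := by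
      simp only [map_mul, Complex.conj_ofReal, map_intCast, Complex.conj_I]
      push_cast
      field_simp
      ring
    rw [h', exp_pi_mul_I] at h
    linear_combination (-1 / 2 : ℂ) * h
  have h1 : ∀ n, ⟪G.P n v, v⟫_ℂ = ((‖G.P n v‖ ^ 2 : ℝ) : ℂ) := by
    intro n
    rw [inner_P_left hp, ← inner_P_P hp, inner_self_eq_norm_sq_to_K]
    push_cast
    rfl
  have h2 : ⟪∑ n ∈ s, G.P n v, v⟫_ℂ = ((∑ n ∈ s, ‖G.P n v‖ ^ 2 : ℝ) : ℂ) := by
    rw [sum_inner, Complex.ofReal_sum]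
    exact Finset.sum_congr rfl fun n _ => h1 n
  have h3 : ⟪∑ n ∈ s, G.P n v, ∑ n ∈ s, G.P n v⟫_ℂ = ((∑ n ∈ s, ‖G.P n v‖ ^ 2 : ℝ) : ℂ) := by
    rw [sum_inner, Complex.ofReal_sum]
    refine Finset.sum_congr rfl fun n hn => ?_
    rw [inner_sum, Finset.sum_eq_single n (fun m _ hm => horth n m hm.symm)
      (fun h => absurd hn h), inner_self_eq_norm_sq_to_K]
    push_cast
    rfl
  have h4 := norm_sub_sq (𝕜 := ℂ) (∑ n ∈ s, G.P n v) v
  have h5 := inner_self_eq_norm_sq (𝕜 := ℂ) (∑ n ∈ s, G.P n v)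
  rw [h3] at h5
  rw [h2, ← h5] at h4
  simp only [RCLike.re_to_complex, Complex.ofReal_re] at h4
  nlinarith [sq_nonneg ‖∑ n ∈ s, G.P n v - v‖]

theorem h2_cofinite (hp : ∀ v, G.E (2 * Real.pi) v = v) (v : H) :
    Tendsto (fun n : ℤ => ‖G.P n v‖) cofinite (𝓝 0) := by
  have hs : Summable fun n : ℤ => ‖G.P n v‖ ^ 2 :=
    summable_of_sum_le (fun _ => sq_nonneg _) (bessel hp v)
  have := hs.tendsto_cofinite_zero.sqrt
  simpa using this

theorem tendsto_P_atTop (hp : ∀ v, G.E (2 * Real.pi) v = v) (v : H) :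
    Tendsto (fun n : ℤ => ‖G.P n v‖) atTop (𝓝 0) :=
  (h2_cofinite hp v).mono_left (by rw [Int.cofinite_eq]; exact le_sup_right)

theorem tendsto_P_atBot (hp : ∀ v, G.E (2 * Real.pi) v = v) (v : H) :
    Tendsto (fun n : ℤ => ‖G.P n v‖) atBot (𝓝 0) :=
  (h2_cofinite hp v).mono_left (by rw [Int.cofinite_eq]; exact le_sup_left)

end OPG

theorem fourier_unique {g : ℝ → ℂ} (hc : Continuous g) (hp : Function.Periodic g (2 * Real.pi))
    (h : ∀ n : ℤ, ∫ φ in (0 : ℝ)..(2 * Real.pi), exp (-(n * φ * I)) * g φ = 0) : g 0 = 0 := by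
  have : Fact (0 < 2 * Real.pi) := ⟨Real.two_pi_pos⟩
  let f : C(AddCircle (2 * Real.pi), ℂ) := ⟨hp.lift, hc.quotient_liftOn' _⟩
  have h0 : fourierCoeff f = 0 := by
    funext n
    rw [fourierCoeff_eq_intervalIntegral _ n 0, zero_add, Pi.zero_apply]
    have : ∀ x : ℝ, @fourier (2 * Real.pi) (-n) x • f x = exp (-(n * x * I)) * g x := by
      intro x
      rw [fourier_coe_apply, smul_eq_mul]
      congr 2
      have : (Real.pi : ℂ) ≠ 0 := by exact_mod_cast Real.pi_ne_zero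
      push_cast
      field_simp
    simp only [this]
    rw [h n, smul_zero]
  have h1 := hasSum_fourier_series_of_summable (f := f) (by rw [h0]; exact summable_zero)
  simp only [h0, Pi.zero_apply, zero_smul] at h1
  have h2 : f = 0 := h1.unique hasSum_zero
  exact congrArg (fun F : C(AddCircle (2 * Real.pi), ℂ) => F ((0 : ℝ) : AddCircle (2 * Real.pi))) h2

end Crest.Agent.R103
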