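import Crest.Agent.R103.Defs

/-!
# The telescoping inequality (task H3)
Put `r n = p n + q n + a n`, `d n = ‖p (n+1)‖ = ‖q (n-1)‖`, `ω = ρ β`,
`Ψ n = d n ^ 2 + d (n-1) ^ 2 + re ⟪a n, p n⟫`.  Then `Ψ (n+1) - Ψ n = re ⟪r n, q n - p n⟫`, `Ψ n → 0`,
so `|Ψ n| ≤ ω` (Cauchy-Schwarz for finite sums).  From `|re ⟪a n, p n⟫| ≤ ‖a n‖ d (n-1)`:
`d n ^ 2 ≤ ω + ‖a n‖ ^ 2 / 2` and `d (n-1) ^ 2 ≤ 2 ω + ‖a n‖ ^ 2`.  Finally
`‖p n - q n‖ ^ 2 = d (n-1) ^ 2 + d (n+1) ^ 2 - 2 d n ^ 2 + 2 Ψ n - 2 re ⟪r n, p n⟫`; sum over `|n| ≤ N`.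
-/

set_option autoImplicit false
set_option linter.unusedSectionVars false
set_option linter.unusedVariables false

open MeasureTheory Filter Topology Complex
open Crest.AnalysisR.Billiard
open scoped InnerProductSpace

noncomputable section

namespace Crest.Agent.R103

variable {H : Type*} [NormedAddCommGroup H] [InnerProductSpace ℂ H] [CompleteSpace H]
  [NormedSpace ℝ H] [IsScalarTower ℝ ℂ H]

theorem H3_cs {u v : ℤ → ℝ} {ρ β : ℝ} (hρ : 0 ≤ ρ) (hβ : 0 ≤ β)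
    (hu : ∀ s : Finset ℤ, ∑ n ∈ s, u n ^ 2 ≤ ρ ^ 2)
    (hv : ∀ s : Finset ℤ, ∑ n ∈ s, v n ^ 2 ≤ β ^ 2) (n : ℤ) (M : ℕ) :
    ∑ k ∈ Finset.range M, u (n + k) * v (n + k) ≤ ρ * β := by
  let e : ℕ ↪ ℤ := ⟨fun k => n + k, fun a b h => by simpa using h⟩
  have h1 := hu ((Finset.range M).map e)
  have h2 := hv ((Finset.range M).map e)
  rw [Finset.sum_map] at h1 h2
  have h3 := Finset.sum_mul_sq_le_sq_mul_sq (Finset.range M) (fun k => u (e k)) (fun k => v (e k))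
  have h4 : (∑ k ∈ Finset.range M, u (e k) * v (e k)) ^ 2 ≤ (ρ * β) ^ 2 := by
    rw [mul_pow]
    exact h3.trans (mul_le_mul h1 h2 (Finset.sum_nonneg fun _ _ => sq_nonneg _) (sq_nonneg _))
  exact (abs_le_of_sq_le_sq' h4 (mul_nonneg hρ hβ)).2

theorem H3_tel (Ψ : ℤ → ℝ) (n : ℤ) (M : ℕ) :
    ∑ k ∈ Finset.range M, (Ψ (n + k + 1) - Ψ (n + k)) = Ψ (n + M) - Ψ n := by
  induction M with
  | zero => simp
  | succ M ih =>
    rw [Finset.sum_range_succ, ih]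
    push_cast
    rw [← add_assoc]
    ring

theorem H3_tel2 (D : ℤ → ℝ) (n : ℤ) (M : ℕ) :
    ∑ k ∈ Finset.range M, (D (n + k - 1) + D (n + k + 1) - 2 * D (n + k)) =
      D (n + M) - D (n + M - 1) - D n + D (n - 1) := by
  induction M with
  | zero => simp
  | succ M ih =>
    rw [Finset.sum_range_succ, ih]
    push_cast
    rw [← add_assoc, add_sub_cancel_right]
    ring

theorem H3_id1 (p q a : H) :
    (⟪p + q + a, q - p⟫_ℂ).re = ‖q‖ ^ 2 - ‖p‖ ^ 2 + (⟪q, a⟫_ℂ).re - (⟪a, p⟫_ℂ).re := by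
  have h1 : (⟪p, p⟫_ℂ).re = ‖p‖ ^ 2 := by simpa using inner_self_eq_norm_sq (𝕜 := ℂ) p
  have h2 : (⟪q, q⟫_ℂ).re = ‖q‖ ^ 2 := by simpa using inner_self_eq_norm_sq (𝕜 := ℂ) q
  have h3 : (⟪q, p⟫_ℂ).re = (⟪p, q⟫_ℂ).re := by simpa using inner_re_symm (𝕜 := ℂ) q p
  have h4 : (⟪q, a⟫_ℂ).re = (⟪a, q⟫_ℂ).re := by simpa using inner_re_symm (𝕜 := ℂ) q a
  simp only [inner_add_left, inner_sub_right, Complex.add_re, Complex.sub_re]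
  linarith

theorem H3_id2 (p q a : H) :
    ‖p - q‖ ^ 2 = 3 * ‖p‖ ^ 2 + ‖q‖ ^ 2 + 2 * (⟪a, p⟫_ℂ).re - 2 * (⟪p + q + a, p⟫_ℂ).re := by
  have h1 : (⟪p, p⟫_ℂ).re = ‖p‖ ^ 2 := by simpa using inner_self_eq_norm_sq (𝕜 := ℂ) p
  have h3 : (⟪q, p⟫_ℂ).re = (⟪p, q⟫_ℂ).re := by simpa using inner_re_symm (𝕜 := ℂ) q p
  have h5 : ‖p - q‖ ^ 2 = ‖p‖ ^ 2 - 2 * (⟪p, q⟫_ℂ).re + ‖q‖ ^ 2 := by
    simpa using norm_sub_sq (𝕜 := ℂ) p q
  simp only [inner_add_left, Complex.add_re]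
  linarith

theorem H3_re_le (x y : H) : |(⟪x, y⟫_ℂ).re| ≤ ‖x‖ * ‖y‖ :=
  (Complex.abs_re_le_norm _).trans (norm_inner_le_norm x y)

theorem telescope {p q a : ℤ → H} {ρ β A : ℝ} (hρ : 0 ≤ ρ) (hβ : 0 ≤ β)
    (h₁ : ∀ n, ‖p (n + 1)‖ = ‖q (n - 1)‖)
    (h₂ : ∀ n, ⟪a (n + 1), p (n + 1)⟫_ℂ = ⟪q n, a n⟫_ℂ)
    (hr : ∀ s : Finset ℤ, ∑ n ∈ s, ‖p n + q n + a n‖ ^ 2 ≤ ρ ^ 2)
    (hy : ∀ s : Finset ℤ, ∑ n ∈ s, ‖p n - q n‖ ^ 2 ≤ β ^ 2)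
    (hA : ∀ n, ‖a n‖ ≤ A)
    (tp : Tendsto (fun n => ‖p n‖) atTop (𝓝 0)) (ta : Tendsto (fun n => ‖a n‖) atTop (𝓝 0))
    (N : ℕ) (m : ℤ) (hm : |m| ≤ N) :
    ‖p m - q m‖ ^ 2 ≤ (4 * N + 4) * (ρ * β) + (‖a (N + 1)‖ ^ 2 + ‖a (-N - 1)‖ ^ 2) / 2 +
      2 * (2 * N + 1) * ρ * √(2 * (ρ * β) + A ^ 2) := by
  set ω := ρ * β with hω
  have hω0 : 0 ≤ ω := mul_nonneg hρ hβ
  let d : ℤ → ℝ := fun n => ‖p (n + 1)‖
  have hp : ∀ n, ‖p n‖ = d (n - 1) := fun n => by simp [d]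
  have hq : ∀ n, ‖q n‖ = d (n + 1) := fun n => by
    have := h₁ (n + 1)
    rw [add_sub_cancel_right] at this
    exact this.symm
  let Ψ : ℤ → ℝ := fun n => d n ^ 2 + d (n - 1) ^ 2 + (⟪a n, p n⟫_ℂ).re
  have hstep : ∀ n, Ψ (n + 1) - Ψ n = (⟪p n + q n + a n, q n - p n⟫_ℂ).re := fun n => by
    rw [H3_id1, hp n, hq n]
    simp only [Ψ, h₂ n, add_sub_cancel_right]
    ring
  have hfin : ∀ (n : ℤ) (M : ℕ), |Ψ (n + M) - Ψ n| ≤ ω := fun n M => by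
    rw [← H3_tel Ψ n M]
    refine (Finset.abs_sum_le_sum_abs _ _).trans ?_
    refine le_trans (Finset.sum_le_sum fun k _ => ?_)
      (H3_cs (u := fun n => ‖p n + q n + a n‖) (v := fun n => ‖p n - q n‖) hρ hβ hr hy n M)
    rw [hstep, norm_sub_rev (p _)]
    exact H3_re_le _ _
  have tΨ : Tendsto Ψ atTop (𝓝 0) := by
    have t1 : Tendsto d atTop (𝓝 0) := tp.comp (tendsto_atTop_add_const_right _ 1 tendsto_id)
    have t2 : Tendsto (fun n => d (n - 1)) atTop (𝓝 0) := by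
      simpa only [← hp] using tp
    have t3 : Tendsto (fun n => (⟪a n, p n⟫_ℂ).re) atTop (𝓝 0) := by
      rw [tendsto_zero_iff_abs_tendsto_zero]
      refine squeeze_zero (fun n => abs_nonneg _) (fun n => H3_re_le _ _) ?_
      simpa using ta.mul tp
    simpa using ((t1.pow 2).add (t2.pow 2)).add t3
  have hΨ : ∀ n, |Ψ n| ≤ ω := fun n => by
    have t1 : Tendsto (fun M : ℕ => n + (M : ℤ)) atTop atTop :=
      tendsto_atTop_add_const_left _ n tendsto_natCast_atTop_atTop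
    have t2 : Tendsto (fun M : ℕ => |Ψ (n + M) - Ψ n|) atTop (𝓝 |0 - Ψ n|) :=
      ((tΨ.comp t1).sub tendsto_const_nhds).abs
    have := le_of_tendsto' t2 (hfin n)
    simpa using this
  have hin : ∀ n, |(⟪a n, p n⟫_ℂ).re| ≤ ‖a n‖ * d (n - 1) := fun n => by
    rw [← hp]; exact H3_re_le _ _
  have hd1 : ∀ n, d n ^ 2 ≤ ω + ‖a n‖ ^ 2 / 2 := fun n => by
    have h1 := (abs_le.1 (hΨ n)).2
    have h2 := (abs_le.1 (hin n)).1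
    simp only [Ψ] at h1
    nlinarith [sq_nonneg (‖a n‖ - d (n - 1)), sq_nonneg (d (n - 1))]
  have hd2 : ∀ n, ‖p n‖ ≤ √(2 * ω + A ^ 2) := fun n => by
    have h1 := (abs_le.1 (hΨ n)).2
    have h2 := (abs_le.1 (hin n)).1
    simp only [Ψ] at h1
    have h3 : ‖a n‖ ^ 2 ≤ A ^ 2 := pow_le_pow_left₀ (norm_nonneg _) (hA n) 2
    refine Real.le_sqrt_of_sq_le ?_
    rw [hp]
    nlinarith [sq_nonneg (‖a n‖ - d (n - 1)), sq_nonneg (d n)]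
  have hr1 : ∀ n, ‖p n + q n + a n‖ ≤ ρ := fun n => by
    have := hr {n}
    rw [Finset.sum_singleton] at this
    exact (abs_le_of_sq_le_sq' this hρ).2
  have hterm : ∀ n, ‖p n - q n‖ ^ 2 ≤
      (d (n - 1) ^ 2 + d (n + 1) ^ 2 - 2 * d n ^ 2) + (2 * ω + 2 * ρ * √(2 * ω + A ^ 2)) := fun n => by
    have h1 := H3_id2 (p n) (q n) (a n)
    have h2 := (abs_le.1 (hΨ n)).2
    have h3 := (abs_le.1 (H3_re_le (p n + q n + a n) (p n))).1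
    have h4 : ‖p n + q n + a n‖ * ‖p n‖ ≤ ρ * √(2 * ω + A ^ 2) :=
      mul_le_mul (hr1 n) (hd2 n) (norm_nonneg _) hρ
    simp only [Ψ] at h2
    rw [← hp, ← hq]
    rw [← hp] at h2
    linarith
  have hsum : ∑ k ∈ Finset.range (2 * N + 1), ‖p (-N + k) - q (-N + k)‖ ^ 2 ≤
      (4 * N + 4) * ω + (‖a (N + 1)‖ ^ 2 + ‖a (-N - 1)‖ ^ 2) / 2 +
        2 * (2 * N + 1) * ρ * √(2 * ω + A ^ 2) := by
    refine (Finset.sum_le_sum fun k _ => hterm _).trans ?_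
    rw [Finset.sum_add_distrib, H3_tel2 (fun n => d n ^ 2), Finset.sum_const, Finset.card_range,
      nsmul_eq_mul]
    have e1 : (-(N : ℤ) + ((2 * N + 1 : ℕ) : ℤ)) = N + 1 := by push_cast; ring
    rw [e1]
    have h1 := hd1 (N + 1)
    have h2 := hd1 (-N - 1)
    push_cast
    nlinarith [sq_nonneg (d (N + 1 - 1)), sq_nonneg (d (-N))]
  refine le_trans ?_ hsum
  obtain ⟨hm1, hm2⟩ := abs_le.1 hm
  have e : m = -N + ((m + N).toNat : ℤ) := by omega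
  have hk : (m + N).toNat ∈ Finset.range (2 * N + 1) := by
    rw [Finset.mem_range]; omega
  have := Finset.single_le_sum (f := fun k : ℕ => ‖p (-N + k) - q (-N + k)‖ ^ 2)
    (fun k _ => sq_nonneg _) hk
  simp only [← e] at this
  exact this

end Crest.Agent.R103
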