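import Crest.Agent.R103.H2
import Crest.Agent.R103.H3

/-!
# The mode inequality for vectors in the domain (task H4)
`Dom.dir`: `U (t h) v = U (t h.re) (U (t h.im I) v)` for small `t` by `loc`, then `hasDerivAt_mul`.
`Dom.rot`: `U h (R φ v) = R φ (U (exp (-φ I) h) v)`.  `mode_bound`: put `p = (1/2) • (x - I • y)`,
`q = (1/2) • (x + I • y)`; for `w = R φ v` one has `p' = exp (-φ I) • R φ p`, `q' = exp (φ I) • R φ q`,
and `inner_comm` gives `⟪p, p'⟫ = ⟪q, q'⟫`, `⟪a, p'⟫ = ⟪q, R φ a⟫`.  Multiply by `exp (-n φ I)`,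
integrate (`inner_P`, `inner_P_P`) and apply `telescope` to `P n p`, `P n q`, `P n a`;
`p + q = x`, `p - q = -I • y`.
-/

set_option autoImplicit false
set_option linter.unusedSectionVars false
set_option linter.unusedVariables false

open MeasureTheory Filter Topology Complex
open Crest.AnalysisR.Billiard
open scoped InnerProductSpace

noncomputable section

namespace Crest.Agent.R103

variable {H : Type*} [NormedAddCommGroup H] [InnerProductSpace ℂ H] [CompleteSpace H]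
  [NormedSpace ℝ H] [IsScalarTower ℝ ℂ H]

namespace HSys

variable {Y : HSys H}

theorem H4_small {η : ℝ} (hη : 0 < η) (f g : ℝ → ℂ) (hf : Continuous f) (hg : Continuous g)
    (hf0 : f 0 = 0) (hg0 : g 0 = 0) : ∀ᶠ t in 𝓝 (0 : ℝ), 8 * (‖f t‖ + ‖g t‖) < η := by
  have : Continuous fun t => 8 * (‖f t‖ + ‖g t‖) := by fun_prop
  exact (this.tendsto 0).eventually_lt_const (by simpa [hf0, hg0] using hη)

theorem H4_smul (r : ℝ) (x : H) : r • x = (r : ℂ) • x := RCLike.real_smul_eq_coe_smul (K := ℂ) r x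

theorem Dom.dir {v x y : H} (h : Y.Dom v x y) (c : ℂ) :
    (Y.dir c).Der v (c.re • x + c.im • y) := by
  obtain ⟨η, hη, hv⟩ := h.supp
  refine (OPG.hasDerivAt_mul h.dx h.dy c.re c.im).congr_of_eventuallyEq ?_
  filter_upwards [H4_small hη (fun t => (c.re * t : ℝ) * 1) (fun t => (c.im * t : ℝ) * I)
    (by fun_prop) (by fun_prop) (by simp) (by simp)] with t ht
  refine Eq.trans ?_ (Y.loc η _ _ v hv ht).symm
  change Y.U (t * c) v = _
  congr 2
  conv_lhs => rw [← re_add_im c]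
  push_cast
  ring

theorem Dom.rot {v x y : H} (h : Y.Dom v x y) (φ : ℝ) :
    Y.Dom (Y.R.E φ v) (Y.R.E φ (Real.cos φ • x - Real.sin φ • y))
      (Y.R.E φ (Real.sin φ • x + Real.cos φ • y)) := by
  obtain ⟨η, hη, hv⟩ := h.supp
  have key : ∀ c : ℂ, (Y.dir c).Der (Y.R.E φ v)
      (Y.R.E φ ((exp (-(φ * I)) * c).re • x + (exp (-(φ * I)) * c).im • y)) := fun c => by
    have := ((Y.R.E φ).restrictScalars ℝ).hasFDerivAt.comp_hasDerivAt (0 : ℝ)
      (h.dir (exp (-(φ * I)) * c))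
    refine this.congr_of_eventuallyEq (Eventually.of_forall fun t => ?_)
    refine Eq.trans ?_ (Y.R_U φ _ v).symm
    change Y.U (t * c) _ = _
    rw [mul_left_comm, ← mul_assoc (exp _), ← exp_add, add_neg_cancel, exp_zero, one_mul]
  refine ⟨⟨η, hη, Y.S_R η φ v hv⟩, ?_, ?_⟩
  · simpa [exp_re, exp_im, sub_eq_add_neg] using key 1
  · simpa [exp_re, exp_im] using key I

theorem der_W_rot {v a : H} (h : Y.W.Der v a) (φ : ℝ) : Y.W.Der (Y.R.E φ v) (Y.R.E φ a) := by
  exact h.map _ (Eventually.of_forall fun t => Y.W_R t φ v)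

theorem Dom.inner_comm {v x y w x' y' : H} (h : Y.Dom v x y) (h' : Y.Dom w x' y') :
    ⟪x, y'⟫_ℂ = ⟪y, x'⟫_ℂ := by
  obtain ⟨η, hη, hw⟩ := h'.supp
  refine OPG.inner_comm h.dx h.dy h'.dx h'.dy ?_
  filter_upwards [H4_small hη (fun t => (-t : ℝ) * 1) (fun t => t * I)
    (by fun_prop) (by fun_prop) (by simp) (by simp)] with t ht
  exact (Y.loc η _ _ w hw ht).trans
    ((congrArg (Y.U · w) (add_comm _ _)).trans (Y.loc η _ _ w hw (by rwa [add_comm])).symm)

theorem H4_norm (G : OPG H) (n : ℤ) (x y : H) :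
    ‖G.P n ((1 / 2 : ℂ) • (x - I • y)) - G.P n ((1 / 2 : ℂ) • (x + I • y))‖ = ‖G.P n y‖ := by
  have : (1 / 2 : ℂ) • (x - I • y) - (1 / 2 : ℂ) • (x + I • y) = (-I) • y := by module
  rw [← OPG.P_sub, this, OPG.P_smul, norm_smul, norm_neg, norm_I, one_mul]

theorem Dom.mode_bound {v x y a : H} (h : Y.Dom v x y) (ha : Y.W.Der v a) (N : ℕ) (m : ℤ)
    (hm : |m| ≤ N) :
    ‖Y.R.P m y‖ ^ 2 ≤ (4 * N + 4) * (‖x + a‖ * ‖y‖) +
      (‖Y.R.P (N + 1) a‖ ^ 2 + ‖Y.R.P (-N - 1) a‖ ^ 2) / 2 +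
      2 * (2 * N + 1) * ‖x + a‖ * √(2 * (‖x + a‖ * ‖y‖) + ‖a‖ ^ 2) := by
  set p := (1 / 2 : ℂ) • (x - I • y) with hp
  set q := (1 / 2 : ℂ) • (x + I • y) with hq
  have e1 : ∀ φ : ℝ, exp (-(φ * I)) • Y.R.E φ p =
      (1 / 2 : ℂ) • (Y.R.E φ (Real.cos φ • x - Real.sin φ • y) -
        I • Y.R.E φ (Real.sin φ • x + Real.cos φ • y)) := fun φ => by
    simp only [hp, H4_smul, map_smul, map_sub, map_add, ← neg_mul, exp_mul_I, Complex.cos_neg,
      Complex.sin_neg, ofReal_cos, ofReal_sin]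
    match_scalars
    · ring
    · linear_combination (1 / 2 * Complex.sin φ) * I_mul_I
  have e2 : ∀ φ : ℝ, exp (φ * I) • Y.R.E φ q =
      (1 / 2 : ℂ) • (Y.R.E φ (Real.cos φ • x - Real.sin φ • y) +
        I • Y.R.E φ (Real.sin φ • x + Real.cos φ • y)) := fun φ => by
    simp only [hq, H4_smul, map_smul, map_sub, map_add, exp_mul_I, ofReal_cos, ofReal_sin]
    match_scalars
    · ring
    · linear_combination (1 / 2 * Complex.sin φ) * I_mul_I
  have c2 : (starRingEnd ℂ) (1 / 2) = 1 / 2 := by simp [map_ofNat]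
  have f1 : ∀ φ : ℝ, exp (-(φ * I)) * ⟪p, Y.R.E φ p⟫_ℂ = exp (φ * I) * ⟪q, Y.R.E φ q⟫_ℂ :=
    fun φ => by
      rw [← inner_smul_right, ← inner_smul_right, e1, e2]
      simp only [hp, hq, inner_smul_left, inner_smul_right, inner_sub_left, inner_sub_right,
        inner_add_left, inner_add_right, c2, conj_I, h.inner_comm (h.rot φ)]
      ring
  have f2 : ∀ φ : ℝ, exp (-(φ * I)) * ⟪a, Y.R.E φ p⟫_ℂ = ⟪q, Y.R.E φ a⟫_ℂ := fun φ => by
    have g1 := OPG.inner_comm h.dx ha (h.rot φ).dx (der_W_rot ha φ)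
      (Eventually.of_forall fun t => (Y.W_U _ _ _).symm)
    have g2 := OPG.inner_comm h.dy ha (h.rot φ).dy (der_W_rot ha φ)
      (Eventually.of_forall fun t => (Y.W_U _ _ _).symm)
    rw [← inner_smul_right, e1]
    simp only [hq, inner_smul_left, inner_smul_right, inner_sub_right, inner_add_left, c2, conj_I,
      g1, g2]
    ring
  have := telescope (p := fun n => Y.R.P n p) (q := fun n => Y.R.P n q) (a := fun n => Y.R.P n a)
    (norm_nonneg (x + a)) (norm_nonneg y) (fun n => ?_) (fun n => ?_) (fun s => ?_) (fun s => ?_)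
    (fun n => Y.R.norm_P_le n a) (OPG.tendsto_P_atTop Y.R_per p) (OPG.tendsto_P_atTop Y.R_per a)
    N m hm
  · rwa [H4_norm] at this
  · have : ⟪Y.R.P (n + 1) p, Y.R.P (n + 1) p⟫_ℂ = ⟪Y.R.P (n - 1) q, Y.R.P (n - 1) q⟫_ℂ := by
      rw [OPG.inner_P_P Y.R_per, OPG.inner_P_P Y.R_per, OPG.inner_P, OPG.inner_P]
      congr 2
      funext φ
      push_cast
      rw [show -((n + 1) * φ * I : ℂ) = -(n * φ * I) + -(φ * I) by ring,
        show -((n - 1) * φ * I : ℂ) = -(n * φ * I) + φ * I by ring, exp_add, exp_add, mul_assoc,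
        f1, ← mul_assoc]
    rw [@norm_eq_sqrt_re_inner ℂ, this, ← norm_eq_sqrt_re_inner]
  · rw [OPG.inner_P_P Y.R_per, OPG.inner_P_P Y.R_per, OPG.inner_P, OPG.inner_P]
    congr 2
    funext φ
    push_cast
    rw [show -((n + 1) * φ * I : ℂ) = -(n * φ * I) + -(φ * I) by ring, exp_add, mul_assoc, f2]
  · have : p + q = x := by
      rw [hp, hq]
      module
    simp only [← OPG.P_add, this]
    exact OPG.bessel Y.R_per _ s
  · simp only [hp, hq, H4_norm]
    exact OPG.bessel Y.R_per _ s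

end HSys

end Crest.Agent.R103
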