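import Crest.Agent.R103.H1

/-!
# Mollification (task H5)
`Z t = U t ∘ W t` is a one-parameter group.  For `v ∈ S η` and small `δ` put
`v' = Z.avg δ ((dir I).avg δ v)`.  On vectors of `S η'` the operators `U t`, `Z t` and `U (s I)`
commute for small parameters (`loc`), so `v'` has `Z`-derivative
`(dir I).avg δ (δ⁻¹ • (Z δ v - v))` (or bound it with `Der.norm_le`), `Y`-derivative
`Z.avg δ (δ⁻¹ • (U (δ I) v - v))`, `W`-derivative `Z.avg δ ((dir I).avg δ a')`, and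
`U t = Z t ∘ W (-t)` gives the `X`-derivative (`hasDerivAt_mul` with `a = 1`, `b = -1`).
-/

set_option autoImplicit false
set_option linter.unusedSectionVars false
set_option linter.unusedVariables false

open MeasureTheory Filter Topology Complex
open Crest.AnalysisR.Billiard
open scoped InnerProductSpace

noncomputable section

namespace Crest.Agent.R103

variable {H : Type*} [NormedAddCommGroup H] [InnerProductSpace ℂ H] [CompleteSpace H]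
  [NormedSpace ℝ H] [IsScalarTower ℝ ℂ H]

namespace HSys

variable (Y : HSys H)

/-- the diagonal flow -/
def Z : OPG H where
  E t := (Y.U t).comp (Y.W.E t)
  zero := by
    intro v
    rw [ContinuousLinearMap.comp_apply, Y.W.zero, ofReal_zero, Y.U_zero]
  add := by
    intro s t v
    have h := Y.U_add 1 s t (Y.W.E (s + t) v)
    simp only [mul_one] at h
    simp only [ContinuousLinearMap.comp_apply]
    rw [Y.W_U, Y.W.add, h]
  norm := by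
    intro t v
    rw [ContinuousLinearMap.comp_apply, Y.U_norm, Y.W.norm]
  cont0 := by
    intro v
    have h := (Y.dir 1).tendsto_E (t := fun t : ℝ => t) tendsto_id (Y.W.cont0 v)
    simpa only [HSys.dir, mul_one, ContinuousLinearMap.comp_apply] using h

variable {Y}

theorem H5_Z (t : ℝ) (v : H) : Y.Z.E t v = Y.U t (Y.W.E t v) := rfl

theorem H5_dir (c : ℂ) (t : ℝ) (v : H) : (Y.dir c).E t v = Y.U (t * c) v := rfl

theorem H5_convex (η : ℝ) : Convex ℝ (Y.S η : Set H) := ((Y.S η).restrictScalars ℝ).convex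

theorem H5_comm {η : ℝ} {v : H} (hv : v ∈ Y.S η) {h k : ℂ} (hη : 8 * (‖h‖ + ‖k‖) < η) :
    Y.U h (Y.U k v) = Y.U k (Y.U h v) := by
  rw [Y.loc η h k v hv hη, Y.loc η k h v hv (by linarith), add_comm]

theorem H5_Z_comm {η : ℝ} {v : H} (hv : v ∈ Y.S η) {s : ℝ} {k : ℂ} (hη : 8 * (|s| + ‖k‖) < η) :
    Y.Z.E s (Y.U k v) = Y.U k (Y.Z.E s v) := by
  rw [H5_Z, H5_Z, Y.W_U, H5_comm (Y.S_W η s v hv) (by simpa using hη)]

theorem H5_Zavg_mem {η δ : ℝ} {v : H} (hv : v ∈ Y.S η) (hδ : 0 < δ) :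
    Y.Z.avg δ v ∈ Y.S (η - δ) := by
  refine Y.Z.avg_mem (H5_convex _) (Y.S_closed _) hδ fun s hs => ?_
  refine Y.S_anti _ _ ?_ (Y.S_U η s _ (Y.S_W η s v hv))
  rw [norm_real, Real.norm_eq_abs, abs_of_nonneg hs.1]
  linarith [hs.2]

theorem H5_small {δ : ℝ} (hδ : 0 < δ) : ∀ᶠ t in 𝓝 (0 : ℝ), |t| < δ := by
  filter_upwards [Metric.ball_mem_nhds (0 : ℝ) hδ] with t ht
  simpa using ht

theorem H5_norm_quot {δ c : ℝ} (hδ : 0 < δ) {u : H} (h : ‖u‖ ≤ c * |δ|) : ‖δ⁻¹ • u‖ ≤ c := by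
  rw [norm_smul, norm_inv, Real.norm_eq_abs, inv_mul_le_iff₀ (abs_pos.2 hδ.ne')]
  linarith

theorem H5_tendsto (G G' : OPG H) (v : H) :
    Tendsto (fun δ => G.avg δ (G'.avg δ v)) (𝓝[>] 0) (𝓝 v) := by
  rw [tendsto_iff_norm_sub_tendsto_zero]
  have h1 := tendsto_iff_norm_sub_tendsto_zero.1 (G.tendsto_avg v)
  have h2 := tendsto_iff_norm_sub_tendsto_zero.1 (G'.tendsto_avg v)
  refine squeeze_zero (fun _ => norm_nonneg _) (fun δ => ?_) (by simpa using h2.add h1)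
  have e : G.avg δ (G'.avg δ v) - v = G.avg δ (G'.avg δ v - v) + (G.avg δ v - v) := by
    rw [G.avg_sub]; abel
  rw [e]
  exact (norm_add_le _ _).trans (add_le_add (G.norm_avg_le _ _) le_rfl)

/-- derivatives pass through an average that commutes with the flow -/
theorem H5_der_avg {G G' : OPG H} {v x : H} (h : G.Der v x) {δ : ℝ} (hδ : 0 < δ)
    (hc : ∀ᶠ t in 𝓝 (0 : ℝ), ∀ s ∈ Set.Icc (0 : ℝ) δ, G.E t (G'.E s v) = G'.E s (G.E t v)) :
    G.Der (G'.avg δ v) (G'.avg δ x) := by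
  obtain ⟨T, hT⟩ := G'.exists_avgL δ
  rw [← hT, ← hT]
  refine h.map T ?_
  filter_upwards [hc] with t ht
  rw [hT, hT]
  exact G'.comm_avg (G.E t) hδ ht

theorem avg_mem_S {η δ : ℝ} {v : H} (hv : v ∈ Y.S η) (hδ : 0 < δ) (c : ℂ) :
    (Y.dir c).avg δ v ∈ Y.S (η - δ * ‖c‖) := by
  refine (Y.dir c).avg_mem (H5_convex _) (Y.S_closed _) hδ fun s hs => ?_
  refine Y.S_anti _ _ ?_ (Y.S_U η (s * c) v hv)
  rw [norm_mul, norm_real, Real.norm_eq_abs, abs_of_nonneg hs.1]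
  have := mul_le_mul_of_nonneg_right hs.2 (norm_nonneg c)
  linarith

theorem Approx.dom {f a : H} {ε : ℝ} (hε : 0 < ε) (h : Y.Approx f a ε) :
    ∃ v x y a' : H, Y.Dom v x y ∧ Y.W.Der v a' ∧ ‖v - f‖ ≤ 2 * ε ∧ ‖a' - a‖ ≤ 2 * ε ∧
      ‖x + a'‖ ≤ ε ∧ ‖x + a'‖ * ‖y‖ ≤ ε := by
  obtain ⟨v₀, a₀, η, t₀, α, β, hη, ht₀, hv₀, hf, hW, ha, hα0, hβ0, hα, hαβ, hZ, hY⟩ := h
  have e1 : ∀ᶠ δ in 𝓝[>] (0 : ℝ), ‖Y.Z.avg δ ((Y.dir I).avg δ v₀) - v₀‖ < ε :=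
    (tendsto_iff_norm_sub_tendsto_zero.1 (H5_tendsto Y.Z (Y.dir I) v₀)).eventually
      (gt_mem_nhds hε)
  have e2 : ∀ᶠ δ in 𝓝[>] (0 : ℝ), ‖Y.Z.avg δ ((Y.dir I).avg δ a₀) - a₀‖ < ε :=
    (tendsto_iff_norm_sub_tendsto_zero.1 (H5_tendsto Y.Z (Y.dir I) a₀)).eventually
      (gt_mem_nhds hε)
  have e3 : ∀ᶠ δ in 𝓝[>] (0 : ℝ), δ < min t₀ (η / 32) :=
    nhdsWithin_le_nhds (gt_mem_nhds (lt_min ht₀ (by positivity)))
  have e4 : ∀ᶠ δ in 𝓝[>] (0 : ℝ), 0 < δ := self_mem_nhdsWithin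
  obtain ⟨δ, h1, h2, h3, hδ⟩ := (e1.and (e2.and (e3.and e4))).exists
  have hδt : |δ| ≤ t₀ := by rw [abs_of_pos hδ]; exact (lt_min_iff.1 h3).1.le
  have hδη : 32 * δ < η := by have := (lt_min_iff.1 h3).2; linarith
  set w := (Y.dir I).avg δ v₀ with hw
  have hwS : w ∈ Y.S (η - δ) := by simpa using avg_mem_S hv₀ hδ I
  have hvS : Y.Z.avg δ w ∈ Y.S (η - δ - δ) := H5_Zavg_mem hwS hδ
  -- the `Z`-derivative
  have dZ := Y.Z.der_avg hδ w
  have nZ : ‖δ⁻¹ • (Y.Z.E δ w - w)‖ ≤ α := by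
    refine H5_norm_quot hδ ?_
    have e : Y.Z.E δ w = (Y.dir I).avg δ (Y.Z.E δ v₀) := by
      refine (Y.dir I).comm_avg (Y.Z.E δ) hδ fun s hs => ?_
      rw [H5_dir, H5_dir]
      refine H5_Z_comm hv₀ ?_
      rw [norm_mul, norm_I, mul_one, norm_real, Real.norm_eq_abs, abs_of_pos hδ,
        abs_of_nonneg hs.1]
      linarith [hs.2]
    rw [e, hw, ← (Y.dir I).avg_sub]
    exact ((Y.dir I).norm_avg_le _ _).trans (hZ δ hδt)
  -- the `Y`-derivative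
  have dY : (Y.dir I).Der (Y.Z.avg δ w) (Y.Z.avg δ (δ⁻¹ • ((Y.dir I).E δ v₀ - v₀))) := by
    refine H5_der_avg ((Y.dir I).der_avg hδ v₀) hδ ?_
    filter_upwards [H5_small hδ] with t ht s hs
    rw [H5_dir, H5_dir]
    refine (H5_Z_comm hwS ?_).symm
    rw [norm_mul, norm_I, mul_one, norm_real, Real.norm_eq_abs, abs_of_nonneg hs.1]
    linarith [hs.2]
  have nY : ‖Y.Z.avg δ (δ⁻¹ • ((Y.dir I).E δ v₀ - v₀))‖ ≤ β :=
    (Y.Z.norm_avg_le _ _).trans (H5_norm_quot hδ (hY δ hδt))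
  -- the `W`-derivative
  have dW : Y.W.Der (Y.Z.avg δ w) (Y.Z.avg δ ((Y.dir I).avg δ a₀)) := by
    refine H5_der_avg (H5_der_avg hW hδ ?_) hδ ?_
    · exact Eventually.of_forall fun t s _ => by rw [H5_dir, H5_dir, Y.W_U]
    · refine Eventually.of_forall fun t s _ => ?_
      rw [H5_Z, H5_Z, Y.W_U, Y.W.add, Y.W.add, add_comm]
  -- the `X`-derivative
  have dX : (Y.dir 1).Der (Y.Z.avg δ w)
      (δ⁻¹ • (Y.Z.E δ w - w) - Y.Z.avg δ ((Y.dir I).avg δ a₀)) := by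
    have h4 := OPG.hasDerivAt_mul dZ dW 1 (-1)
    have e : (fun t : ℝ => Y.Z.E (1 * t) (Y.W.E (-1 * t) (Y.Z.avg δ w))) =
        fun t : ℝ => (Y.dir 1).E t (Y.Z.avg δ w) := by
      funext t
      rw [H5_Z, H5_dir, Y.W.add, one_mul, neg_one_mul, add_neg_cancel, Y.W.zero, mul_one]
    rw [e, one_smul, neg_one_smul, ← sub_eq_add_neg] at h4
    exact h4
  refine ⟨_, _, _, _, ⟨⟨_, by linarith, hvS⟩, dX, dY⟩, dW, ?_, ?_, ?_, ?_⟩
  · have := norm_sub_le_norm_sub_add_norm_sub (Y.Z.avg δ w) v₀ f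
    linarith
  · have := norm_sub_le_norm_sub_add_norm_sub (Y.Z.avg δ ((Y.dir I).avg δ a₀)) a₀ a
    linarith
  · rw [sub_add_cancel]; exact nZ.trans hα
  · rw [sub_add_cancel]
    exact (mul_le_mul nZ nY (norm_nonneg _) hα0).trans hαβ

/-- test vectors -/
theorem test_dom {η δ δ' : ℝ} {w : H} (hw : w ∈ Y.S η) (hδ : 0 < δ) (hδ' : 0 < δ') (h' : δ' ≤ δ)
    (hη : 32 * δ < η) :
    ∃ x, Y.Dom ((Y.dir 1).avg δ' ((Y.dir I).avg δ w)) x
      ((Y.dir 1).avg δ' (δ⁻¹ • (Y.U (δ * I) w - w))) := by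
  have hwS : (Y.dir I).avg δ w ∈ Y.S (η - δ) := by simpa using avg_mem_S hw hδ I
  have hvS : (Y.dir 1).avg δ' ((Y.dir I).avg δ w) ∈ Y.S (η - δ - δ') := by
    simpa using avg_mem_S hwS hδ' 1
  refine ⟨_, ⟨_, by linarith, hvS⟩, (Y.dir 1).der_avg hδ' _, ?_⟩
  refine H5_der_avg ((Y.dir I).der_avg hδ w) hδ' ?_
  filter_upwards [H5_small hδ] with t ht s hs
  simp only [H5_dir]
  refine H5_comm hwS ?_
  rw [norm_mul, norm_I, mul_one, mul_one, norm_real, norm_real, Real.norm_eq_abs,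
    Real.norm_eq_abs, abs_of_nonneg hs.1]
  linarith [hs.2]

end HSys

end Crest.Agent.R103
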