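import Crest.Agent.R103.H4
import Crest.Agent.R103.H5

/-!
# The abstract theorem (task H6)
For `Dom w x' y'` put `g φ = ⟪f, R φ (sin φ • x' + cos φ • y')⟫`, continuous and periodic.  For
`Dom v x y`, skew-symmetry with `Dom.rot` gives `⟪y, R φ w⟫ = -⟪v, R φ (sin φ • x' + cos φ • y')⟫`,
so `(2π)⁻¹ ∫ exp (-m φ I) g_v φ = -⟪y, P m w⟫ = -⟪P m y, w⟫`.  Let `v → f` (`Approx.dom`,
`mode_bound`, `‖P n a'‖ ≤ ‖P n a‖ + 2 ε`), then `N → ∞`: all Fourier coefficients of `g` vanish.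
`pestov`: apply `inner_Y_eq_zero` to `test_dom` and let `δ' → 0` (`tendsto_avg`).
-/

set_option autoImplicit false
set_option linter.unusedSectionVars false
set_option linter.unusedVariables false

open MeasureTheory Filter Topology Complex
open Crest.AnalysisR.Billiard
open scoped InnerProductSpace

noncomputable section

namespace Crest.Agent.R103

variable {H : Type*} [NormedAddCommGroup H] [InnerProductSpace ℂ H] [CompleteSpace H]
  [NormedSpace ℝ H] [IsScalarTower ℝ ℂ H]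

namespace HSys

variable {Y : HSys H}

theorem h6_cont (Y : HSys H) (x' y' : H) :
    Continuous fun φ : ℝ => Y.R.E φ (Real.sin φ • x' + Real.cos φ • y') := by
  simp only [map_add, ContinuousLinearMap.map_smul_of_tower]
  exact (Real.continuous_sin.smul (Y.R.continuous x')).add
    (Real.continuous_cos.smul (Y.R.continuous y'))

theorem h6_inner (Y : HSys H) (x' y' v : H) (m : ℤ) :
    ∫ φ in (0 : ℝ)..(2 * Real.pi),
        exp (-(m * φ * I)) * ⟪v, Y.R.E φ (Real.sin φ • x' + Real.cos φ • y')⟫_ℂ =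
      ⟪v, ∫ φ in (0 : ℝ)..(2 * Real.pi),
        exp (-(m * φ * I)) • Y.R.E φ (Real.sin φ • x' + Real.cos φ • y')⟫_ℂ := by
  have hc : Continuous fun φ : ℝ =>
      exp (-(m * φ * I)) • Y.R.E φ (Real.sin φ • x' + Real.cos φ • y') :=
    Continuous.smul (by fun_prop) (Y.h6_cont x' y')
  have := (innerSL ℂ v).intervalIntegral_comp_comm (μ := volume)
    (hc.intervalIntegrable 0 (2 * Real.pi))
  simpa only [innerSL_apply_apply, inner_smul_right] using this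

theorem h6_bound {v x y w x' y' : H} (h : Y.Dom v x y) (hw : Y.Dom w x' y') (m : ℤ) :
    ‖⟪v, ∫ φ in (0 : ℝ)..(2 * Real.pi),
        exp (-(m * φ * I)) • Y.R.E φ (Real.sin φ • x' + Real.cos φ • y')⟫_ℂ‖ ≤
      2 * Real.pi * (‖Y.R.P m y‖ * ‖w‖) := by
  have h1 := Y.R.inner_P m y w
  rw [← OPG.inner_P_left Y.R_per] at h1
  simp only [fun φ => h.dy.skew (hw.rot φ).dy, mul_neg, intervalIntegral.integral_neg,
    h6_inner] at h1
  have h2 := norm_inner_le_norm (𝕜 := ℂ) (Y.R.P m y) w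
  rw [h1, norm_neg, norm_mul, norm_inv, Complex.norm_real,
    Real.norm_of_nonneg Real.two_pi_pos.le, inv_mul_le_iff₀ Real.two_pi_pos] at h2
  exact h2

theorem h6_mode {f a : H} {ε : ℝ} (hε : 0 < ε) (h : Y.Approx f a ε) (N : ℕ) (m : ℤ)
    (hm : |m| ≤ N) : ∃ v x y : H, Y.Dom v x y ∧ ‖v - f‖ ≤ 2 * ε ∧ ‖Y.R.P m y‖ ≤
      √((4 * N + 4) * ε + ((‖Y.R.P (N + 1) a‖ + 2 * ε) ^ 2 + (‖Y.R.P (-N - 1) a‖ + 2 * ε) ^ 2) / 2 +
        2 * (2 * N + 1) * ε * √(2 * ε + (‖a‖ + 2 * ε) ^ 2)) := by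
  obtain ⟨v, x, y, a', h1, h2, h3, h4, h5, h6⟩ := h.dom hε
  refine ⟨v, x, y, h1, h3, Real.le_sqrt_of_sq_le ((h1.mode_bound h2 N m hm).trans ?_)⟩
  have k : ∀ n, ‖Y.R.P n a'‖ ≤ ‖Y.R.P n a‖ + 2 * ε := fun n => by
    have e1 := Y.R.norm_P_le n (a' - a)
    rw [OPG.P_sub] at e1
    linarith [norm_sub_norm_le (Y.R.P n a') (Y.R.P n a)]
  have k' : ‖a'‖ ≤ ‖a‖ + 2 * ε := by linarith [norm_sub_norm_le a' a]
  gcongr
  · exact k _
  · exact k _

theorem inner_Y_eq_zero {f a : H} (h : ∀ ε, 0 < ε → Y.Approx f a ε) {w x' y' : H}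
    (hw : Y.Dom w x' y') : ⟪f, y'⟫_ℂ = 0 := by
  have := fourier_unique (g := fun φ => ⟪f, Y.R.E φ (Real.sin φ • x' + Real.cos φ • y')⟫_ℂ)
    (continuous_const.inner (Y.h6_cont x' y')) (fun φ => by
      simp only [Real.sin_add_two_pi, Real.cos_add_two_pi, ← Y.R.add, Y.R_per]) fun m => ?_
  · simpa [Y.R.zero] using this
  rw [h6_inner]
  have hb := fun {v x y : H} (hv : Y.Dom v x y) => h6_bound hv hw m
  generalize ∫ φ in (0 : ℝ)..(2 * Real.pi),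
    exp (-(m * φ * I)) • Y.R.E φ (Real.sin φ • x' + Real.cos φ • y') = Q at hb ⊢
  have h1 : ∀ N : ℕ, |m| ≤ N → ‖⟪f, Q⟫_ℂ‖ ≤
      2 * Real.pi * (√((‖Y.R.P (N + 1) a‖ ^ 2 + ‖Y.R.P (-N - 1) a‖ ^ 2) / 2) * ‖w‖) := by
    intro N hN
    have hc : Continuous fun ε : ℝ => 2 * Real.pi * (√((4 * N + 4) * ε +
        ((‖Y.R.P (N + 1) a‖ + 2 * ε) ^ 2 + (‖Y.R.P (-N - 1) a‖ + 2 * ε) ^ 2) / 2 +
        2 * (2 * N + 1) * ε * √(2 * ε + (‖a‖ + 2 * ε) ^ 2)) * ‖w‖) + 2 * ε * ‖Q‖ := by fun_prop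
    have ht := (hc.tendsto 0).mono_left (nhdsWithin_le_nhds (s := Set.Ioi 0))
    simp only [mul_zero, zero_mul, add_zero, zero_add] at ht
    refine ge_of_tendsto ht (eventually_nhdsWithin_of_forall fun ε hε => ?_)
    obtain ⟨v, x, y, h2, h3, h4⟩ := h6_mode hε (h ε hε) N m hN
    have h5 := norm_sub_le ⟪v, Q⟫_ℂ ⟪v - f, Q⟫_ℂ
    rw [← inner_sub_left, sub_sub_cancel] at h5
    refine h5.trans (add_le_add ((hb h2).trans ?_) ((norm_inner_le_norm _ _).trans ?_))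
    · gcongr
    · gcongr
  have t1 : Tendsto (fun N : ℕ => ‖Y.R.P (N + 1) a‖) atTop (𝓝 0) :=
    (OPG.tendsto_P_atTop Y.R_per a).comp
      (tendsto_atTop_add_const_right _ 1 tendsto_natCast_atTop_atTop)
  have t2 : Tendsto (fun N : ℕ => ‖Y.R.P (-N - 1) a‖) atTop (𝓝 0) :=
    (OPG.tendsto_P_atBot Y.R_per a).comp
      (tendsto_atBot_add_const_right _ (-1) (tendsto_neg_atTop_atBot.comp tendsto_natCast_atTop_atTop))
  have t3 := ((((t1.pow 2).add (t2.pow 2)).div_const 2).sqrt.mul_const ‖w‖).const_mul (2 * Real.pi)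
  simp only [ne_eq, OfNat.ofNat_ne_zero, not_false_eq_true, zero_pow, add_zero, zero_div,
    Real.sqrt_zero, zero_mul, mul_zero] at t3
  refine norm_le_zero_iff.1 (ge_of_tendsto t3 ?_)
  filter_upwards [eventually_ge_atTop m.natAbs] with N hN
  exact h1 N (by rw [← Int.natCast_natAbs]; exact_mod_cast hN)

theorem pestov {f a : H} (h : ∀ ε, 0 < ε → Y.Approx f a ε) {η δ : ℝ} {w : H} (hw : w ∈ Y.S η)
    (hδ : 0 < δ) (hη : 32 * δ < η) : ⟪f, Y.U (δ * I) w - w⟫_ℂ = 0 := by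
  have h1 := (tendsto_const_nhds (x := f)).inner (𝕜 := ℂ)
    ((Y.dir 1).tendsto_avg (δ⁻¹ • (Y.U (δ * I) w - w)))
  have h2 : ⟪f, δ⁻¹ • (Y.U (δ * I) w - w)⟫_ℂ = 0 := by
    refine tendsto_nhds_unique h1 (tendsto_const_nhds.congr' ?_)
    filter_upwards [Ioc_mem_nhdsGT hδ] with δ' h'
    obtain ⟨x, hx⟩ := test_dom hw hδ h'.1 h'.2 hη
    exact (inner_Y_eq_zero h hx).symm
  rw [← algebraMap_smul ℂ, inner_smul_right] at h2
  exact (mul_eq_zero.1 h2).resolve_left (by simpa using hδ.ne')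

end HSys

end Crest.Agent.R103
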