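import Crest.Agent.R103.H1

/-!
# Composition and multiplication operators (task M1)
`koop_cont`: approximate `v` by a bounded continuous function
(`Lp.boundedContinuousFunction_dense` or `MemLp.exists_boundedContinuous_eLpNorm_sub_le`), dominated
convergence for it, and `Filter.tendsto_iff_seq_tendsto` (`tendsto_of_seq_tendsto`).
`exists_mulL`: `(ContinuousLinearMap.mul ℂ ℂ).holderL μ ∞ 2 2` or `LinearMap.mkContinuous`.
-/

set_option autoImplicit false
set_option linter.unusedSectionVars false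
set_option linter.unusedVariables false

open MeasureTheory Filter Topology Complex
open Crest.AnalysisR.Billiard

noncomputable section

namespace Crest.Agent.R103

variable {Ω : Type*} [MeasurableSpace Ω] [TopologicalSpace Ω] [BorelSpace Ω]
  [TopologicalSpace.PseudoMetrizableSpace Ω] {μ : Measure Ω} [IsFiniteMeasure μ]

theorem m1a_norm_sq (f : Lp ℂ 2 μ) : ‖f‖ ^ 2 = ∫ y, ‖f y‖ ^ 2 ∂μ := by
  have h1 : (inner ℂ f f : ℂ) = ∫ a, inner ℂ (f a) (f a) ∂μ := L2.inner_def f f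
  simp_rw [inner_self_eq_norm_sq_to_K] at h1
  have h2 : ((‖f‖ ^ 2 : ℝ) : ℂ) = ((∫ y, ‖f y‖ ^ 2 ∂μ : ℝ) : ℂ) := by
    rw [← integral_complex_ofReal]
    push_cast
    exact h1
  exact_mod_cast h2

theorem m1a_isClosed {Q : Ω → ℂ → Prop} (hQ : ∀ y, IsClosed {z | Q y z}) :
    IsClosed {v : Lp ℂ 2 μ | ∀ᵐ y ∂μ, Q y (v y)} := by
  refine IsSeqClosed.isClosed ?_
  intro u v hu huv
  obtain ⟨ns, -, hns⟩ := (tendstoInMeasure_of_tendsto_Lp huv).exists_seq_tendsto_ae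
  have hall : ∀ᵐ y ∂μ, ∀ n, Q y (u n y) := ae_all_iff.2 hu
  filter_upwards [hns, hall] with y hy1 hy2
  exact (hQ y).mem_of_tendsto hy1 (Eventually.of_forall fun n => hy2 (ns n))

theorem koop_coe {T : Ω → Ω} (hT : MeasurePreserving T μ μ) (v : Lp ℂ 2 μ) :
    ∀ᵐ y ∂μ, koop hT v y = v (T y) := by
  exact Lp.coeFn_compMeasurePreserving v hT

theorem norm_koop {T : Ω → Ω} (hT : MeasurePreserving T μ μ) (v : Lp ℂ 2 μ) :
    ‖koop hT v‖ = ‖v‖ := by
  exact Lp.norm_compMeasurePreserving v hT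

theorem m1a_cont_bcf {T : ℕ → Ω → Ω} (hT : ∀ n, MeasurePreserving (T n) μ μ)
    (hc : ∀ᵐ y ∂μ, Tendsto (fun n => T n y) atTop (𝓝 y)) (g : BoundedContinuousFunction Ω ℂ) :
    Tendsto (fun n => koop (hT n) (BoundedContinuousFunction.toLp 2 μ ℂ g)) atTop
      (𝓝 (BoundedContinuousFunction.toLp 2 μ ℂ g)) := by
  set G : Lp ℂ 2 μ := BoundedContinuousFunction.toLp 2 μ ℂ g with hG
  have hGg : G =ᵐ[μ] g := BoundedContinuousFunction.coeFn_toLp 2 μ ℂ g
  have hsq : ∀ n, ‖koop (hT n) G - G‖ ^ 2 = ∫ y, ‖g (T n y) - g y‖ ^ 2 ∂μ := by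
    intro n
    rw [m1a_norm_sq]
    refine integral_congr_ae ?_
    have h1 : ∀ᵐ y ∂μ, G (T n y) = g (T n y) := (hT n).quasiMeasurePreserving.ae hGg
    filter_upwards [Lp.coeFn_sub (koop (hT n) G) G, koop_coe (hT n) G, hGg, h1] with y h2 h3 h4 h5
    rw [h2, Pi.sub_apply, h3, h4, h5]
  have hlim : Tendsto (fun n => ∫ y, ‖g (T n y) - g y‖ ^ 2 ∂μ) atTop (𝓝 (∫ _y, (0 : ℝ) ∂μ)) := by
    refine tendsto_integral_of_dominated_convergence (fun _ => (2 * ‖g‖) ^ 2) ?_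
      (integrable_const _) ?_ ?_
    · intro n
      have hm : Measurable fun y => ‖g (T n y) - g y‖ ^ 2 :=
        (((g.continuous.measurable.comp (hT n).measurable).sub g.continuous.measurable).norm).pow_const 2
      exact hm.aestronglyMeasurable
    · intro n
      refine Eventually.of_forall fun y => ?_
      rw [Real.norm_of_nonneg (by positivity)]
      refine pow_le_pow_left₀ (norm_nonneg _) ?_ 2
      calc ‖g (T n y) - g y‖ ≤ ‖g (T n y)‖ + ‖g y‖ := norm_sub_le _ _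
        _ ≤ ‖g‖ + ‖g‖ := add_le_add (g.norm_coe_le_norm _) (g.norm_coe_le_norm _)
        _ = 2 * ‖g‖ := by ring
    · filter_upwards [hc] with y hy
      have h1 : Tendsto (fun n => g (T n y)) atTop (𝓝 (g y)) := (g.continuous.tendsto y).comp hy
      have h2 : Tendsto (fun n => ‖g (T n y) - g y‖ ^ 2) atTop (𝓝 (‖g y - g y‖ ^ 2)) :=
        ((h1.sub_const (g y)).norm).pow 2
      simpa using h2
  rw [integral_zero] at hlim
  rw [tendsto_iff_norm_sub_tendsto_zero]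
  have h3 : Tendsto (fun n => √(‖koop (hT n) G - G‖ ^ 2)) atTop (𝓝 (√0)) := by
    refine (Real.continuous_sqrt.tendsto 0).comp ?_
    simpa only [hsq] using hlim
  simpa only [Real.sqrt_sq (norm_nonneg _), Real.sqrt_zero] using h3

theorem koop_cont {P : Type*} [TopologicalSpace P] [FirstCountableTopology P] {p₀ : P}
    {T : P → Ω → Ω} (hT : ∀ p, MeasurePreserving (T p) μ μ)
    (hc : ∀ u : ℕ → P, Tendsto u atTop (𝓝 p₀) → ∀ᵐ y ∂μ, Tendsto (fun n => T (u n) y) atTop (𝓝 y))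
    (v : Lp ℂ 2 μ) : Tendsto (fun p => koop (hT p) v) (𝓝 p₀) (𝓝 v) := by
  refine tendsto_of_seq_tendsto fun u hu => ?_
  rw [Metric.tendsto_atTop]
  intro ε hε
  obtain ⟨g, hg⟩ := (BoundedContinuousFunction.toLp_denseRange ℂ μ ℂ (p := 2)
    (by simp)).exists_dist_lt v (ε := ε / 3) (by positivity)
  have h1 := m1a_cont_bcf (fun n => hT (u n)) (hc u hu) g
  rw [Metric.tendsto_atTop] at h1
  obtain ⟨N, hN⟩ := h1 (ε / 3) (by positivity)
  refine ⟨N, fun n hn => ?_⟩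
  set G : Lp ℂ 2 μ := BoundedContinuousFunction.toLp 2 μ ℂ g with hG
  have h2 : dist (koop (hT (u n)) v) (koop (hT (u n)) G) = dist v G := by
    rw [dist_eq_norm, dist_eq_norm, ← map_sub, norm_koop]
  have h3 := hN n hn
  have h4 := dist_triangle4 (koop (hT (u n)) v) (koop (hT (u n)) G) G v
  rw [h2, dist_comm G v] at h4
  change dist (koop (hT (u n)) v) v < ε
  linarith

/-- functions vanishing almost everywhere on a set -/
def van (μ : Measure Ω) (s : Set Ω) : Submodule ℂ (Lp ℂ 2 μ) where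
  carrier := {v | ∀ᵐ y ∂μ, y ∈ s → v y = 0}
  add_mem' := by
    intro a b ha hb
    filter_upwards [ha, hb, Lp.coeFn_add a b] with y h1 h2 h3 hy
    rw [h3, Pi.add_apply, h1 hy, h2 hy, add_zero]
  zero_mem' := by
    filter_upwards [Lp.coeFn_zero ℂ 2 μ] with y h1 _
    rw [h1, Pi.zero_apply]
  smul_mem' := by
    intro c a ha
    filter_upwards [ha, Lp.coeFn_smul c a] with y h1 h2 hy
    rw [h2, Pi.smul_apply, h1 hy, smul_zero]

theorem mem_van {s : Set Ω} {v : Lp ℂ 2 μ} : v ∈ van μ s ↔ ∀ᵐ y ∂μ, y ∈ s → v y = 0 := Iff.rfl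

theorem isClosed_van (s : Set Ω) : IsClosed (van μ s : Set (Lp ℂ 2 μ)) := by
  refine m1a_isClosed (Q := fun y z => y ∈ s → z = 0) fun y => ?_
  by_cases hy : y ∈ s
  · simp [hy]
  · simp [hy]

theorem convex_bdd (b : ℝ) : Convex ℝ {v : Lp ℂ 2 μ | ∀ᵐ y ∂μ, ‖v y‖ ≤ b} := by
  intro u hu v hv a c ha hc hac
  filter_upwards [hu, hv, Lp.coeFn_add (a • u) (c • v), Lp.coeFn_smul a u, Lp.coeFn_smul c v]
    with y h1 h2 h3 h4 h5
  rw [h3, Pi.add_apply, h4, h5, Pi.smul_apply, Pi.smul_apply]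
  calc ‖a • u y + c • v y‖ ≤ ‖a • u y‖ + ‖c • v y‖ := norm_add_le _ _
    _ = a * ‖u y‖ + c * ‖v y‖ := by
      rw [norm_smul, norm_smul, Real.norm_of_nonneg ha, Real.norm_of_nonneg hc]
    _ ≤ a * b + c * b := by gcongr
    _ = b := by rw [← add_mul, hac, one_mul]

theorem isClosed_bdd (b : ℝ) : IsClosed {v : Lp ℂ 2 μ | ∀ᵐ y ∂μ, ‖v y‖ ≤ b} := by
  exact m1a_isClosed (Q := fun _ z => ‖z‖ ≤ b) fun _ => isClosed_le continuous_norm continuous_const

theorem exists_mulL {χ : Ω → ℝ} (hχ : Measurable χ) (hb : ∀ y, |χ y| ≤ 1) :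
    ∃ M : Lp ℂ 2 μ →L[ℂ] Lp ℂ 2 μ, (∀ v, ‖M v‖ ≤ ‖v‖) ∧
      ∀ v, ∀ᵐ y ∂μ, M v y = χ y * v y := by
  have hle : ∀ (v : Lp ℂ 2 μ) y, ‖(χ y : ℂ) * v y‖ ≤ ‖v y‖ := by
    intro v y
    rw [norm_mul, Complex.norm_real, Real.norm_eq_abs]
    exact mul_le_of_le_one_left (norm_nonneg _) (hb y)
  have hm : ∀ v : Lp ℂ 2 μ, MemLp (fun y => (χ y : ℂ) * v y) 2 μ := by
    intro v
    refine (Lp.memLp v).of_le ?_ (Eventually.of_forall (hle v))
    exact (Complex.measurable_ofReal.comp hχ).aestronglyMeasurable.mul (Lp.aestronglyMeasurable v)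
  let L : Lp ℂ 2 μ →ₗ[ℂ] Lp ℂ 2 μ :=
    { toFun := fun v => (hm v).toLp _
      map_add' := by
        intro u v
        apply Lp.ext
        filter_upwards [(hm (u + v)).coeFn_toLp, (hm u).coeFn_toLp, (hm v).coeFn_toLp,
          Lp.coeFn_add u v, Lp.coeFn_add ((hm u).toLp _) ((hm v).toLp _)] with y h1 h2 h3 h4 h5
        rw [h1, h5, Pi.add_apply, h2, h3, h4, Pi.add_apply, mul_add]
      map_smul' := by
        intro c v
        apply Lp.ext
        filter_upwards [(hm (c • v)).coeFn_toLp, (hm v).coeFn_toLp,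
          Lp.coeFn_smul c v, Lp.coeFn_smul c ((hm v).toLp _)] with y h1 h2 h3 h4
        rw [RingHom.id_apply, h1, h4, Pi.smul_apply, h2, h3, Pi.smul_apply, smul_eq_mul,
          smul_eq_mul]
        ring }
  have hL : ∀ v, ∀ᵐ y ∂μ, L v y = χ y * v y := fun v => (hm v).coeFn_toLp
  have hn : ∀ v, ‖L v‖ ≤ ‖v‖ := by
    intro v
    refine Lp.norm_le_norm_of_ae_le ?_
    filter_upwards [hL v] with y hy
    rw [hy]
    exact hle v y
  exact ⟨L.mkContinuous 1 (fun v => by rw [one_mul]; exact hn v), hn, hL⟩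

/-- `L²` norm of a function dominated by `b |ψ|` -/
theorem norm_le_of_dom {v : Lp ℂ 2 μ} {ψ : Ω → ℝ} (hψ : Measurable ψ) (hb : ∀ y, |ψ y| ≤ 1)
    {b c : ℝ} (hb0 : 0 ≤ b) (hc : 0 ≤ c) (h : ∀ᵐ y ∂μ, ‖v y‖ ≤ b * |ψ y|)
    (hi : ∫ y, ψ y ^ 2 ∂μ ≤ c ^ 2) : ‖v‖ ≤ b * c := by
  have hint : Integrable (fun y => ψ y ^ 2) μ := by
    refine (integrable_const (1 : ℝ)).mono' (hψ.pow_const 2).aestronglyMeasurable
      (Eventually.of_forall fun y => ?_)
    rw [Real.norm_of_nonneg (sq_nonneg _), ← sq_abs]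
    exact pow_le_one₀ (abs_nonneg _) (hb y)
  have h1 : ‖v‖ ^ 2 ≤ (b * c) ^ 2 := by
    rw [m1a_norm_sq]
    calc ∫ y, ‖v y‖ ^ 2 ∂μ ≤ ∫ y, b ^ 2 * ψ y ^ 2 ∂μ := by
          refine integral_mono_of_nonneg (Eventually.of_forall fun y => by positivity)
            (hint.const_mul _) ?_
          filter_upwards [h] with y hy
          calc ‖v y‖ ^ 2 ≤ (b * |ψ y|) ^ 2 := pow_le_pow_left₀ (norm_nonneg _) hy 2
            _ = b ^ 2 * ψ y ^ 2 := by rw [mul_pow, sq_abs]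
      _ = b ^ 2 * ∫ y, ψ y ^ 2 ∂μ := integral_const_mul _ _
      _ ≤ b ^ 2 * c ^ 2 := by gcongr
      _ = (b * c) ^ 2 := by ring
  exact (pow_le_pow_iff_left₀ (norm_nonneg _) (by positivity) two_ne_zero).1 h1

namespace MSys

variable (B : MSys μ)

theorem m1b_koop_koop {S T : Ω → Ω} (hS : MeasurePreserving S μ μ) (hT : MeasurePreserving T μ μ)
    (v : Lp ℂ 2 μ) : ∀ᵐ y ∂μ, koop hS (koop hT v) y = v (T (S y)) := by
  filter_upwards [koop_coe hS (koop hT v), hS.quasiMeasurePreserving.ae (koop_coe hT v)]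
    with y h1 h2
  rw [h1, h2]

theorem m1b_id {T : Ω → Ω} (hT : MeasurePreserving T μ μ) (h : ∀ᵐ y ∂μ, T y = y)
    (v : Lp ℂ 2 μ) : koop hT v = v := by
  refine Lp.ext ?_
  filter_upwards [koop_coe hT v, h] with y h1 h2
  rw [h1, h2]

theorem m1b_comp {S T Q : Ω → Ω} (hS : MeasurePreserving S μ μ) (hT : MeasurePreserving T μ μ)
    (hQ : MeasurePreserving Q μ μ) (h : ∀ᵐ y ∂μ, T (S y) = Q y) (v : Lp ℂ 2 μ) :
    koop hS (koop hT v) = koop hQ v := by
  refine Lp.ext ?_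
  filter_upwards [m1b_koop_koop hS hT v, koop_coe hQ v, h] with y h1 h2 h3
  rw [h1, h2, h3]

theorem m1b_comm {S T S' T' : Ω → Ω} (hS : MeasurePreserving S μ μ) (hT : MeasurePreserving T μ μ)
    (hS' : MeasurePreserving S' μ μ) (hT' : MeasurePreserving T' μ μ)
    (h : ∀ᵐ y ∂μ, T (S y) = T' (S' y)) (v : Lp ℂ 2 μ) :
    koop hS (koop hT v) = koop hS' (koop hT' v) := by
  refine Lp.ext ?_
  filter_upwards [m1b_koop_koop hS hT v, m1b_koop_koop hS' hT' v, h] with y h1 h2 h3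
  rw [h1, h2, h3]

theorem m1b_van {T : Ω → Ω} (hT : MeasurePreserving T μ μ) {s s' : Set Ω}
    (h : ∀ᵐ y ∂μ, y ∈ s' → T y ∈ s) {v : Lp ℂ 2 μ} (hv : v ∈ van μ s) : koop hT v ∈ van μ s' := by
  rw [mem_van] at hv ⊢
  filter_upwards [koop_coe hT v, hT.quasiMeasurePreserving.ae hv, h] with y h1 h2 h3 hy
  rw [h1, h2 (h3 hy)]

def opR : OPG (Lp ℂ 2 μ) where
  E t := koop (B.mR t)
  zero := m1b_id _ B.R_zero
  add s t := m1b_comp _ _ _ (by rw [add_comm s t]; exact B.R_add t s)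
  norm t := norm_koop _
  cont0 := koop_cont B.mR B.R_cont

def opW : OPG (Lp ℂ 2 μ) where
  E t := koop (B.mW t)
  zero := m1b_id _ B.W_zero
  add s t := m1b_comp _ _ _ (by rw [add_comm s t]; exact B.W_add t s)
  norm t := norm_koop _
  cont0 := koop_cont B.mW B.W_cont

def hsys : HSys (Lp ℂ 2 μ) where
  U h := koop (B.mτ h)
  R := B.opR
  W := B.opW
  S η := van μ {y | B.d y ≤ η}
  U_zero := m1b_id _ B.τ_zero
  U_add h s t := m1b_comp _ _ _ (by rw [add_comm s t]; exact B.τ_add h t s)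
  U_norm h := norm_koop _
  U_cont := koop_cont B.mτ B.τ_cont
  R_per := m1b_id _ B.R_per
  R_U φ h := m1b_comm _ _ _ _ (B.τ_R h φ)
  W_U t h := m1b_comm _ _ _ _ (B.τ_W h t)
  W_R t φ := m1b_comm _ _ _ _ (B.R_W φ t)
  S_closed η := isClosed_van _
  S_anti η η' hη v hv := by
    rw [mem_van] at hv ⊢
    filter_upwards [hv] with y h1 hy
    exact h1 (le_trans hy hη)
  S_U η h v hv := by
    refine m1b_van _ ?_ hv
    filter_upwards [B.d_τ h] with y h1 hy
    have h2 : B.d y ≤ η - ‖h‖ := hy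
    have h3 := (abs_le.1 h1).2
    change B.d (B.τ h y) ≤ η
    linarith
  S_R η φ v hv := by
    refine m1b_van (B.mR φ) ?_ hv
    filter_upwards [B.d_R φ] with y h1 hy
    exact h1.le.trans hy
  S_W η t v hv := by
    refine m1b_van (B.mW t) ?_ hv
    filter_upwards [B.d_W t] with y h1 hy
    exact h1.le.trans hy
  loc η h k v hv hη := by
    rw [mem_van] at hv
    refine Lp.ext ?_
    filter_upwards [m1b_koop_koop (B.mτ h) (B.mτ k) v, koop_coe (B.mτ (h + k)) v, B.loc h k,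
      B.d_τ h, (B.mτ h).quasiMeasurePreserving.ae (B.d_τ k), B.d_τ (h + k),
      ((B.mτ k).comp (B.mτ h)).quasiMeasurePreserving.ae hv,
      (B.mτ (h + k)).quasiMeasurePreserving.ae hv] with y h1 h2 h3 h4 h5 h6 h7 h8
    rw [h1, h2]
    by_cases hd : 4 * (‖h‖ + ‖k‖) < B.d y
    · rw [h3 hd]
    · have a4 := (abs_le.1 h4).2
      have a5 := (abs_le.1 h5).2
      have a6 := (abs_le.1 h6).2
      have a7 := norm_add_le h k
      have a8 := norm_nonneg h
      have a9 := norm_nonneg k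
      have b1 : v (B.τ k (B.τ h y)) = 0 := h7 (show B.d (B.τ k (B.τ h y)) ≤ η by linarith)
      rw [b1, h8 (show B.d (B.τ (h + k) y) ≤ η by linarith)]

end MSys

end Crest.Agent.R103
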