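import Crest.Agent.R103.M1
import Crest.Agent.R103.H5
import Crest.Agent.R103.Cut3

/-!
# Approximation of a bounded invariant function (task M2)
Given `ε`, choose `κ` with `κ ≤ ε / 2`, `b κ ≤ ε / 2`, `κ ^ 2 ≤ ε / 2`; take `r₀` from `cutoff`; then
`L ≥ 1` so large that `u = r₀ / (8 L)` has `‖U (u I) f - f‖ 8 κ / r₀ ≤ ε / 2`, `‖avg u f - f‖ ≤ ε / 2`,
`‖avg u a - a‖ ≤ ε / 2` (averages for `dir I`).  Put `g = (dir I).avg u f` (bounded by `1`, `avg_mem`),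
`v = M g` (`exists_mulL`), `a' = M ((dir I).avg u a)`, `η = r₀ / L`, `t₀ = u`, `α = κ / L`,
`β = κ L + ‖U (u I) f - f‖ / u`.  `U t (W t g) - g ∈ van {η < d}`: it is the average over `s ∈ [0, u]`
of `U t (W t (U (s I) f)) - U (s I) f`, which vanishes on `{η < d}` by `MSys.loc` (twice), `τ_W` and
the invariance.  `U t (W t v) - v = (χ ∘ τ t - χ) * U t (W t g) + χ * (U t (W t g) - g)`.
-/

set_option autoImplicit false
set_option linter.unusedSectionVars false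
set_option linter.unusedVariables false

open MeasureTheory Filter Topology Complex
open Crest.AnalysisR.Billiard

noncomputable section

namespace Crest.Agent.R103

variable {Ω : Type*} [MeasurableSpace Ω] [TopologicalSpace Ω] [BorelSpace Ω]
  [TopologicalSpace.PseudoMetrizableSpace Ω] {μ : Measure Ω} [IsFiniteMeasure μ]

theorem M2_koop_bdd {T : Ω → Ω} (hT : MeasurePreserving T μ μ) {v : Lp ℂ 2 μ} {b : ℝ}
    (hv : ∀ᵐ y ∂μ, ‖v y‖ ≤ b) : ∀ᵐ y ∂μ, ‖koop hT v y‖ ≤ b := by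
  filter_upwards [koop_coe hT v, hT.quasiMeasurePreserving.ae hv] with y h1 h2
  rwa [h1]

theorem M2_avg_bdd (B : MSys μ) {v : Lp ℂ 2 μ} {b u : ℝ} (hu : 0 < u)
    (hv : ∀ᵐ y ∂μ, ‖v y‖ ≤ b) : ∀ᵐ y ∂μ, ‖((B.hsys.dir I).avg u v) y‖ ≤ b :=
  (B.hsys.dir I).avg_mem (convex_bdd b) (isClosed_bdd b) hu fun _ _ => M2_koop_bdd (B.mτ _) hv

theorem M2_mul_sub {χ : Ω → ℝ} (hχ : Measurable χ) (h01 : ∀ y, 0 ≤ χ y ∧ χ y ≤ 1)
    {M : Lp ℂ 2 μ →L[ℂ] Lp ℂ 2 μ} (hM : ∀ v, ∀ᵐ y ∂μ, M v y = χ y * v y) {κ b : ℝ} (hκ : 0 ≤ κ)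
    (hb : 0 ≤ b) (hi : ∫ y, (1 - χ y) ^ 2 ∂μ ≤ κ ^ 2) {v : Lp ℂ 2 μ} (hv : ∀ᵐ y ∂μ, ‖v y‖ ≤ b) :
    ‖M v - v‖ ≤ b * κ := by
  refine norm_le_of_dom (ψ := fun y => 1 - χ y) (measurable_const.sub hχ)
    (fun y => abs_le.2 ⟨by linarith [(h01 y).2], by linarith [(h01 y).1]⟩) hb hκ ?_ hi
  filter_upwards [Lp.coeFn_sub (M v) v, hM v, hv] with y h1 h2 h3
  have e : (χ y : ℂ) * v y - v y = -(v y * ((1 - χ y : ℝ) : ℂ)) := by push_cast; ring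
  rw [h1, Pi.sub_apply, h2, e, norm_neg, norm_mul, Complex.norm_real, Real.norm_eq_abs]
  exact mul_le_mul_of_nonneg_right h3 (abs_nonneg _)

theorem M2_comm {χ : Ω → ℝ} (hχ : Measurable χ) (h01 : ∀ y, 0 ≤ χ y ∧ χ y ≤ 1)
    {M : Lp ℂ 2 μ →L[ℂ] Lp ℂ 2 μ} (hM : ∀ v, ∀ᵐ y ∂μ, M v y = χ y * v y) {T : Ω → Ω}
    (hT : MeasurePreserving T μ μ) {c : ℝ} (hc : 0 ≤ c)
    (hi : ∫ y, (χ (T y) - χ y) ^ 2 ∂μ ≤ c ^ 2) {v : Lp ℂ 2 μ} (hv : ∀ᵐ y ∂μ, ‖v y‖ ≤ 1) :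
    ‖koop hT (M v) - M (koop hT v)‖ ≤ c := by
  have := norm_le_of_dom (v := koop hT (M v) - M (koop hT v)) (ψ := fun y => χ (T y) - χ y)
    ((hχ.comp hT.measurable).sub hχ)
    (fun y => abs_le.2 ⟨by linarith [(h01 y).2, (h01 (T y)).1],
      by linarith [(h01 y).1, (h01 (T y)).2]⟩) zero_le_one hc ?_ hi
  · rwa [one_mul] at this
  filter_upwards [Lp.coeFn_sub (koop hT (M v)) (M (koop hT v)), koop_coe hT (M v),
    hT.quasiMeasurePreserving.ae (hM v), hM (koop hT v), koop_coe hT v,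
    hT.quasiMeasurePreserving.ae hv] with y h1 h2 h3 h4 h5 h6
  have e : (χ (T y) : ℂ) * v (T y) - χ y * v (T y) = v (T y) * ((χ (T y) - χ y : ℝ) : ℂ) := by
    push_cast; ring
  rw [h1, Pi.sub_apply, h2, h3, h4, h5, e, norm_mul, Complex.norm_real, Real.norm_eq_abs]
  exact mul_le_mul_of_nonneg_right h6 (abs_nonneg _)

theorem M2_comm_eq {χ : Ω → ℝ} {M : Lp ℂ 2 μ →L[ℂ] Lp ℂ 2 μ}
    (hM : ∀ v, ∀ᵐ y ∂μ, M v y = χ y * v y) {T : Ω → Ω} (hT : MeasurePreserving T μ μ)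
    (hi : ∀ᵐ y ∂μ, χ (T y) = χ y) (v : Lp ℂ 2 μ) : koop hT (M v) = M (koop hT v) := by
  refine Lp.ext ?_
  filter_upwards [koop_coe hT (M v), hT.quasiMeasurePreserving.ae (hM v), hM (koop hT v),
    koop_coe hT v, hi] with y h2 h3 h4 h5 h6
  rw [h2, h3, h4, h5, h6]

theorem M2_loc (B : MSys μ) (h k : ℂ) {η : ℝ} (hη : 4 * (‖h‖ + ‖k‖) ≤ η) (w : Lp ℂ 2 μ) :
    B.hsys.U h (B.hsys.U k w) - B.hsys.U k (B.hsys.U h w) ∈ van μ {y | η < B.d y} := by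
  rw [mem_van]
  filter_upwards [Lp.coeFn_sub (B.hsys.U h (B.hsys.U k w)) (B.hsys.U k (B.hsys.U h w)),
    koop_coe (B.mτ h) (koop (B.mτ k) w), koop_coe (B.mτ k) (koop (B.mτ h) w),
    (B.mτ h).quasiMeasurePreserving.ae (koop_coe (B.mτ k) w),
    (B.mτ k).quasiMeasurePreserving.ae (koop_coe (B.mτ h) w), B.loc h k, B.loc k h]
    with y h1 h2 h3 h4 h5 h6 h7 hy
  have hy' : η < B.d y := hy
  rw [h1, Pi.sub_apply, sub_eq_zero]
  refine (h2.trans h4).trans (Eq.trans ?_ (h3.trans h5).symm)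
  rw [h6 (by linarith), h7 (by linarith), add_comm]

theorem M2_diag (B : MSys μ) {f : Lp ℂ 2 μ} {t u : ℝ} (hu : 0 < u) (ht : |t| ≤ u)
    (hi : B.hsys.U t (B.hsys.W.E t f) = f) :
    B.hsys.U t (B.hsys.W.E t ((B.hsys.dir I).avg u f)) - (B.hsys.dir I).avg u f ∈
      van μ {y | 8 * u < B.d y} := by
  let Z : Lp ℂ 2 μ →L[ℂ] Lp ℂ 2 μ := (B.hsys.U t).comp (B.hsys.W.E t) - ContinuousLinearMap.id ℂ _
  let K : Submodule ℂ (Lp ℂ 2 μ) := (van μ {y | 8 * u < B.d y}).comap Z.toLinearMap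
  have hK : Convex ℝ (K : Set (Lp ℂ 2 μ)) := (K.restrictScalars ℝ).convex
  have hc : IsClosed (K : Set (Lp ℂ 2 μ)) := (isClosed_van _).preimage Z.continuous
  refine (B.hsys.dir I).avg_mem hK hc hu fun s hs => ?_
  change B.hsys.U t (B.hsys.W.E t (B.hsys.U (s * I) f)) - B.hsys.U (s * I) f ∈
    van μ {y | 8 * u < B.d y}
  have := M2_loc B t (s * I) (η := 8 * u) (by
    rw [norm_mul, norm_I, mul_one, Complex.norm_real, Complex.norm_real, Real.norm_eq_abs,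
      Real.norm_eq_abs, abs_of_nonneg hs.1]
    linarith [hs.2]) (B.hsys.W.E t f)
  rwa [hi, ← B.hsys.W_U] at this

theorem MSys.approx (B : MSys μ) {f a : Lp ℂ 2 μ} {b : ℝ} (hf : ∀ᵐ y ∂μ, ‖f y‖ ≤ 1)
    (ha : ∀ᵐ y ∂μ, ‖a y‖ ≤ b) (hd : B.hsys.W.Der f a)
    (hi : ∀ t : ℝ, B.hsys.U t (B.hsys.W.E t f) = f) {ε : ℝ} (hε : 0 < ε) :
    B.hsys.Approx f a ε := by
  have ha' : ∀ᵐ y ∂μ, ‖a y‖ ≤ |b| := ha.mono fun y h => h.trans (le_abs_self b)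
  have hb := abs_nonneg b
  obtain ⟨κ, hκ, hκ1, hκε⟩ : ∃ κ : ℝ, 0 < κ ∧ κ ≤ 1 ∧ (|b| + 1) * κ ≤ ε / 2 :=
    ⟨min 1 (ε / 2 / (|b| + 1)), by positivity, min_le_left _ _, by
      rw [mul_comm, ← le_div_iff₀ (by positivity)]; exact min_le_right _ _⟩
  have hbκ : 0 ≤ |b| * κ := by positivity
  obtain ⟨r₀, hr₀, hcut⟩ := B.cutoff hκ
  set G := B.hsys.dir I with hG
  have e1 : ∀ᶠ u in 𝓝[>] (0 : ℝ), ‖G.E u f - f‖ ≤ ε / 2 * (r₀ / 8) :=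
    ((tendsto_iff_norm_sub_tendsto_zero.1 (G.cont0 f)).mono_left nhdsWithin_le_nhds).eventually
      (ge_mem_nhds (by positivity))
  have e2 : ∀ w, ∀ᶠ u in 𝓝[>] (0 : ℝ), ‖G.avg u w - w‖ ≤ ε / 2 := fun w =>
    (tendsto_iff_norm_sub_tendsto_zero.1 (G.tendsto_avg w)).eventually (ge_mem_nhds (by positivity))
  have e3 : ∀ᶠ u in 𝓝[>] (0 : ℝ), u ∈ Set.Ioc 0 (r₀ / 8) := Ioc_mem_nhdsGT (by positivity)
  obtain ⟨u, h1, h2, h3, hu, hu'⟩ := (e1.and ((e2 f).and ((e2 a).and e3))).exists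
  set L := r₀ / (8 * u) with hL
  have hL1 : 1 ≤ L := by rw [hL, le_div_iff₀ (by positivity)]; linarith
  have hLu : r₀ / (8 * L) = u := by rw [hL]; field_simp
  have hLη : r₀ / L = 8 * u := by rw [hL]; field_simp
  obtain ⟨χ, hχ, h01, hχ0, hχW, hχ1, hχX, hχY⟩ := hcut L hL1
  rw [hLη] at hχ0
  rw [hLu] at hχX hχY
  obtain ⟨M, hMn, hM⟩ := exists_mulL (μ := μ) hχ fun y =>
    abs_le.2 ⟨by linarith [(h01 y).1], (h01 y).2⟩
  have hMW : ∀ t w, B.hsys.W.E t (M w) = M (B.hsys.W.E t w) := fun t w =>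
    M2_comm_eq hM (B.mW t) (hχW t) w
  have hg : ∀ᵐ y ∂μ, ‖(G.avg u f) y‖ ≤ 1 := M2_avg_bdd B hu hf
  have hga : ∀ᵐ y ∂μ, ‖(G.avg u a) y‖ ≤ |b| := M2_avg_bdd B hu ha'
  have hαL : κ / L ≤ κ := div_le_self hκ.le hL1
  refine ⟨M (G.avg u f), M (G.avg u a), 8 * u, u, κ / L, κ * L + ‖G.E u f - f‖ / u, by positivity,
    hu, ?_, ?_, ?_, ?_, by positivity, by positivity, by linarith, ?_, fun t ht => ?_,
    fun t ht => ?_⟩
  · change ∀ᵐ y ∂μ, B.d y ≤ 8 * u → M (G.avg u f) y = 0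
    filter_upwards [hM (G.avg u f), hχ0] with y k1 k2 hy
    rw [k1, k2 hy, ofReal_zero, zero_mul]
  · have := M2_mul_sub hχ h01 hM hκ.le zero_le_one hχ1 hg
    linarith [norm_sub_le_norm_sub_add_norm_sub (M (G.avg u f)) (G.avg u f) f]
  · obtain ⟨T, hT⟩ := G.exists_avgL u
    have d1 := hd.map T (Eventually.of_forall fun t => by
      rw [hT, hT]
      exact G.comm_avg (B.hsys.W.E t) hu fun s _ => B.hsys.W_U t _ f)
    rw [hT, hT] at d1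
    exact d1.map M (Eventually.of_forall fun t => hMW t _)
  · have := M2_mul_sub hχ h01 hM hκ.le hb hχ1 hga
    linarith [norm_sub_le_norm_sub_add_norm_sub (M (G.avg u a)) (G.avg u a) a]
  · have e : κ / L * (κ * L + ‖G.E u f - f‖ / u) = κ * κ + κ * (‖G.E u f - f‖ / (r₀ / 8)) := by
      rw [hL]; field_simp
    have k1 : ‖G.E u f - f‖ / (r₀ / 8) ≤ ε / 2 := by rwa [div_le_iff₀ (by positivity)]
    have k2 : 0 ≤ ‖G.E u f - f‖ / (r₀ / 8) := by positivity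
    rw [e]
    nlinarith
  · have k1 := M2_comm hχ h01 hM (B.mτ t) (by positivity) (hχX t ht) (M2_koop_bdd (B.mW t) hg)
    have k2 : M (B.hsys.U t (B.hsys.W.E t (G.avg u f))) = M (G.avg u f) := by
      rw [← sub_eq_zero, ← map_sub]
      refine Lp.ext ?_
      filter_upwards [hM (B.hsys.U t (B.hsys.W.E t (G.avg u f)) - G.avg u f), hχ0,
        mem_van.1 (M2_diag B hu ht (hi t)), Lp.coeFn_zero ℂ 2 μ] with y j1 j2 j3 j4
      rw [j1, j4, Pi.zero_apply]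
      rcases le_or_gt (B.d y) (8 * u) with hy | hy
      · rw [j2 hy, ofReal_zero, zero_mul]
      · rw [j3 hy, mul_zero]
    rw [hMW, ← k2]
    exact k1
  · have k1 : ‖G.E t (M (G.avg u f)) - M (G.E t (G.avg u f))‖ ≤ κ * L * |t| :=
      M2_comm hχ h01 hM (B.mτ (t * I)) (by positivity) (hχY t ht) hg
    have k2 : ‖M (G.E t (G.avg u f)) - M (G.avg u f)‖ ≤ ‖G.E u f - f‖ / u * |t| := by
      rw [← map_sub]
      exact (hMn _).trans (G.norm_E_avg_sub hu f t)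
    have k3 := norm_sub_le_norm_sub_add_norm_sub (G.E t (M (G.avg u f))) (M (G.E t (G.avg u f)))
      (M (G.avg u f))
    change ‖G.E t (M (G.avg u f)) - M (G.avg u f)‖ ≤ _
    linarith

end Crest.Agent.R103
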