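import Crest.Agent.R103.M2
import Crest.Agent.R103.H6

/-!
# Invariance under the perpendicular flow (task M3)
`F = MemLp.toLp f`.  For `σ > 0`, `F_σ = W.avg σ F` is bounded by `1`, invariant, and has
`W`-derivative `σ⁻¹ • (W σ F - F)`, bounded by `2 / σ`.  `pestov` and `σ → 0` give
`⟪F, U (δ I) w - w⟫ = 0` for `w ∈ S η`, `32 δ < η`, i.e. `⟪U (-δ I) F - F, w⟫ = 0`; test with
`w = 1_{η < d} (U (-δ I) F - F)` (`exists_mulL` with an indicator), `η = 33 δ`, and use `inv_of_loc`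
with `h = -u I` (`u > 0`), `inv_neg`.
-/

set_option autoImplicit false
set_option linter.unusedSectionVars false
set_option linter.unusedVariables false

open MeasureTheory Filter Topology Complex
open Crest.AnalysisR.Billiard

noncomputable section

namespace Crest.Agent.R103

variable {Ω : Type*} [MeasurableSpace Ω] [TopologicalSpace Ω] [BorelSpace Ω]
  [TopologicalSpace.PseudoMetrizableSpace Ω] {μ : Measure Ω} [IsFiniteMeasure μ]

open scoped InnerProductSpace in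
theorem m3_inner (B : MSys μ) {F : Lp ℂ 2 μ} (hb : ∀ᵐ y ∂μ, ‖F y‖ ≤ 1)
    (hi : ∀ t : ℝ, B.hsys.U t (B.hsys.W.E t F) = F) {η δ : ℝ} {w : Lp ℂ 2 μ}
    (hw : w ∈ B.hsys.S η) (hδ : 0 < δ) (hη : 32 * δ < η) :
    ⟪F, B.hsys.U (δ * I) w - w⟫_ℂ = 0 := by
  have hW : ∀ s : ℝ, ∀ᵐ y ∂μ, ‖(B.hsys.W.E s F) y‖ ≤ 1 := by
    intro s
    filter_upwards [koop_coe (B.mW s) F, (B.mW s).quasiMeasurePreserving.ae hb] with y h1 h2
    exact h1 ▸ h2
  have key : ∀ σ : ℝ, 0 < σ → ⟪B.hsys.W.avg σ F, B.hsys.U (δ * I) w - w⟫_ℂ = 0 := by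
    intro σ hσ
    have h1 : B.hsys.W.avg σ F ∈ {v : Lp ℂ 2 μ | ∀ᵐ y ∂μ, ‖v y‖ ≤ 1} :=
      B.hsys.W.avg_mem (convex_bdd 1) (isClosed_bdd 1) hσ fun s _ => hW s
    have h2 := B.hsys.W.der_avg hσ F
    have h3 : ∀ᵐ y ∂μ, ‖(σ⁻¹ • (B.hsys.W.E σ F - F) : Lp ℂ 2 μ) y‖ ≤ σ⁻¹ * 2 := by
      filter_upwards [Lp.coeFn_smul σ⁻¹ (B.hsys.W.E σ F - F), Lp.coeFn_sub (B.hsys.W.E σ F) F,
        hW σ, hb] with y a1 a2 a3 a4
      rw [a1, Pi.smul_apply, a2, Pi.sub_apply, norm_smul, Real.norm_eq_abs,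
        abs_of_pos (inv_pos.2 hσ)]
      refine mul_le_mul_of_nonneg_left ((norm_sub_le _ _).trans (by linarith)) (inv_pos.2 hσ).le
    have h4 : ∀ t : ℝ, B.hsys.U t (B.hsys.W.E t (B.hsys.W.avg σ F)) = B.hsys.W.avg σ F := by
      intro t
      have := B.hsys.W.comm_avg ((B.hsys.U t).comp (B.hsys.W.E t)) hσ (v := F) (fun s _ => by
        simp only [ContinuousLinearMap.comp_apply]
        rw [B.hsys.W_U, B.hsys.W.add, B.hsys.W.add, add_comm])
      simpa only [ContinuousLinearMap.comp_apply, hi t] using this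
    exact HSys.pestov (fun ε hε => B.approx h1 h3 h2 h4 hε) hw hδ hη
  have hl : Tendsto (fun σ => ⟪B.hsys.W.avg σ F, B.hsys.U (δ * I) w - w⟫_ℂ) (𝓝[>] 0)
      (𝓝 ⟪F, B.hsys.U (δ * I) w - w⟫_ℂ) :=
    (B.hsys.W.tendsto_avg F).inner tendsto_const_nhds
  refine tendsto_nhds_unique hl (tendsto_const_nhds.congr' ?_)
  filter_upwards [self_mem_nhdsWithin] with σ hσ
  exact (key σ hσ).symm

open scoped InnerProductSpace in
theorem m3_loc (B : MSys μ) {F : Lp ℂ 2 μ} (hb : ∀ᵐ y ∂μ, ‖F y‖ ≤ 1)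
    (hi : ∀ t : ℝ, B.hsys.U t (B.hsys.W.E t F) = F) {δ : ℝ} (hδ : 0 < δ) :
    ∀ᵐ y ∂μ, 33 * δ < B.d y → F (B.τ ((-δ : ℝ) * I) y) = F y := by
  classical
  obtain ⟨M, -, hM⟩ := exists_mulL (μ := μ) (χ := fun y => if 33 * δ < B.d y then 1 else 0)
    (Measurable.ite (measurableSet_lt measurable_const B.md) measurable_const measurable_const)
    (fun y => by split_ifs <;> simp)
  set D : Lp ℂ 2 μ := B.hsys.U ((-δ : ℝ) * I) F - F with hD
  have hw : M D ∈ B.hsys.S (33 * δ) := by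
    change M D ∈ van μ {y | B.d y ≤ 33 * δ}
    rw [mem_van]
    filter_upwards [hM D] with y h1 hy
    have : ¬ 33 * δ < B.d y := not_lt.2 hy
    rw [h1, if_neg this]
    simp
  have h1 := m3_inner B hb hi hw hδ (by linarith)
  have h2 : ⟪D, M D⟫_ℂ = 0 := by
    have := (B.hsys.dir I).inner_left (-δ) F (M D)
    rw [neg_neg] at this
    rw [hD, inner_sub_left, ← hD]
    rw [inner_sub_right] at h1
    exact (congrArg (· - ⟪F, M D⟫_ℂ) this).trans h1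
  have h3 : ⟪M D, M D⟫_ℂ = ⟪D, M D⟫_ℂ := by
    rw [L2.inner_def, L2.inner_def]
    refine integral_congr_ae ?_
    filter_upwards [hM D] with y a1
    rw [a1]
    split_ifs <;> simp
  have h4 : M D = 0 := inner_self_eq_zero.1 (h3.trans h2)
  filter_upwards [hM D, Lp.coeFn_zero ℂ 2 μ, Lp.coeFn_sub (B.hsys.U ((-δ : ℝ) * I) F) F,
    koop_coe (B.mτ ((-δ : ℝ) * I)) F] with y a1 a2 a3 a4 hy
  rw [h4, a2, if_pos hy, hD, a3, Pi.sub_apply] at a1
  have a5 : (B.hsys.U ((-δ : ℝ) * I) F) y = F (B.τ ((-δ : ℝ) * I) y) := a4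
  rw [a5] at a1
  simp only [Pi.zero_apply, ofReal_one, one_mul] at a1
  exact sub_eq_zero.1 a1.symm

theorem MSys.inv_Y (B : MSys μ) {f : Ω → ℂ} (hf : Measurable f) (hb : ∀ y, ‖f y‖ ≤ 1)
    (hi : ∀ t : ℝ, 0 ≤ t → ∀ᵐ y ∂μ, f (B.τ t (B.W t y)) = f y) (u : ℝ) :
    ∀ᵐ y ∂μ, f (B.τ (u * I) y) = f y := by
  have hm : MemLp f 2 μ := MemLp.of_bound hf.aestronglyMeasurable 1 (ae_of_all _ hb)
  have hF : ∀ᵐ y ∂μ, hm.toLp f y = f y := hm.coeFn_toLp
  have hb' : ∀ᵐ y ∂μ, ‖hm.toLp f y‖ ≤ 1 := by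
    filter_upwards [hF] with y h1
    rw [h1]; exact hb y
  have hi' : ∀ t : ℝ, B.hsys.U t (B.hsys.W.E t (hm.toLp f)) = hm.toLp f := by
    intro t
    refine Lp.ext ?_
    filter_upwards [MSys.m1b_koop_koop (B.mτ t) (B.mW t) (hm.toLp f), hF, B.τ_W t t,
      ((B.mW t).comp (B.mτ t)).quasiMeasurePreserving.ae hF, B.inv_diag hi t] with y a1 a2 a3 a4 a5
    refine a1.trans ?_
    rw [a2, ← a5, a3]
    exact a4
  have key : ∀ u : ℝ, 0 < u → ∀ᵐ y ∂μ, f (B.τ (-(u * I)) y) = f y := by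
    intro u hu
    refine B.inv_of_loc hf _ (K := 33 * u) (by positivity) fun δ hδ => ?_
    have e : (δ : ℂ) * -(u * I) = ((-(u * δ) : ℝ) : ℂ) * I := by push_cast; ring
    rw [e]
    filter_upwards [m3_loc B hb' hi' (mul_pos hu hδ), hF,
      (B.mτ (((-(u * δ) : ℝ) : ℂ) * I)).quasiMeasurePreserving.ae hF] with y a1 a2 a3 hy
    rw [← a2, ← a3]
    exact a1 (by linarith)
  rcases lt_trichotomy u 0 with hu | rfl | hu
  · have := key (-u) (by linarith)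
    simpa using this
  · filter_upwards [B.τ_zero] with y h1
    simp [h1]
  · simpa using B.inv_neg (key u hu)

end Crest.Agent.R103
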