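import Crest.Agent.R103.Alg

/-!
# Invariant measures (task Meas)
`toSphere_map`: `Measure.toSphere_apply'` and invariance of `volume` under linear isometries.
`rotD φ` acts on `Sph × {b}` as the linear isometry `v ↦ cos φ • v + sg b sin φ • J v`.
`shift h` is a skew product (translation of the first factor depending on the second).
`dd_meas`: a point of `In` with two small `ell`s is `K η`-close to a vertex (`bary`), and
`volume (ball x r) = π r ^ 2`.
-/

set_option autoImplicit false
set_option linter.unusedSectionVars false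
set_option linter.unusedVariables false

open MeasureTheory Filter Topology Complex
open Crest.AnalysisR.Billiard
open scoped RealInnerProductSpace

noncomputable section

namespace Crest.Agent.R103

theorem toSphere_map (L : Plane ≃ₗᵢ[ℝ] Plane) {f : Sph → Sph} (hf : ∀ v, (f v : Plane) = L v) :
    MeasurePreserving f (volume : Measure Plane).toSphere (volume : Measure Plane).toSphere := by
  have hc : Continuous f := by
    refine continuous_induced_rng.2 ?_
    have : (Subtype.val ∘ f) = fun v : Sph => L v := funext hf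
    rw [this]
    exact L.continuous.comp continuous_subtype_val
  refine ⟨hc.measurable, ?_⟩
  ext s hs
  rw [Measure.map_apply hc.measurable hs, Measure.toSphere_apply' _ (hc.measurable hs),
    Measure.toSphere_apply' _ hs]
  congr 1
  refine Eq.trans ?_
    (L.measurePreserving.measure_preimage_emb L.toHomeomorph.measurableEmbedding _)
  congr 1
  ext x
  simp only [Set.mem_preimage, Set.mem_smul, Set.mem_image]
  constructor
  · rintro ⟨r, hr, _, ⟨v, hv, rfl⟩, rfl⟩
    exact ⟨r, hr, _, ⟨f v, hv, rfl⟩, by rw [hf, map_smul]⟩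
  · rintro ⟨r, hr, _, ⟨w, hw, rfl⟩, hx⟩
    have hw1 : ‖(w : Plane)‖ = 1 := by simp
    let v : Sph := ⟨L.symm w, by simp⟩
    have hv : f v = w := Subtype.ext (by rw [hf]; exact L.apply_symm_apply _)
    refine ⟨r, hr, _, ⟨v, by rw [hv]; exact hw, rfl⟩, ?_⟩
    apply L.injective
    rw [← hx, map_smul]
    exact congrArg _ (L.apply_symm_apply _)

instance : IsFiniteMeasure sig := by
  unfold sig
  infer_instance

instance : SFinite lam := by
  unfold lam
  exact Measure.prod.instSFinite

theorem sig_ne_zero : sig ≠ 0 := by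
  intro h
  have h1 : sig Set.univ = 0 := by rw [h]; rfl
  rw [sig, ← Set.univ_prod_univ, Measure.prod_prod, mul_eq_zero, Measure.measure_univ_eq_zero,
    Measure.count_eq_zero_iff] at h1
  rcases h1 with h1 | h1
  · exact Measure.toSphere_ne_zero _ h1
  · exact Set.univ_nonempty.ne_empty h1

/-- skew product over the second factor -/
theorem measa_skew {α β : Type*} [MeasurableSpace α] [MeasurableSpace β] {μ : Measure α}
    {ν : Measure β} [SFinite μ] [SFinite ν] {g : β → α → α}
    (hgm : Measurable fun p : β × α => g p.1 p.2) (hg : ∀ b, Measure.map (g b) μ = μ) :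
    MeasurePreserving (fun p : α × β => (g p.2 p.1, p.2)) (μ.prod ν) (μ.prod ν) :=
  Measure.measurePreserving_swap.comp
    (((MeasurePreserving.id ν).skew_product (g := g) hgm (Eventually.of_forall hg)).comp
      Measure.measurePreserving_swap)

theorem measa_rotL (φ : ℝ) (b : Bool) : ∃ L : Plane ≃ₗᵢ[ℝ] Plane,
    ∀ v : Sph, L v = fr (v, b) (exp (φ * I)) := by
  let Jl : Plane →ₗ[ℝ] Plane :=
    { toFun := J
      map_add' := fun x y => by ext i; fin_cases i <;> simp [J, add_comm]
      map_smul' := fun c x => by ext i; fin_cases i <;> simp [J] }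
  set h : ℂ := exp (φ * I) with hh
  have h1 : h.re ^ 2 + h.im ^ 2 = 1 := by
    have : ‖h‖ = 1 := Complex.norm_exp_ofReal_mul_I φ
    have h4 : ‖h‖ ^ 2 = h.re ^ 2 + h.im ^ 2 := by
      rw [Complex.sq_norm, Complex.normSq_apply]; ring
    rw [← h4, this, one_pow]
  let M : Plane →ₗ[ℝ] Plane := h.re • LinearMap.id + (sg b * h.im) • Jl
  have hM : ∀ v, M v = h.re • v + (sg b * h.im) • J v := fun v => rfl
  have hn : ∀ v, ‖M v‖ = ‖v‖ := by
    intro v
    rw [← sq_eq_sq₀ (norm_nonneg _) (norm_nonneg _), EuclideanSpace.real_norm_sq_eq,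
      EuclideanSpace.real_norm_sq_eq, Fin.sum_univ_two, Fin.sum_univ_two, hM]
    simp only [J, PiLp.add_apply, PiLp.smul_apply, smul_eq_mul, Matrix.cons_val_zero,
      Matrix.cons_val_one, Matrix.cons_val_fin_one]
    have h3 := sg_sq b
    linear_combination (v 0 ^ 2 + v 1 ^ 2) * h1 + (v 0 ^ 2 + v 1 ^ 2) * h.im ^ 2 * h3
  exact ⟨(⟨M, hn⟩ : Plane →ₗᵢ[ℝ] Plane).toLinearIsometryEquiv rfl, fun v => rfl⟩

theorem mp_rotD (φ : ℝ) : MeasurePreserving (rotD φ) sig sig := by
  refine measa_skew (μ := (volume : Measure Plane).toSphere) (ν := (Measure.count : Measure Bool))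
    (g := fun b v => (rotD φ (v, b)).1) ?_ fun b => ?_
  · exact (continuous_fst.comp (continuous_rotD.comp
      (continuous_const.prodMk continuous_swap))).measurable
  · obtain ⟨L, hL⟩ := measa_rotL φ b
    exact (toSphere_map L fun v => (hL v).symm).map_eq

theorem mp_shift (h : ℂ) : MeasurePreserving (shift h) lam lam := by
  refine measa_skew (μ := (volume : Measure Plane)) (ν := sig)
    (g := fun e x => x + fr e h) ?_ fun e => map_add_right_eq_self _ _
  exact (continuous_snd.add (continuous_fr.comp (continuous_fst.prodMk continuous_const))).measurable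

theorem measa_not : MeasurePreserving (fun b : Bool => !b) Measure.count Measure.count := by
  refine ⟨measurable_of_countable _, Measure.ext_of_singleton fun b => ?_⟩
  rw [Measure.map_apply (measurable_of_countable _) (measurableSet_singleton _)]
  have : (fun b : Bool => !b) ⁻¹' {b} = {!b} := by
    ext c; cases b <;> cases c <;> simp
  rw [this, Measure.count_singleton, Measure.count_singleton]

namespace Tri

variable (T : Tri)

theorem mp_rD (i : Fin 3) : MeasurePreserving (T.rD i) sig sig := by
  obtain ⟨L, hL⟩ := T.exists_mirL i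
  exact (toSphere_map L (f := fun v => ⟨T.mir i v, by simp [T.norm_mir]⟩)
    fun v => (hL v).symm).prod measa_not

theorem mp_refl (i : Fin 3) : MeasurePreserving (T.refl i) lam lam := by
  obtain ⟨L, hL⟩ := T.exists_mirL i
  have h1 : MeasurePreserving (T.rP i) (volume : Measure Plane) volume := by
    have : T.rP i = (fun x => T.rP i 0 + x) ∘ L := by
      funext x
      rw [Function.comp_apply, hL, ← T.rP_add, zero_add]
    rw [this]
    exact (measurePreserving_add_left _ _).comp L.measurePreserving
  exact h1.prod (T.mp_rD i)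

theorem mu_eq : T.mu = lam.restrict {y | y.1 ∈ T.In} := by
  rw [mu, lam, Measure.restrict_prod_eq_prod_univ]
  congr 1
  ext y
  simp

instance : IsFiniteMeasure ((volume : Measure Plane).restrict T.In) :=
  isFiniteMeasure_restrict.2 T.isBounded_In.measure_lt_top.ne

instance : IsFiniteMeasure T.mu := by
  unfold mu
  infer_instance

theorem ae_In : ∀ᵐ y ∂T.mu, y.1 ∈ T.In := by
  rw [mu_eq]
  exact ae_restrict_mem (measurable_fst T.measurableSet_In)

theorem mp_rot (φ : ℝ) : MeasurePreserving (rot φ) T.mu T.mu :=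
  (MeasurePreserving.id ((volume : Measure Plane).restrict T.In)).prod (mp_rotD φ)

theorem ae_ell_ne (i : Fin 3) : ∀ᵐ x ∂(volume : Measure Plane), T.ell i x ≠ 0 := by
  have hmem : ∀ x : Plane,
      x ∈ AffineSubspace.mk' (T.A (i + 1)) (ℝ ∙ T.n i)ᗮ ↔ T.ell i x = 0 := by
    intro x
    rw [AffineSubspace.mem_mk', Submodule.mem_orthogonal_singleton_iff_inner_left, vsub_eq_sub]
    rfl
  have hne : AffineSubspace.mk' (T.A (i + 1)) (ℝ ∙ T.n i)ᗮ ≠ ⊤ := by
    intro h
    have h1 : T.A i ∈ AffineSubspace.mk' (T.A (i + 1)) (ℝ ∙ T.n i)ᗮ := by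
      rw [h]; exact AffineSubspace.mem_top _ _ _
    exact (T.ell_A_pos i).ne' ((hmem _).1 h1)
  have h0 := Measure.addHaar_affineSubspace (volume : Measure Plane) _ hne
  rw [ae_iff]
  convert h0 using 2
  ext x
  simp only [ne_eq, not_not, Set.mem_ofPred_eq, SetLike.mem_coe]
  exact (hmem x).symm

theorem ae_ell_shift_ne (h : ℂ) : ∀ᵐ y ∂T.mu, ∀ i, T.ell i (shift h y).1 ≠ 0 := by
  rw [T.mu_eq]
  apply ae_restrict_of_ae
  have h1 : ∀ᵐ x ∂(volume : Measure Plane), ∀ i, T.ell i x ≠ 0 :=
    ae_all_iff.2 T.ae_ell_ne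
  have h2 : ∀ᵐ y ∂lam, ∀ i, T.ell i y.1 ≠ 0 :=
    (Measure.quasiMeasurePreserving_fst (μ := (volume : Measure Plane)) (ν := sig)).ae h1
  exact (mp_shift h).quasiMeasurePreserving.ae h2

/-- a point of the triangle with small `dd` is close to a vertex -/
theorem Measb_near : ∃ K : ℝ, 0 < K ∧ ∀ η x, x ∈ T.In → T.dd x ≤ η →
    ∃ k, x ∈ Metric.closedBall (T.A k) (K * η) := by
  set K : ℝ := ∑ m, ∑ k, ‖T.A m - T.A k‖ / T.ell m (T.A m) with hK
  have hnn : ∀ m k, 0 ≤ ‖T.A m - T.A k‖ / T.ell m (T.A m) := fun m k =>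
    div_nonneg (norm_nonneg _) (T.ell_A_pos m).le
  have hK0 : 0 ≤ K := Finset.sum_nonneg fun m _ => Finset.sum_nonneg fun k _ => hnn m k
  refine ⟨K + 1, by linarith, fun η x hx hd => ?_⟩
  have key : ∀ k, (∀ m, m ≠ k → T.ell m x ≤ η) → 0 ≤ η →
      x ∈ Metric.closedBall (T.A k) ((K + 1) * η) := by
    intro k hk hη
    rw [mem_closedBall_iff_norm]
    obtain ⟨h1, h2⟩ := T.bary x
    have h3 : x - T.A k = ∑ m, (T.ell m x / T.ell m (T.A m)) • (T.A m - T.A k) := by
      simp only [smul_sub, Finset.sum_sub_distrib]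
      rw [← h2, ← Finset.sum_smul, h1, one_smul]
    rw [h3]
    refine (norm_sum_le _ _).trans ?_
    have h4 : ∀ m, ‖(T.ell m x / T.ell m (T.A m)) • (T.A m - T.A k)‖ ≤
        (∑ k', ‖T.A m - T.A k'‖ / T.ell m (T.A m)) * η := by
      intro m
      by_cases hm : m = k
      · subst hm
        rw [sub_self, smul_zero, norm_zero]
        exact mul_nonneg (Finset.sum_nonneg fun k' _ => hnn _ k') hη
      · rw [norm_smul, Real.norm_eq_abs, abs_of_pos (div_pos (hx m) (T.ell_A_pos m))]
        have h5 : ‖T.A m - T.A k‖ / T.ell m (T.A m) ≤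
            ∑ k', ‖T.A m - T.A k'‖ / T.ell m (T.A m) :=
          Finset.single_le_sum (f := fun k' => ‖T.A m - T.A k'‖ / T.ell m (T.A m))
            (fun k' _ => hnn m k') (Finset.mem_univ k)
        calc T.ell m x / T.ell m (T.A m) * ‖T.A m - T.A k‖
            = ‖T.A m - T.A k‖ / T.ell m (T.A m) * T.ell m x := by ring
          _ ≤ ‖T.A m - T.A k‖ / T.ell m (T.A m) * η :=
            mul_le_mul_of_nonneg_left (hk m hm) (hnn m k)
          _ ≤ _ := mul_le_mul_of_nonneg_right h5 hη
    refine (Finset.sum_le_sum fun m _ => h4 m).trans ?_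
    rw [← Finset.sum_mul, ← hK]
    nlinarith
  have h0 := hx 0
  have h1 := hx 1
  have h2 := hx 2
  unfold dd at hd
  rcases min_le_iff.1 hd with hd | hd
  · obtain ⟨ha, hb⟩ := max_le_iff.1 hd
    refine ⟨2, key 2 (fun m hm => ?_) (by linarith)⟩
    fin_cases m
    · exact ha
    · exact hb
    · exact absurd rfl hm
  rcases min_le_iff.1 hd with hd | hd
  · obtain ⟨ha, hb⟩ := max_le_iff.1 hd
    refine ⟨0, key 0 (fun m hm => ?_) (by linarith)⟩
    fin_cases m
    · exact absurd rfl hm
    · exact ha
    · exact hb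
  · obtain ⟨ha, hb⟩ := max_le_iff.1 hd
    refine ⟨1, key 1 (fun m hm => ?_) (by linarith)⟩
    fin_cases m
    · exact ha
    · exact absurd rfl hm
    · exact hb

theorem dd_meas : ∃ C : ℝ, 0 < C ∧ ∀ η, 0 < η →
    T.mu {y | T.dd y.1 ≤ η} ≤ ENNReal.ofReal (C * η ^ 2) := by
  obtain ⟨K, hK, hnear⟩ := T.Measb_near
  set b : ℝ := (volume : Measure Plane).real (Metric.ball 0 1) with hb
  set s : ℝ := sig.real Set.univ with hs
  have hb0 : 0 ≤ b := measureReal_nonneg
  have hs0 : 0 ≤ s := measureReal_nonneg
  have hb' : (volume : Measure Plane) (Metric.ball 0 1) = ENNReal.ofReal b := by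
    rw [hb, ofReal_measureReal measure_ball_lt_top.ne]
  have hs' : sig Set.univ = ENNReal.ofReal s := by
    rw [hs, ofReal_measureReal]
  refine ⟨3 * K ^ 2 * b * s + 1, by positivity, fun η hη => ?_⟩
  have h1 : {y : St | T.dd y.1 ≤ η} = {x : Plane | T.dd x ≤ η} ×ˢ (Set.univ : Set Dir) := by
    ext y; simp
  have hm : MeasurableSet {x : Plane | T.dd x ≤ η} :=
    measurableSet_le T.continuous_dd.measurable measurable_const
  have h2 : (volume : Measure Plane).restrict T.In {x : Plane | T.dd x ≤ η} ≤
      ENNReal.ofReal (3 * ((K * η) ^ 2 * b)) := by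
    rw [Measure.restrict_apply hm]
    have hsub : {x : Plane | T.dd x ≤ η} ∩ T.In ⊆
        ⋃ k, Metric.closedBall (T.A k) (K * η) := fun x hx =>
      Set.mem_iUnion.2 (hnear η x hx.2 hx.1)
    refine (measure_mono hsub).trans ((measure_iUnion_fintype_le _ _).trans ?_)
    have hball : ∀ k, (volume : Measure Plane) (Metric.closedBall (T.A k) (K * η)) =
        ENNReal.ofReal ((K * η) ^ 2 * b) := by
      intro k
      rw [Measure.addHaar_closedBall _ _ (by positivity), hb', finrank_euclideanSpace_fin,
        ENNReal.ofReal_mul (by positivity)]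
    simp only [hball, Finset.sum_const, Finset.card_univ, Fintype.card_fin, nsmul_eq_mul]
    rw [ENNReal.ofReal_mul (p := 3) (by norm_num)]
    simp
  rw [h1, mu, Measure.prod_prod, hs']
  refine (mul_le_mul_left h2 _).trans ?_
  rw [← ENNReal.ofReal_mul (by positivity)]
  apply ENNReal.ofReal_le_ofReal
  nlinarith [sq_nonneg η]

theorem phase_eq : phaseMeasure T.A =
    ((volume : Measure Plane).restrict T.In).prod (volume : Measure Plane).toSphere := by
  rw [phaseMeasure, T.In_eq]

theorem map_proj : T.mu.map proj = 2 • phaseMeasure T.A := by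
  have h1 : (proj : St → Phase) = Prod.map id Prod.fst := rfl
  have h2 : sig.map Prod.fst = (2 : ENNReal) • (volume : Measure Plane).toSphere := by
    rw [sig, Measure.map_fst_prod, Measure.count_univ]
    simp
  rw [h1, mu, ← Measure.map_prod_map _ _ measurable_id measurable_fst, Measure.map_id, h2,
    Measure.prod_smul_right, T.phase_eq]
  ext s hs
  simp

theorem qmp_proj : Measure.QuasiMeasurePreserving proj T.mu (phaseMeasure T.A) := by
  refine ⟨measurable_fst.prodMk (measurable_fst.comp measurable_snd), ?_⟩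
  rw [T.map_proj]
  intro s hs
  simp [hs]

theorem qmp_emb : Measure.QuasiMeasurePreserving (fun p : Phase => ((p.1, (p.2, true)) : St))
    (phaseMeasure T.A) T.mu := by
  have hm : Measurable fun v : Sph => ((v, true) : Dir) := measurable_id.prodMk measurable_const
  refine ⟨measurable_fst.prodMk (measurable_snd.prodMk measurable_const), ?_⟩
  have h1 : (fun p : Phase => ((p.1, (p.2, true)) : St)) =
      Prod.map id fun v : Sph => ((v, true) : Dir) := rfl
  rw [h1, T.phase_eq, ← Measure.map_prod_map _ _ measurable_id hm, Measure.map_id, mu,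
    ← Measure.prod_dirac, sig]
  refine Measure.AbsolutelyContinuous.rfl.prod (Measure.AbsolutelyContinuous.rfl.prod ?_)
  intro s hs
  rw [Measure.count_eq_zero_iff] at hs
  simp [hs]

end Tri

end Crest.Agent.R103
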