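import Crest.Agent.R103.Alg

/-!
# Finite orbits (task Orb)
Everything is an induction on `Orb`.  `Orb.step`: if `shift h y` is not in `In`, exactly one
`ell i` is `≤ 0` there; hit at `s = ell i x / (ell i x - ell i x')`, then fly freely for the time
`1 - s` (`shift_refl`, `ell_rP`, `norm_rP_sub_le`).
-/

set_option autoImplicit false
set_option linter.unusedSectionVars false
set_option linter.unusedVariables false

open MeasureTheory Filter Topology Complex
open Crest.AnalysisR.Billiard
open scoped RealInnerProductSpace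

noncomputable section

namespace Crest.Agent.R103

namespace Tri

variable {T : Tri} {h : ℂ}

theorem Orb_shift_shift (h : ℂ) (s t : ℝ) (y : St) :
    shift (s * h) (shift (t * h) y) = shift ((t + s : ℝ) * h) y := by
  rw [shift_add]; congr 1; push_cast; ring

theorem Orb_norm_shift (h : ℂ) (s : ℝ) (hs : 0 ≤ s) (y : St) :
    ‖(shift (s * h) y).1 - y.1‖ = s * ‖h‖ := by
  rw [norm_shift_sub, norm_mul, Complex.norm_real, Real.norm_eq_abs, abs_of_nonneg hs]

theorem Orb.nonneg {t : ℝ} {y y' : St} (o : T.Orb h t y y') : 0 ≤ t := by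

  induction o with
  | free t y y' ht _ _ => exact ht
  | hit t s a y y' i ht hs _ _ _ ih => rw [ht]; linarith

theorem Orb.det {t : ℝ} {y y₁ y₂ : St} (o₁ : T.Orb h t y y₁) (o₂ : T.Orb h t y y₂) : y₁ = y₂ := by

  induction o₁ generalizing y₂ with
  | free t y y' ht hin he =>
    cases o₂ with
    | free _ _ _ _ _ he' => rw [he, he']
    | hit _ s a _ _ i ht' hs _ hside o =>
      have ha := Orb.nonneg o
      exact absurd (hin s hs (by linarith)) hside.not_In
  | hit t s a y y' i ht hs hin hside o ih =>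
    have ha := Orb.nonneg o
    cases o₂ with
    | free _ _ _ _ hin' _ => exact absurd (hin' s hs (by linarith)) hside.not_In
    | hit _ s' a' _ _ i' ht' hs' hin' hside' o' =>
      have hss : s = s' := by
        rcases lt_trichotomy s s' with h1 | h1 | h1
        · exact absurd (hin' s hs h1) hside.not_In
        · exact h1
        · exact absurd (hin s' hs' h1) hside'.not_In
      subst hss
      have hi : i = i' := hside.unique hside'
      subst hi
      have haa : a = a' := by linarith
      subst haa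
      exact ih o'

theorem Orb.trans {t t' : ℝ} {y y₁ y₂ : St} (o₁ : T.Orb h t y y₁) (o₂ : T.Orb h t' y₁ y₂) :
    T.Orb h (t + t') y y₂ := by

  induction o₁ with
  | free t y y' ht hin he =>
    subst he
    cases o₂ with
    | free _ _ _ ht' hin' he' =>
      refine Orb.free _ _ _ (by linarith) ?_ ?_
      · intro s hs hst
        by_cases h1 : s ≤ t
        · exact hin s hs h1
        · have := hin' (s - t) (by linarith) (by linarith)
          rw [Orb_shift_shift] at this
          simpa using this
      · rw [he', Orb_shift_shift]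
    | hit _ s a _ _ i ht' hs hin' hside o =>
      rw [Orb_shift_shift] at hside o
      refine Orb.hit _ (t + s) a _ _ i (by rw [ht']; ring) (by linarith) ?_ hside o
      intro s' hs' hst
      by_cases h1 : s' ≤ t
      · exact hin s' hs' h1
      · have := hin' (s' - t) (by linarith) (by linarith)
        rw [Orb_shift_shift] at this
        simpa using this
  | hit t s a y y' i ht hs hin hside o ih =>
    exact Orb.hit _ s (a + t') _ _ i (by rw [ht]; ring) hs hin hside (ih o₂)

theorem Orb.scale {c t : ℝ} (hc : 0 < c) {y y' : St} (o : T.Orb (c * h) t y y') :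
    T.Orb h (c * t) y y' := by

  have key : ∀ s : ℝ, (s : ℂ) * (c * h) = ((c * s : ℝ) : ℂ) * h := by
    intro s; push_cast; ring
  have key' : ∀ s : ℝ, (s : ℂ) * h = ((s / c : ℝ) : ℂ) * (c * h) := by
    intro s
    rw [key]; congr 2; field_simp
  induction o with
  | free t y y' ht hin he =>
    refine Orb.free _ _ _ (by positivity) ?_ ?_
    · intro s hs hst
      rw [key']
      exact hin _ (by positivity) (by rw [div_le_iff₀ hc]; linarith)
    · rw [he, key]
  | hit t s a y y' i ht hs hin hside o ih =>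
    rw [key] at hside ih
    refine Orb.hit _ (c * s) (c * a) _ _ i (by rw [ht]; ring) (by positivity) ?_ hside ih
    intro s' hs' hst
    rw [key']
    exact hin _ (by positivity) (by rw [div_lt_iff₀ hc]; linarith)

theorem Orb.scale' {c t : ℝ} (hc : 0 < c) {y y' : St} (o : T.Orb h (c * t) y y') :
    T.Orb (c * h) t y y' := by

  have hc' : (c : ℂ) ≠ 0 := by exact_mod_cast hc.ne'
  have h1 : h = ((c⁻¹ : ℝ) : ℂ) * (c * h) := by push_cast; field_simp
  rw [h1] at o
  have := Orb.scale (inv_pos.mpr hc) o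
  rwa [← mul_assoc, inv_mul_cancel₀ hc.ne', one_mul] at this

theorem Orb.rot {φ t : ℝ} {y y' : St} (o : T.Orb (exp (φ * I) * h) t y y') :
    T.Orb h t (rot φ y) (rot φ y') := by

  have key : ∀ (s : ℝ) (z : St), shift (s * h) (R103.rot φ z) =
      R103.rot φ (shift (s * (exp (φ * I) * h)) z) := by
    intro s z
    rw [shift_rot]; congr 2; ring
  induction o with
  | free t y y' ht hin he =>
    refine Orb.free _ _ _ ht ?_ ?_
    · intro s hs hst
      rw [key]; exact hin s hs hst
    · rw [he, key]
  | hit t s a y y' i ht hs hin hside o ih =>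
    refine Orb.hit _ s a _ _ i ht hs ?_ ?_ ?_
    · intro s' hs' hst
      rw [key]; exact hin s' hs' hst
    · rw [key]; exact hside
    · rw [key, refl_rot]; exact ih

theorem Orb.dist_le {t : ℝ} {y y' : St} (o : T.Orb h t y y') : ‖y'.1 - y.1‖ ≤ t * ‖h‖ := by

  induction o with
  | free t y y' ht hin he => rw [he, Orb_norm_shift h t ht]
  | hit t s a y y' i ht hs hin hside o ih =>
    have h1 : (T.refl i (shift (s * h) y)).1 = (shift (s * h) y).1 :=
      T.rP_of_ell_eq_zero hside.1
    rw [h1] at ih
    have h2 := Orb_norm_shift h s hs.le y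
    calc ‖y'.1 - y.1‖ ≤ ‖y'.1 - (shift (s * h) y).1‖ + ‖(shift (s * h) y).1 - y.1‖ :=
          norm_sub_le_norm_sub_add_norm_sub _ _ _
      _ ≤ a * ‖h‖ + s * ‖h‖ := by rw [h2]; linarith
      _ = t * ‖h‖ := by rw [ht]; ring

theorem Orb.of_In {y : St} (hy : y.1 ∈ T.In) (hy' : (shift h y).1 ∈ T.In) :
    T.Orb h 1 y (shift h y) := by

  refine Orb.free _ _ _ zero_le_one ?_ (by simp)
  intro s hs hs1 i
  have h0 := hy i
  have h1 := hy' i
  have e1 := T.ell_shift i 1 h y
  simp only [Complex.ofReal_one, one_mul] at e1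
  rw [e1] at h1
  rw [T.ell_shift]
  nlinarith

theorem Orb.step {y : St} (hy : y.1 ∈ T.In) (hd : 2 * ‖h‖ < T.dd y.1) :
    T.Orb h 1 y (T.step h y) := by

  by_cases hin : (shift h y).1 ∈ T.In
  · rw [Tri.step, T.fold_of_In hin]; exact Orb.of_In hy hin
  have hex : ∃ i, T.ell i (shift h y).1 ≤ 0 := by
    by_contra hc
    push Not at hc
    exact hin hc
  obtain ⟨i, hi⟩ := hex
  have hn := norm_nonneg h
  have hx : T.ell i y.1 ≤ ‖h‖ := by
    have := T.ell_lip i (shift h y).1 y.1
    rw [norm_shift_sub] at this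
    have := (abs_le.mp this).1
    linarith
  have hj : ∀ j, j ≠ i → 2 * ‖h‖ < T.ell j y.1 := by
    intro j hji
    rcases (T.lt_dd_iff _ _).mp hd j i hji with h1 | h1
    · exact h1
    · linarith
  have hnear : ∀ j, j ≠ i → ∀ z : Plane, ‖z - y.1‖ ≤ ‖h‖ → 0 < T.ell j z := by
    intro j hji z hz
    have h1 := hj j hji
    have h2 := (abs_le.mp (T.ell_lip j z y.1)).1
    linarith
  set a := T.ell i y.1 with ha
  set b := ⟪fr y.2 h, T.n i⟫ with hb
  have ha0 : 0 < a := hy i
  have hell : ∀ s : ℝ, T.ell i (shift (s * h) y).1 = a + s * b := fun s => T.ell_shift i s h y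
  have hab : a + b ≤ 0 := by
    have := hell 1
    simp only [Complex.ofReal_one, one_mul] at this
    linarith
  have hb0 : 0 < -b := by linarith
  set s₀ := a / (-b) with hs₀
  have hs0 : 0 < s₀ := div_pos ha0 hb0
  have hs1 : s₀ ≤ 1 := by rw [hs₀, div_le_one hb0]; linarith
  have hsb : a + s₀ * b = 0 := by
    rw [hs₀]; have : b ≠ 0 := by linarith
    field_simp; ring
  have hmove : ∀ s : ℝ, 0 ≤ s → s ≤ 1 → ‖(shift (s * h) y).1 - y.1‖ ≤ ‖h‖ := by
    intro s h0 h1
    rw [Orb_norm_shift h s h0]; nlinarith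
  refine Orb.hit 1 s₀ (1 - s₀) _ _ i (by ring) hs0 ?_ ?_ ?_
  · intro s' hs' hlt j
    by_cases hji : j = i
    · subst hji
      rw [hell]; nlinarith
    · exact hnear j hji _ (hmove s' hs'.le (by linarith))
  · exact ⟨by rw [hell, hsb], fun j hji => hnear j hji _ (hmove s₀ hs0.le hs1)⟩
  · refine Orb.free _ _ _ (by linarith) ?_ ?_
    · intro s hs hle j
      rw [shift_refl, Orb_shift_shift]
      change 0 < T.ell j (T.rP i (shift ((s₀ + s : ℝ) * h) y).1)
      have hneg : T.ell i (shift ((s₀ + s : ℝ) * h) y).1 < 0 := by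
        rw [hell]; nlinarith
      by_cases hji : j = i
      · subst hji
        rw [ell_rP]; linarith
      · refine hnear j hji _ ?_
        exact (T.norm_rP_sub_le ha0.le hneg.le).trans (hmove _ (by linarith) (by linarith))
    · rw [shift_refl, Orb_shift_shift, Tri.step,
        T.fold_of_le hi (fun j hji => hnear j hji _ (norm_shift_sub h y).le)]
      simp

theorem Orb.iterate {n : ℕ} {y : St} (hy : y ∈ T.Gd h n) : T.Orb h n y ((T.step h)^[n] y) := by

  induction n with
  | zero =>
    refine Orb.free _ _ _ (by simp) ?_ (by simp [shift_zero])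
    intro s hs hle
    simp at hle
    linarith
  | succ n ih =>
    have h1 : y ∈ T.Gd h n := fun i hi => hy i (by omega)
    have h2 := hy n (by omega)
    rw [Function.iterate_succ_apply']
    have := Orb.trans (ih h1) (Orb.step h2.1 h2.2)
    simpa using this

theorem Orb.of_Gd {n : ℕ} {y : St} (hy : y ∈ T.Gd (h / (n + 1)) (n + 1)) :
    T.Orb h 1 y ((T.step (h / (n + 1)))^[n + 1] y) := by

  have h1 := Orb.iterate hy
  have hc : (0 : ℝ) < (n : ℝ) + 1 := by positivity
  have h2 : T.Orb (h / (n + 1)) (((n : ℝ) + 1) * 1) y ((T.step (h / (n + 1)))^[n + 1] y) := by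
    simpa using h1
  have h3 := Orb.scale' hc h2
  have hc' : ((n : ℂ) + 1) ≠ 0 := by exact_mod_cast hc.ne'
  have h4 : ((((n : ℝ) + 1 : ℝ)) : ℂ) * (h / (n + 1)) = h := by
    push_cast; field_simp
  rwa [h4] at h3

theorem Orb.tau {n : ℕ} {y : St} (hy : y ∈ T.Gd (h / (n + 1)) (n + 1)) :
    T.Orb h 1 y (T.tau h y) := by

  classical
  have H : ∃ n : ℕ, y ∈ T.Gd (h / (n + 1)) (n + 1) := ⟨n, hy⟩
  rw [Tri.tau, dif_pos H]
  exact Orb.of_Gd (Nat.find_spec H)

end Tri

end Crest.Agent.R103
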