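import Crest.Agent.R103.Meas

/-!
# Short steps (task Step)
`step_sub`: let `E = {y.1 ∈ In, 2 ‖h‖ < dd y.1}`.  Up to the null set `ae_ell_shift_ne`, `E` splits
into `E⋆ = {shift h y ∈ In}` (`step = shift h`) and `E i = {ell i (shift h y) < 0}`
(`step = refl i ∘ shift h`).  These maps preserve `lam` and send the pieces into the disjoint subsets
`F⋆ = {shift (-h) y' ∈ In}`, `F i = {ell i (shift (-h) y') < 0, ell j (shift (-h) y') > 0 (j ≠ i)}`
of `{y'.1 ∈ In}` (note `shift (-h) (refl i (shift h y)) = refl i y`, and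
`‖rP i x - x‖ = 2 ell i x ≤ 2 ‖h‖`).
`step_add`: at most one side `i` is within `2 (‖h‖ + ‖k‖)` of `y.1`; `shift_refl`, `refl_refl`.
-/

set_option autoImplicit false
set_option linter.unusedSectionVars false
set_option linter.unusedVariables false

open MeasureTheory Filter Topology Complex
open Crest.AnalysisR.Billiard
open scoped RealInnerProductSpace

noncomputable section

namespace Crest.Agent.R103

namespace Tri

variable (T : Tri)

theorem Step_near {x : Plane} {r : ℝ} (hd : r < T.dd x) : ∃ i, ∀ j, j ≠ i → r < T.ell j x := by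
  rw [lt_dd_iff] at hd
  by_cases h : ∀ j, r < T.ell j x
  · exact ⟨0, fun j _ => h j⟩
  · obtain ⟨i, hi⟩ := not_forall.1 h
    exact ⟨i, fun j hj => (hd j i hj).resolve_right hi⟩

theorem Step_pos {x x' : Plane} {r : ℝ} {j : Fin 3} (h : r < T.ell j x) (h' : ‖x' - x‖ ≤ r) :
    0 < T.ell j x' := by
  have := (abs_le.1 (T.ell_lip j x' x)).1
  linarith

theorem Step_In {x : Plane} {i : Fin 3} (h : 0 < T.ell i x) (h' : ∀ j, j ≠ i → 0 < T.ell j x) :
    x ∈ T.In := by
  intro j
  by_cases hj : j = i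
  · rw [hj]; exact h
  · exact h' j hj

theorem Step_refl_dist {x : Plane} {i : Fin 3} {h : ℂ} {y : St} (hy : y.1 ∈ T.In)
    (hz : T.ell i (shift h y).1 ≤ 0) : ‖(T.refl i (shift h y)).1 - y.1‖ ≤ ‖h‖ := by
  have := T.norm_rP_sub_le (hy i).le hz
  rw [norm_shift_sub] at this
  exact this

theorem Step_shift_dist (k : ℂ) (w : St) (x : Plane) :
    ‖(shift k w).1 - x‖ ≤ ‖k‖ + ‖w.1 - x‖ := by
  rw [← norm_shift_sub k w]
  exact norm_sub_le_norm_sub_add_norm_sub _ _ _

/-- the target pieces -/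
def StepF (h : ℂ) : Option (Fin 3) → Set St
  | none => {y | y.1 ∈ T.In ∧ (shift (-h) y).1 ∈ T.In}
  | some i => {y | y.1 ∈ T.In ∧ T.ell i (shift (-h) y).1 < 0 ∧
      ∀ j, j ≠ i → 0 < T.ell j (shift (-h) y).1}

/-- the maps on the pieces -/
def StepM (h : ℂ) : Option (Fin 3) → St → St
  | none => shift h
  | some i => T.refl i ∘ shift h

theorem StepM_mp (h : ℂ) (o : Option (Fin 3)) : MeasurePreserving (T.StepM h o) lam lam := by
  cases o with
  | none => exact mp_shift h
  | some i => exact (T.mp_refl i).comp (mp_shift h)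

theorem StepF_In (h : ℂ) (o : Option (Fin 3)) : T.StepF h o ⊆ {y | y.1 ∈ T.In} := by
  cases o with
  | none => exact fun y hy => hy.1
  | some i => exact fun y hy => hy.1

theorem StepF_meas (h : ℂ) (o : Option (Fin 3)) : MeasurableSet (T.StepF h o) := by
  have h1 : Measurable (fun y : St => (shift (-h) y).1) := measurable_fst.comp (measurable_shift _)
  have h2 : ∀ i, Measurable (fun y : St => T.ell i (shift (-h) y).1) :=
    fun i => (T.continuous_ell i).measurable.comp h1
  have h3 : MeasurableSet {y : St | y.1 ∈ T.In} := measurable_fst T.measurableSet_In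
  cases o with
  | none => exact h3.inter (h1 T.measurableSet_In)
  | some i =>
    refine h3.inter ((measurableSet_lt (h2 i) measurable_const).inter ?_)
    have : {y : St | ∀ j, j ≠ i → 0 < T.ell j (shift (-h) y).1} =
        ⋂ j, ⋂ _ : j ≠ i, {y : St | 0 < T.ell j (shift (-h) y).1} := by
      ext y; simp
    show MeasurableSet {y : St | ∀ j, j ≠ i → 0 < T.ell j (shift (-h) y).1}
    rw [this]
    exact MeasurableSet.iInter fun j => MeasurableSet.iInter fun _ =>
      measurableSet_lt measurable_const (h2 j)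

theorem StepF_disj (h : ℂ) : Pairwise (Function.onFun Disjoint (T.StepF h)) := by
  intro a b hab
  rw [Function.onFun, Set.disjoint_left]
  intro y ha hb
  cases a with
  | none =>
    cases b with
    | none => exact hab rfl
    | some j => exact lt_asymm hb.2.1 (ha.2 j)
  | some i =>
    cases b with
    | none => exact lt_asymm ha.2.1 (hb.2 i)
    | some j => exact lt_asymm ha.2.1 (hb.2.2 i (fun e => hab (by rw [e])))

theorem Step_piece {h : ℂ} {y : St} (hy : y.1 ∈ T.In) (hd : 2 * ‖h‖ < T.dd y.1)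
    (hg : ∀ i, T.ell i (shift h y).1 ≠ 0) :
    ∃ o, T.step h y = T.StepM h o y ∧ T.StepM h o y ∈ T.StepF h o := by
  obtain ⟨i, hi⟩ := T.Step_near hd
  have hn := norm_nonneg h
  have hz : ∀ j, j ≠ i → 0 < T.ell j (shift h y).1 := fun j hj =>
    T.Step_pos (hi j hj) (by rw [norm_shift_sub]; linarith)
  have hback : shift (-h) (shift h y) = y := by rw [shift_add, add_neg_cancel, shift_zero]
  rcases lt_or_gt_of_ne (hg i) with h1 | h1
  · have hdist := T.Step_refl_dist (x := y.1) hy h1.le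
    refine ⟨some i, T.fold_of_le h1.le hz, ?_, ?_, ?_⟩
    · refine T.Step_In (i := i) ?_ (fun j hj => T.Step_pos (hi j hj) ?_)
      · show 0 < T.ell i (T.rP i (shift h y).1)
        rw [ell_rP]; linarith
      · exact hdist.trans (by linarith)
    · show T.ell i (shift (-h) (T.refl i (shift h y))).1 < 0
      rw [shift_refl, hback]
      show T.ell i (T.rP i y.1) < 0
      rw [ell_rP]; linarith [hy i]
    · intro j hj
      refine T.Step_pos (hi j hj) ?_
      have := Step_shift_dist (-h) (T.refl i (shift h y)) y.1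
      rw [norm_neg] at this
      show ‖(shift (-h) (T.refl i (shift h y))).1 - y.1‖ ≤ 2 * ‖h‖
      linarith
  · have hin := T.Step_In h1 hz
    refine ⟨none, T.fold_of_In hin, hin, ?_⟩
    show (shift (-h) (shift h y)).1 ∈ T.In
    rw [hback]; exact hy

theorem step_sub (h : ℂ) {B : Set St} (hB : MeasurableSet B) :
    T.mu ({y | y.1 ∈ T.In ∧ 2 * ‖h‖ < T.dd y.1} ∩ T.step h ⁻¹' B) ≤ T.mu B := by
  have h1 : ({y | y.1 ∈ T.In ∧ 2 * ‖h‖ < T.dd y.1} ∩ T.step h ⁻¹' B : Set St) ≤ᵐ[T.mu]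
      (⋃ o, T.StepM h o ⁻¹' (B ∩ T.StepF h o) : Set St) := by
    filter_upwards [T.ae_ell_shift_ne h] with y hg hy
    obtain ⟨o, h1, h2⟩ := T.Step_piece hy.1.1 hy.1.2 hg
    exact Set.mem_iUnion.2 ⟨o, h1 ▸ hy.2, h2⟩
  refine (measure_mono_ae h1).trans ?_
  have hm : ∀ o, MeasurableSet (B ∩ T.StepF h o) := fun o => hB.inter (T.StepF_meas h o)
  rw [mu_eq, Measure.restrict_apply hB]
  calc lam.restrict {y | y.1 ∈ T.In} (⋃ o, T.StepM h o ⁻¹' (B ∩ T.StepF h o))
      ≤ lam (⋃ o, T.StepM h o ⁻¹' (B ∩ T.StepF h o)) := Measure.restrict_apply_le _ _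
    _ ≤ ∑' o, lam (T.StepM h o ⁻¹' (B ∩ T.StepF h o)) := measure_iUnion_le _
    _ = ∑' o, lam (B ∩ T.StepF h o) :=
        tsum_congr fun o => (T.StepM_mp h o).measure_preimage (hm o).nullMeasurableSet
    _ = lam (⋃ o, B ∩ T.StepF h o) :=
        (measure_iUnion (fun a b hab => (T.StepF_disj h hab).mono Set.inter_subset_right
          Set.inter_subset_right) hm).symm
    _ ≤ lam (B ∩ {y | y.1 ∈ T.In}) :=
        measure_mono (Set.iUnion_subset fun o => Set.inter_subset_inter_right _ (T.StepF_In h o))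

theorem step_add {h k : ℂ} {y : St} (hy : y.1 ∈ T.In) (hd : 2 * (‖h‖ + ‖k‖) < T.dd y.1)
    (hg : ∀ i, T.ell i (shift (h + k) y).1 ≠ 0) : T.step k (T.step h y) = T.step (h + k) y := by
  obtain ⟨i, hi⟩ := T.Step_near hd
  have hn := norm_nonneg h
  have hk := norm_nonneg k
  have hz : ∀ j, j ≠ i → 0 < T.ell j (shift h y).1 := fun j hj =>
    T.Step_pos (hi j hj) (by rw [norm_shift_sub]; linarith)
  have hz' : ∀ j, j ≠ i → 0 < T.ell j (shift (h + k) y).1 := fun j hj =>
    T.Step_pos (hi j hj) (by rw [norm_shift_sub]; linarith [norm_add_le h k])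
  rcases le_or_gt (T.ell i (shift h y).1) 0 with h1 | h1
  · have e1 : T.step h y = T.refl i (shift h y) := T.fold_of_le h1 hz
    have hdist := T.Step_refl_dist (x := y.1) hy h1
    have e2 : shift k (T.refl i (shift h y)) = T.refl i (shift (h + k) y) := by
      rw [shift_refl, shift_add]
    have hw : ∀ j, j ≠ i → 0 < T.ell j (T.refl i (shift (h + k) y)).1 := fun j hj => by
      refine T.Step_pos (hi j hj) ?_
      have := Step_shift_dist k (T.refl i (shift h y)) y.1
      rw [e2] at this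
      linarith
    have e3 : T.ell i (T.refl i (shift (h + k) y)).1 = -T.ell i (shift (h + k) y).1 :=
      T.ell_rP i _
    rw [e1]
    show T.fold (shift k (T.refl i (shift h y))) = T.fold (shift (h + k) y)
    rw [e2]
    rcases lt_or_gt_of_ne (hg i) with h2 | h2
    · rw [T.fold_of_le h2.le hz', T.fold_of_In (T.Step_In (i := i) (by linarith) hw)]
    · rw [T.fold_of_In (T.Step_In h2 hz'), T.fold_of_le (i := i) (by linarith) hw, refl_refl]
  · have e1 : T.step h y = shift h y := T.fold_of_In (T.Step_In h1 hz)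
    rw [e1]
    show T.fold (shift k (shift h y)) = T.fold (shift (h + k) y)
    rw [shift_add]

theorem Gd_succ (h : ℂ) (n : ℕ) : T.Gd h (n + 1) =
    {y | y.1 ∈ T.In ∧ 2 * ‖h‖ < T.dd y.1} ∩ T.step h ⁻¹' T.Gd h n := by
  ext y
  constructor
  · intro hy
    refine ⟨hy 0 (Nat.succ_pos n), fun i hi => ?_⟩
    have := hy (i + 1) (Nat.succ_lt_succ hi)
    rwa [Function.iterate_succ_apply] at this
  · rintro ⟨h0, h1⟩ i hi
    cases i with
    | zero => exact h0
    | succ i =>
      rw [Function.iterate_succ_apply]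
      exact h1 i (Nat.lt_of_succ_lt_succ hi)

theorem Gd_sub (h : ℂ) (n : ℕ) {B : Set St} (hB : MeasurableSet B) :
    T.mu (T.Gd h n ∩ (T.step h)^[n] ⁻¹' B) ≤ T.mu B := by
  induction n with
  | zero => exact measure_mono Set.inter_subset_right
  | succ n ih =>
    refine le_trans (le_of_eq ?_) ((T.step_sub h
      ((T.measurableSet_Gd h n).inter ((T.measurable_step h).iterate n hB))).trans ih)
    rw [Gd_succ, Set.preimage_inter, Set.inter_assoc]
    rfl

theorem Gd_compl (h : ℂ) (n : ℕ) :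
    T.mu (T.Gd h n)ᶜ ≤ n * T.mu {y | T.dd y.1 ≤ 2 * ‖h‖} := by
  induction n with
  | zero =>
    have : (T.Gd h 0)ᶜ = ∅ := by
      rw [Set.compl_empty_iff]
      exact Set.eq_univ_of_forall fun y i hi => absurd hi (Nat.not_lt_zero i)
    rw [this, measure_empty]
    exact zero_le
  | succ n ih =>
    have h1 : ((T.Gd h (n + 1))ᶜ : Set St) ≤ᵐ[T.mu]
        (({y | y.1 ∈ T.In ∧ 2 * ‖h‖ < T.dd y.1} ∩ T.step h ⁻¹' (T.Gd h n)ᶜ) ∪
          {y | T.dd y.1 ≤ 2 * ‖h‖} : Set St) := by
      filter_upwards [T.ae_In] with y hy hc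
      by_cases hd : T.dd y.1 ≤ 2 * ‖h‖
      · exact Or.inr hd
      · refine Or.inl ⟨⟨hy, not_le.1 hd⟩, fun hG => hc ?_⟩
        rw [Gd_succ]
        exact ⟨⟨hy, not_le.1 hd⟩, hG⟩
    refine (measure_mono_ae h1).trans ((measure_union_le _ _).trans ?_)
    rw [Nat.cast_succ, add_mul, one_mul]
    exact add_le_add ((T.step_sub h (T.measurableSet_Gd h n).compl).trans ih) le_rfl

/-- use `dd_meas` with `η = (2 ‖h‖ + 1) / (n + 1)` -/
theorem tendsto_Gd_compl (h : ℂ) :
    Tendsto (fun n : ℕ => T.mu (T.Gd (h / (n + 1)) (n + 1))ᶜ) atTop (𝓝 0) := by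
  obtain ⟨C, hC, hd⟩ := T.dd_meas
  have h0 : Tendsto (fun n : ℕ => ENNReal.ofReal (C * (2 * ‖h‖ + 1) ^ 2 * (1 / ((n : ℝ) + 1))))
      atTop (𝓝 0) := by
    have := (tendsto_one_div_add_atTop_nhds_zero_nat (𝕜 := ℝ)).const_mul (C * (2 * ‖h‖ + 1) ^ 2)
    rw [mul_zero] at this
    simpa using ENNReal.tendsto_ofReal this
  refine tendsto_of_tendsto_of_tendsto_of_le_of_le tendsto_const_nhds h0 (fun _ => zero_le)
    (fun n => ?_)
  have hn : (0 : ℝ) < (n : ℝ) + 1 := by positivity
  have hη : 0 < (2 * ‖h‖ + 1) / ((n : ℝ) + 1) := by positivity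
  have hnorm : ‖h / ((n : ℂ) + 1)‖ = ‖h‖ / ((n : ℝ) + 1) := by
    rw [norm_div]
    congr 1
    exact_mod_cast Complex.norm_natCast (n + 1)
  have h1 : T.mu {y | T.dd y.1 ≤ 2 * ‖h / ((n : ℂ) + 1)‖} ≤
      ENNReal.ofReal (C * ((2 * ‖h‖ + 1) / ((n : ℝ) + 1)) ^ 2) := by
    refine le_trans (measure_mono fun y hy => ?_) (hd _ hη)
    refine le_trans (show T.dd y.1 ≤ _ from hy) ?_
    rw [hnorm, ← mul_div_assoc]
    exact div_le_div_of_nonneg_right (by linarith) hn.le
  refine (T.Gd_compl _ _).trans ((mul_le_mul_right h1 _).trans (le_of_eq ?_))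
  rw [← ENNReal.ofReal_natCast, ← ENNReal.ofReal_mul (Nat.cast_nonneg _)]
  congr 1
  push_cast
  field_simp

theorem ae_Gd (h : ℂ) : ∀ᵐ y ∂T.mu, ∃ n : ℕ, y ∈ T.Gd (h / (n + 1)) (n + 1) := by
  rw [ae_iff, ← nonpos_iff_eq_zero]
  refine ge_of_tendsto' (T.tendsto_Gd_compl h) (fun n => measure_mono fun y hy hG => hy ⟨n, hG⟩)

end Tri

end Crest.Agent.R103
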