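import Crest.Agent.R103.Step
import Crest.Agent.R103.Orb

/-!
# The billiard is a system (task Tau)
`mp_tau`: on `Gd (h/(n+1)) (n+1)`, `tau h = step^[n+1]` (`Orb.det`), so
`mu (tau h ⁻¹' B) ≤ mu B + mu Gdᶜ`; let `n → ∞`, and apply the inequality to `B` and `Bᶜ`.
`tau_add_pos`: `Orb.trans`, `Orb.scale`, `Orb.det`.  `tau_neg`: by `tau_loc`, `tau (-h/n) ∘ tau (h/n)`
is the identity off `{dd ≤ 8 ‖h‖ / n}`; induction on `j` gives
`mu {tau (-j h/n) (tau (j h/n) y) ≠ y} ≤ j C (8 ‖h‖ + 1) ^ 2 / n ^ 2`.  `tau_add`: cases on signs.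
`tau_cont`: for `y.1 ∈ In` (open) and small `h`, `tau h y = shift h y` (`tau_shift`).
-/

set_option autoImplicit false
set_option linter.unusedSectionVars false
set_option linter.unusedVariables false

open MeasureTheory Filter Topology Complex
open Crest.AnalysisR.Billiard
open scoped RealInnerProductSpace

noncomputable section

namespace Crest.Agent.R103

namespace Tri

variable (T : Tri)

theorem ae_orb (h : ℂ) : ∀ᵐ y ∂T.mu, T.Orb h 1 y (T.tau h y) := by
  filter_upwards [T.ae_Gd h] with y hy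
  obtain ⟨n, hn⟩ := hy
  exact Orb.tau hn

theorem Tau_le (h : ℂ) {B : Set St} (hB : MeasurableSet B) :
    T.mu (T.tau h ⁻¹' B) ≤ T.mu B := by
  have key : ∀ n : ℕ, T.mu (T.tau h ⁻¹' B) ≤
      T.mu B + T.mu (T.Gd (h / (n + 1)) (n + 1))ᶜ := by
    intro n
    have hsub : T.tau h ⁻¹' B ⊆
        (T.Gd (h / (n + 1)) (n + 1) ∩ (T.step (h / (n + 1)))^[n + 1] ⁻¹' B) ∪
          (T.Gd (h / (n + 1)) (n + 1))ᶜ := by
      intro y hy
      by_cases hG : y ∈ T.Gd (h / (n + 1)) (n + 1)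
      · left
        refine ⟨hG, ?_⟩
        have e : T.tau h y = (T.step (h / (n + 1)))^[n + 1] y :=
          Orb.det (Orb.tau hG) (Orb.of_Gd hG)
        have : T.tau h y ∈ B := hy
        rw [e] at this
        exact this
      · right
        exact hG
    calc T.mu (T.tau h ⁻¹' B) ≤ _ := measure_mono hsub
      _ ≤ _ := measure_union_le _ _
      _ ≤ _ := add_le_add (T.Gd_sub _ _ hB) le_rfl
  have ht : Tendsto (fun n : ℕ => T.mu B + T.mu (T.Gd (h / (n + 1)) (n + 1))ᶜ) atTop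
      (𝓝 (T.mu B + 0)) := tendsto_const_nhds.add (T.tendsto_Gd_compl h)
  rw [add_zero] at ht
  exact ge_of_tendsto' ht key

theorem mp_tau (h : ℂ) : MeasurePreserving (T.tau h) T.mu T.mu := by
  refine ⟨T.measurable_tau h, ?_⟩
  ext B hB
  rw [Measure.map_apply (T.measurable_tau h) hB]
  refine le_antisymm (T.Tau_le h hB) ?_
  have h1 := T.Tau_le h hB.compl
  have h2 : T.mu (T.tau h ⁻¹' B) + T.mu (T.tau h ⁻¹' Bᶜ) = T.mu Set.univ := by
    rw [Set.preimage_compl]
    exact measure_add_measure_compl (T.measurable_tau h hB)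
  have h3 : T.mu B + T.mu Bᶜ = T.mu Set.univ := measure_add_measure_compl hB
  have h4 : T.mu B + T.mu Bᶜ ≤ T.mu (T.tau h ⁻¹' B) + T.mu Bᶜ := by
    rw [h3, ← h2]
    exact add_le_add le_rfl h1
  exact (ENNReal.add_le_add_iff_right (measure_ne_top _ _)).1 h4

theorem tau_shift (h : ℂ) : ∀ᵐ y ∂T.mu, (shift h y).1 ∈ T.In → T.tau h y = shift h y := by
  filter_upwards [T.ae_orb h, T.ae_In] with y ho hy h'
  exact Orb.det ho (Orb.of_In hy h')

theorem tau_step (h : ℂ) : ∀ᵐ y ∂T.mu, 2 * ‖h‖ < T.dd y.1 → T.tau h y = T.step h y := by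
  filter_upwards [T.ae_orb h, T.ae_In] with y ho hy h'
  exact Orb.det ho (Orb.step hy h')

theorem tau_zero : ∀ᵐ y ∂T.mu, T.tau 0 y = y := by
  filter_upwards [T.tau_shift 0, T.ae_In] with y h hy
  rw [shift_zero] at h
  exact h hy

theorem dd_tau (h : ℂ) : ∀ᵐ y ∂T.mu, |T.dd (T.tau h y).1 - T.dd y.1| ≤ ‖h‖ := by
  filter_upwards [T.ae_orb h] with y ho
  have := Orb.dist_le ho
  rw [one_mul] at this
  exact (T.dd_lip _ _).trans this

theorem tau_loc (h k : ℂ) :
    ∀ᵐ y ∂T.mu, 4 * (‖h‖ + ‖k‖) < T.dd y.1 → T.tau k (T.tau h y) = T.tau (h + k) y := by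
  have h1 := (T.mp_tau h).quasiMeasurePreserving.ae (T.tau_step k)
  filter_upwards [h1, T.tau_step h, T.tau_step (h + k), T.dd_tau h, T.ae_In,
    T.ae_ell_shift_ne (h + k)] with y a1 a2 a3 a4 hy hg hd
  have hh := norm_nonneg h
  have hk := norm_nonneg k
  have hhk := norm_add_le h k
  have a5 := abs_le.1 a4
  rw [a1 (by linarith [a5.1]), a2 (by linarith), a3 (by linarith)]
  exact T.step_add hy (by linarith) hg

theorem tau_add_pos (h : ℂ) {s t : ℝ} (hs : 0 ≤ s) (ht : 0 ≤ t) :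
    ∀ᵐ y ∂T.mu, T.tau (s * h) (T.tau (t * h) y) = T.tau ((s + t : ℝ) * h) y := by
  rcases ht.eq_or_lt with rfl | ht
  · filter_upwards [T.tau_zero] with y hy
    simp only [Complex.ofReal_zero, zero_mul, add_zero, hy]
  rcases hs.eq_or_lt with rfl | hs
  · filter_upwards [(T.mp_tau (t * h)).quasiMeasurePreserving.ae T.tau_zero] with y hy
    simp only [Complex.ofReal_zero, zero_mul, zero_add, hy]
  have h1 := (T.mp_tau (t * h)).quasiMeasurePreserving.ae (T.ae_orb (s * h))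
  filter_upwards [h1, T.ae_orb (t * h), T.ae_orb ((s + t : ℝ) * h)] with y a1 a2 a3
  have b := Orb.trans (Orb.scale ht a2) (Orb.scale hs a1)
  have c := Orb.scale (add_pos hs ht) a3
  have e : t * 1 + s * 1 = (s + t) * 1 := by ring
  rw [e] at b
  exact Orb.det b c

theorem Tau_neg_aux (k : ℂ) (j : ℕ) :
    T.mu {y | T.tau ((j : ℝ) * (-k)) (T.tau ((j : ℝ) * k) y) ≠ y} ≤
      j * T.mu {y | T.dd y.1 ≤ 8 * ‖k‖} := by
  induction j with
  | zero =>
    have h1 := (T.mp_tau 0).quasiMeasurePreserving.ae T.tau_zero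
    have h2 : ∀ᵐ y ∂T.mu, T.tau (((0 : ℕ) : ℝ) * (-k)) (T.tau (((0 : ℕ) : ℝ) * k) y) = y := by
      filter_upwards [h1, T.tau_zero] with y a1 a2
      simp only [Nat.cast_zero, Complex.ofReal_zero, zero_mul]
      rw [a1, a2]
    rw [ae_iff] at h2
    rw [h2]
    exact zero_le
  | succ j ih =>
    have hj : (0 : ℝ) ≤ j := Nat.cast_nonneg j
    have hD : MeasurableSet {y : St | T.dd y.1 ≤ 8 * ‖k‖} :=
      measurableSet_le (T.continuous_dd.comp continuous_fst).measurable measurable_const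
    have m := T.mp_tau ((j : ℝ) * k)
    have h1 := T.tau_add_pos k zero_le_one hj
    have h2 := (T.mp_tau (((1 : ℝ) + j : ℝ) * k)).quasiMeasurePreserving.ae
      (T.tau_add_pos (-k) hj zero_le_one)
    have h3 := m.quasiMeasurePreserving.ae (T.tau_loc k (-k))
    have h4 := m.quasiMeasurePreserving.ae T.tau_zero
    have hsub : {y | T.tau (((j + 1 : ℕ) : ℝ) * (-k)) (T.tau (((j + 1 : ℕ) : ℝ) * k) y) ≠ y} ≤ᵐ[T.mu]
        (({y | T.tau ((j : ℝ) * (-k)) (T.tau ((j : ℝ) * k) y) ≠ y} ∪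
          T.tau ((j : ℝ) * k) ⁻¹' {y | T.dd y.1 ≤ 8 * ‖k‖} : Set St)) := by
      filter_upwards [h1, h2, h3, h4] with y a1 a2 a3 a4 hy
      by_contra hc
      have hc' : y ∉ ({y | T.tau ((j : ℝ) * (-k)) (T.tau ((j : ℝ) * k) y) ≠ y} ∪
          T.tau ((j : ℝ) * k) ⁻¹' {y | T.dd y.1 ≤ 8 * ‖k‖} : Set St) := hc
      simp only [Set.mem_union, Set.mem_ofPred_eq, Set.mem_preimage, not_or, not_not, not_le] at hc'
      obtain ⟨c1, c2⟩ := hc'
      apply hy
      have e1 : (((j + 1 : ℕ) : ℝ)) = (1 : ℝ) + j := by push_cast; ring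
      have e2 : (1 : ℝ) + j = j + 1 := by ring
      have a3' := a3 (by rw [norm_neg]; linarith)
      rw [add_neg_cancel, a4] at a3'
      rw [e1]
      conv_lhs => enter [2]; rw [e2]
      rw [← a2, ← a1]
      simp only [Complex.ofReal_one, one_mul]
      rw [a3', c1]
    calc _ ≤ _ := measure_mono_ae hsub
      _ ≤ _ := measure_union_le _ _
      _ ≤ j * T.mu {y | T.dd y.1 ≤ 8 * ‖k‖} + T.mu {y | T.dd y.1 ≤ 8 * ‖k‖} :=
        add_le_add ih (m.measure_preimage hD.nullMeasurableSet).le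
      _ = _ := by push_cast; ring

theorem tau_neg (h : ℂ) : ∀ᵐ y ∂T.mu, T.tau (-h) (T.tau h y) = y := by
  obtain ⟨C, hC, hm⟩ := T.dd_meas
  rw [ae_iff]
  have key : ∀ n : ℕ, T.mu {y | ¬ T.tau (-h) (T.tau h y) = y} ≤
      ENNReal.ofReal (C * (8 * ‖h‖ + 1) ^ 2 * (1 / ((n : ℝ) + 1))) := by
    intro n
    have hn : (0 : ℝ) < (n : ℝ) + 1 := by positivity
    have hn' : ((n : ℂ) + 1) ≠ 0 := by exact_mod_cast hn.ne'
    have h1 := T.Tau_neg_aux (h / (n + 1)) (n + 1)
    have e1 : (((n + 1 : ℕ) : ℝ) : ℂ) * (h / (n + 1)) = h := by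
      push_cast; field_simp
    have e2 : (((n + 1 : ℕ) : ℝ) : ℂ) * (-(h / (n + 1))) = -h := by
      rw [mul_neg, e1]
    rw [e1, e2] at h1
    have e3 : ‖h / ((n : ℂ) + 1)‖ = ‖h‖ / ((n : ℝ) + 1) := by
      rw [norm_div]
      congr 1
      have : ((n : ℂ) + 1) = (((n : ℝ) + 1 : ℝ) : ℂ) := by push_cast; ring
      rw [this, Complex.norm_real, Real.norm_eq_abs, abs_of_pos hn]
    have h2 : T.mu {y | T.dd y.1 ≤ 8 * ‖h / ((n : ℂ) + 1)‖} ≤
        ENNReal.ofReal (C * ((8 * ‖h‖ + 1) / ((n : ℝ) + 1)) ^ 2) := by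
      refine le_trans (measure_mono ?_) (hm _ (by positivity))
      intro y hy
      simp only [Set.mem_ofPred_eq] at hy ⊢
      rw [e3] at hy
      refine hy.trans ?_
      rw [← mul_div_assoc]
      gcongr
      linarith
    refine h1.trans ((mul_le_mul_right h2 _).trans (le_of_eq ?_))
    rw [← ENNReal.ofReal_natCast, ← ENNReal.ofReal_mul (Nat.cast_nonneg _)]
    congr 1
    push_cast
    field_simp
  have ht : Tendsto (fun n : ℕ => ENNReal.ofReal (C * (8 * ‖h‖ + 1) ^ 2 * (1 / ((n : ℝ) + 1))))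
      atTop (𝓝 (ENNReal.ofReal (C * (8 * ‖h‖ + 1) ^ 2 * 0))) :=
    ENNReal.tendsto_ofReal (tendsto_one_div_add_atTop_nhds_zero_nat.const_mul _)
  rw [mul_zero, ENNReal.ofReal_zero] at ht
  exact le_antisymm (ge_of_tendsto' ht key) zero_le

theorem Tau_add_nonneg (h : ℂ) {s : ℝ} (hs : 0 ≤ s) (t : ℝ) :
    ∀ᵐ y ∂T.mu, T.tau (s * h) (T.tau (t * h) y) = T.tau ((s + t : ℝ) * h) y := by
  rcases le_total 0 t with ht | ht
  · exact T.tau_add_pos h hs ht
  rcases le_total 0 (s + t) with hst | hst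
  · have h1 := (T.mp_tau (t * h)).quasiMeasurePreserving.ae
      (T.tau_add_pos h hst (neg_nonneg.2 ht))
    filter_upwards [h1, T.tau_neg (t * h)] with y a1 a2
    have e1 : s + t + -t = s := by ring
    have e2 : ((-t : ℝ) : ℂ) * h = -(t * h) := by push_cast; ring
    rw [e1, e2, a2] at a1
    exact a1.symm
  · have h1 := T.tau_add_pos (-h) hs (neg_nonneg.2 hst)
    have h2 := (T.mp_tau ((s + t : ℝ) * h)).quasiMeasurePreserving.ae (T.tau_neg (-(s * h)))
    filter_upwards [h1, h2] with y a1 a2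
    have e1 : ((s + -(s + t) : ℝ) : ℂ) * -h = t * h := by push_cast; ring
    have e2 : ((-(s + t) : ℝ) : ℂ) * -h = ((s + t : ℝ) : ℂ) * h := by push_cast; ring
    have e3 : (s : ℂ) * -h = -(s * h) := by ring
    rw [e1, e2, e3] at a1
    rw [neg_neg] at a2
    rw [← a1, a2]

theorem tau_add (h : ℂ) (s t : ℝ) :
    ∀ᵐ y ∂T.mu, T.tau (s * h) (T.tau (t * h) y) = T.tau ((s + t : ℝ) * h) y := by
  rcases le_total 0 s with hs | hs
  · exact T.Tau_add_nonneg h hs t
  have h1 := T.Tau_add_nonneg (-h) (neg_nonneg.2 hs) (-t)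
  have e1 : ((-s : ℝ) : ℂ) * -h = s * h := by push_cast; ring
  have e2 : ((-t : ℝ) : ℂ) * -h = t * h := by push_cast; ring
  have e3 : ((-s + -t : ℝ) : ℂ) * -h = ((s + t : ℝ) : ℂ) * h := by push_cast; ring
  rw [e1, e2, e3] at h1
  exact h1

theorem tau_rot (h : ℂ) (φ : ℝ) :
    ∀ᵐ y ∂T.mu, T.tau h (rot φ y) = rot φ (T.tau (exp (φ * I) * h) y) := by
  have h1 := (T.mp_rot φ).quasiMeasurePreserving.ae (T.ae_orb h)
  filter_upwards [h1, T.ae_orb (exp (φ * I) * h)] with y a1 a2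
  exact Orb.det a1 (Orb.rot a2)

theorem tau_cont (u : ℕ → ℂ) (hu : Tendsto u atTop (𝓝 0)) :
    ∀ᵐ y ∂T.mu, Tendsto (fun n => T.tau (u n) y) atTop (𝓝 y) := by
  have h1 := ae_all_iff.2 fun n : ℕ => T.tau_shift (u n)
  filter_upwards [h1, T.ae_In] with y a hy
  have h2 : Tendsto (fun n => shift (u n) y) atTop (𝓝 (shift 0 y)) :=
    (continuous_shift.tendsto ((0 : ℂ), y)).comp (hu.prodMk_nhds tendsto_const_nhds)
  rw [shift_zero] at h2
  have h3 : ∀ᶠ n in atTop, (shift (u n) y).1 ∈ T.In :=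
    ((continuous_fst.tendsto y).comp h2).eventually (T.isOpen_In.mem_nhds hy)
  refine h2.congr' ?_
  filter_upwards [h3] with n hn
  exact (a n hn).symm

theorem ae_orb_real (t : ℝ) (ht : 0 ≤ t) : ∀ᵐ y ∂T.mu, T.Orb 1 t y (T.tau t y) := by
  rcases ht.eq_or_lt with rfl | ht
  · filter_upwards [T.tau_zero] with y hy
    refine Orb.free 0 y _ le_rfl (fun s h1 h2 => absurd h1 (not_lt.2 h2)) ?_
    simp only [Complex.ofReal_zero, zero_mul, shift_zero, hy]
  · filter_upwards [T.ae_orb t] with y hy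
    have h1 : T.Orb (t * 1) 1 y (T.tau t y) := by rwa [mul_one]
    have h2 := Orb.scale ht h1
    rwa [mul_one] at h2

/-- the billiard system, with trivial second factor -/
def msys : MSys T.mu where
  τ := T.tau
  R := rot
  W _ y := y
  d y := T.dd y.1
  C := T.dd_meas.choose
  C_pos := T.dd_meas.choose_spec.1
  mτ := T.mp_tau
  mR := T.mp_rot
  mW _ := MeasurePreserving.id _
  md := (T.continuous_dd.comp continuous_fst).measurable
  τ_zero := T.tau_zero
  τ_add := T.tau_add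
  R_zero := .of_forall fun y => by simp [rot, rotD_zero]
  R_add s t := .of_forall fun y => by simp [rot, rotD_add]
  R_per := .of_forall fun y => by simp only [rot, rotD_two_pi]
  W_zero := .of_forall fun _ => rfl
  W_add _ _ := .of_forall fun _ => rfl
  τ_R := T.tau_rot
  τ_W _ _ := .of_forall fun _ => rfl
  R_W _ _ := .of_forall fun _ => rfl
  d_R _ := .of_forall fun _ => rfl
  d_W _ := .of_forall fun _ => rfl
  d_τ := T.dd_tau
  d_meas := T.dd_meas.choose_spec.2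
  loc := T.tau_loc
  τ_cont := T.tau_cont
  R_cont u hu := .of_forall fun y => by
    have h : Tendsto (fun n => rot (u n) y) atTop (𝓝 (rot 0 y)) :=
      (continuous_rot.tendsto ((0 : ℝ), y)).comp (hu.prodMk_nhds tendsto_const_nhds)
    have e : rot 0 y = y := by simp [rot, rotD_zero]
    rwa [e] at h
  W_cont _ _ := .of_forall fun _ => tendsto_const_nhds

end Tri

end Crest.Agent.R103
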